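import Vale.Agent.P352.NG.Defs

open MeasureTheory Filter Topology

namespace Vale.Agent.P352.HM

open GF H246 H496 H755 H15

noncomputable section

/-- The part of the wedge `a·z < 0 < b·z` that is bounded by the null hyperplane `a·z = 0` and by
a light cone which meets this null hyperplane in the parabola `b·z = -c (z·z)`. -/
def Rg (a b : V) (c : ℝ) : Set V :=
  {z | GF.mdot a z < 0 ∧ 0 < 1 + 2 * c * GF.mdot a z ∧ 0 < GF.mdot b z + c * GF.mdot z z}

variable {D : Type*} [NormedAddCommGroup D] [InnerProductSpace ℂ D]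

/-- The unitary operators `v t` and the antiunitary operator `j` on `D` are the modular unitaries
`Δ^{it}` and the modular conjugation of the set `N` of operators on `D` and the vacuum,
`j Δ^{1/2} X Ω = X* Ω`, and `k` is the modular Hamiltonian `log Δ`. -/
structure Modl (Q : Theory D) (N : Set (D → D)) (v : ℝ → D → D) (j k : D → D) : Prop where
  cyc : Dense {x | ∃ X ∈ N, X Q.vac = x}
  adj : ∀ X ∈ N, ∃ Y ∈ N, ∀ x y, inner ℂ (X x) y = inner ℂ x (Y y)
  inn : ∀ t x y, inner ℂ (v t x) (v t y) = inner ℂ x y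
  add : ∀ s t x, v (s + t) x = v s (v t x)
  vac : ∀ t, v t Q.vac = Q.vac
  inv : ∀ t, ∀ X ∈ N, (fun x => v t (X (v (-t) x))) ∈ N
  der : ∀ x, HasDerivAt (fun t : ℝ => v t x) (Complex.I • k x) 0
  jinn : ∀ x y, inner ℂ (j x) (j y) = inner ℂ y x
  jj : ∀ x, j (j x) = x
  jv : ∀ t x, j (v t x) = v t (j x)
  kms : ∀ X ∈ N, ∀ Y ∈ N, (∀ x y, inner ℂ (X x) y = inner ℂ x (Y y)) → ∀ y, ∃ F : ℂ → ℂ,
    DiffContOnCl ℂ F {z | -(1 / 2) < z.im ∧ z.im < 0} ∧
    (∃ C, ∀ z : ℂ, -(1 / 2) ≤ z.im → z.im ≤ 0 → ‖F z‖ ≤ C) ∧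
    ∀ t : ℝ, F t = inner ℂ y (v t (X Q.vac)) ∧
      F (t - Complex.I / 2) = inner ℂ y (v t (j (Y Q.vac)))

/-- A covariant net `alg` of sets of operators on `D` that contain the fields, and the modular
objects of the regions `Rg a b c`. Opposite wedges commute, the modular unitaries of the wedges
`c = 0` are the boosts (the property of Bisognano and Wichmann), and the generators of the boosts
and the smeared fields are bounded on the orbits of the modular unitaries. -/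
structure MNet (Q : Theory D) (A : (V → V) → D → D) (alg : Set V → Set (D → D))
    (v : V → V → ℝ → ℝ → D → D) (j k : V → V → ℝ → D → D) : Prop extends Rep Q A where
  fld : ∀ O B f, Q.fld B → In O f → B f ∈ alg O
  mono : ∀ O O', O ⊆ O' → alg O ⊆ alg O'
  cov : ∀ s L y O, ∀ X ∈ alg O, 0 < s → IsLor L →
    ∃ Y ∈ alg (sim s L y '' O), ∀ x, Y (Q.U s L y x) = Q.U s L y (X x)
  loc : ∀ a b, IsNull a → IsNull b → GF.mdot a b = 1 → ∀ X ∈ alg (Wdg a b 0),
    ∀ Y ∈ alg (Wdg b a 0), ∀ x, X (Y x) = Y (X x)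
  mod : ∀ a b c, IsNull a → IsNull b → GF.mdot a b = 1 → 0 ≤ c →
    Modl Q (alg (Rg a b c)) (v a b c) (j a b c) (k a b c)
  bw : ∀ a b t L x, IsNull a → IsNull b → GF.mdot a b = 1 → IsLor L →
    (∀ z, sim 1 L 0 z = z + ((Real.exp (-(2 * Real.pi * t)) - 1) * GF.mdot b z) • a +
      ((Real.exp (2 * Real.pi * t) - 1) * GF.mdot a z) • b) → v a b 0 t x = Q.U 1 L 0 x
  bdk : ∀ a b c x, IsNull a → IsNull b → GF.mdot a b = 1 → 0 ≤ c →
    ∃ C r : ℝ, ∀ t, ‖k a b 0 (v a b c t x)‖ ≤ C * Real.exp (r * |t|)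
  bdf : ∀ a b c B f x, IsNull a → IsNull b → GF.mdot a b = 1 → 0 ≤ c → Q.fld B → In (Rg a b c) f →
    ∃ C : ℝ, ∀ t, |t| ≤ 1 → ‖B f (v a b c t x)‖ ≤ C

end

end Vale.Agent.P352.HM
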