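import Vale.Agent.P352.H746.Nrt
import Vale.Agent.P352.H755.R7h
import Vale.Agent.P352.HM.Defs

/-!
# P352 HM: geometry of the regions `Rg a b c`
-/

set_option linter.all false

noncomputable section

open MeasureTheory Filter Topology Set

namespace Vale.Agent.P352.HM.H584

open GF (Ix V Fn Sch bas sim eta o)
open H246 H496 H755 H746

/-- the region `Rg a b c` for an arbitrary normalization of `a·b` -/
def Rgn (a b : V) (c : ℝ) : Set V :=
  {z | GF.mdot a z < 0 ∧ 0 < 1 + 2 * c * GF.mdot a z ∧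
    0 < GF.mdot b z + c * GF.mdot a b * GF.mdot z z}

lemma rgn_rg {a b : V} (hab : GF.mdot a b = 1) (c : ℝ) : Rgn a b c = Rg a b c := by
  ext z; simp only [Rgn, Rg, mem_setOf_eq, hab, mul_one]

lemma wdg0 (a b z : V) : z ∈ Wdg a b 0 ↔ GF.mdot a z < 0 ∧ 0 < GF.mdot b z := by
  simp only [Wdg, mem_setOf_eq, sub_zero]

/-- (g0) -/
lemma rgn_zero (a b : V) : Rgn a b 0 = Wdg a b 0 := by
  ext z
  rw [wdg0]
  simp [Rgn]

/-- the component of `z` orthogonal to `a` and `b` -/
def pj (a b z : V) : V :=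
  z - (GF.mdot b z / GF.mdot a b) • a - (GF.mdot a z / GF.mdot a b) • b

lemma pj_a {a b : V} (ha : IsNull a) (hk : GF.mdot a b ≠ 0) (z : V) :
    GF.mdot a (pj a b z) = 0 := by
  unfold pj
  rw [md_sub, md_sub, md_smul, md_smul, ha.1]
  field_simp
  ring

lemma pj_b {a b : V} (hb : IsNull b) (hk : GF.mdot a b ≠ 0) (z : V) :
    GF.mdot b (pj a b z) = 0 := by
  unfold pj
  rw [md_sub, md_sub, md_smul, md_smul, hb.1, md_comm b a]
  field_simp
  ring

lemma pj_sq {a b : V} (ha : IsNull a) (hb : IsNull b) (hk : GF.mdot a b ≠ 0) (z : V) :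
    GF.mdot a b * GF.mdot z z =
      2 * GF.mdot a z * GF.mdot b z + GF.mdot a b * GF.mdot (pj a b z) (pj a b z) := by
  unfold pj
  simp only [md_sub, md_sub_l, md_smul, md_smul_l, ha.1, hb.1, md_comm b a, md_comm z a,
    md_comm z b]
  field_simp
  ring

lemma pj_nonpos {a b : V} (ha : IsNull a) (hk : GF.mdot a b ≠ 0) (z : V) :
    GF.mdot (pj a b z) (pj a b z) ≤ 0 := orth_nonpos ha (pj_a ha hk z)

/-- (g1) -/
lemma rgn_mono {a b : V} (ha : IsNull a) (hb : IsNull b) (hk : 0 < GF.mdot a b) {c c' : ℝ}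
    (hc : 0 ≤ c) (hcc : c ≤ c') : Rgn a b c' ⊆ Rgn a b c := by
  rintro z ⟨h1, h2, h3⟩
  have hq := pj_sq ha hb hk.ne' z
  have hx := pj_nonpos ha hk.ne' z
  set X := GF.mdot (pj a b z) (pj a b z) with hX
  have e3 : GF.mdot b z + c' * GF.mdot a b * GF.mdot z z =
      GF.mdot b z * (1 + 2 * c' * GF.mdot a z) + c' * GF.mdot a b * X := by
    linear_combination c' * hq
  have e4 : GF.mdot b z + c * GF.mdot a b * GF.mdot z z =
      GF.mdot b z * (1 + 2 * c * GF.mdot a z) + c * GF.mdot a b * X := by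
    linear_combination c * hq
  rw [e3] at h3
  have hc' : 0 ≤ c' := hc.trans hcc
  have h4 : c' * GF.mdot a b * X ≤ 0 :=
    mul_nonpos_of_nonneg_of_nonpos (mul_nonneg hc' hk.le) hx
  have h5 : 0 < GF.mdot b z := by
    by_contra hle
    push Not at hle
    have := mul_nonpos_of_nonpos_of_nonneg hle h2.le
    linarith
  refine ⟨h1, ?_, ?_⟩
  · nlinarith
  · rw [e4]
    have h6 : GF.mdot b z * (1 + 2 * c' * GF.mdot a z) ≤
        GF.mdot b z * (1 + 2 * c * GF.mdot a z) := by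
      apply mul_le_mul_of_nonneg_left _ h5.le
      nlinarith
    have h7 : c' * GF.mdot a b * X ≤ c * GF.mdot a b * X := by
      have : (c' - c) * (GF.mdot a b * (-X)) ≥ 0 :=
        mul_nonneg (by linarith) (mul_nonneg hk.le (by linarith))
      nlinarith
    linarith

lemma rgn_sub {a b : V} (ha : IsNull a) (hb : IsNull b) (hk : 0 < GF.mdot a b) {c : ℝ}
    (hc : 0 ≤ c) : Rgn a b c ⊆ Wdg a b 0 := by
  rw [← rgn_zero]; exact rgn_mono ha hb hk le_rfl hc

lemma rgn_smul_l {a b : V} {r : ℝ} (hr : 0 < r) (c : ℝ) : Rgn (r • a) b c = Rgn a b (r * c) := by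
  ext z
  simp only [Rgn, mem_setOf_eq, md_smul_l]
  have e1 : r * GF.mdot a z < 0 ↔ GF.mdot a z < 0 := by
    constructor
    · intro h; by_contra hle; push Not at hle; have := mul_nonneg hr.le hle; linarith
    · intro h; exact mul_neg_of_pos_of_neg hr h
  have e2 : 1 + 2 * c * (r * GF.mdot a z) = 1 + 2 * (r * c) * GF.mdot a z := by ring
  have e3 : c * (r * GF.mdot a b) * GF.mdot z z = r * c * GF.mdot a b * GF.mdot z z := by ring
  rw [e1, e2, e3]

lemma rgn_smul_r {a b : V} {r : ℝ} (hr : 0 < r) (c : ℝ) : Rgn a (r • b) c = Rgn a b c := by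
  ext z
  simp only [Rgn, mem_setOf_eq, md_smul_l, md_smul]
  have e3 : r * GF.mdot b z + c * (r * GF.mdot a b) * GF.mdot z z =
    r * (GF.mdot b z + c * GF.mdot a b * GF.mdot z z) := by ring
  rw [e3]
  have e1 : 0 < r * (GF.mdot b z + c * GF.mdot a b * GF.mdot z z) ↔
    0 < GF.mdot b z + c * GF.mdot a b * GF.mdot z z := by
    constructor
    · intro h; exact (mul_pos_iff_of_pos_left hr).1 h
    · intro h; exact mul_pos hr h
  rw [e1]

lemma sim_t (s : ℝ) (L : Ix → V) (t z : V) : sim s L t z = sim s L 0 z + t := by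
  funext n; simp [sim, add_comm]

/-- (g2) -/
lemma rgn_img {a b : V} {s c : ℝ} {L : Ix → V} (hs : 0 < s) (hL : GF.IsLor L) :
    sim s L 0 '' Rgn a b c = Rgn (sim 1 L 0 a) (sim 1 L 0 b) (c / s) := by
  have key : ∀ z, sim s L 0 z ∈ Rgn (sim 1 L 0 a) (sim 1 L 0 b) (c / s) ↔ z ∈ Rgn a b c := by
    intro z
    rw [sim_s s L z]
    simp only [Rgn, mem_setOf_eq, md_smul, md_smul_l, md_LL hL]
    have e1 : s * GF.mdot a z < 0 ↔ GF.mdot a z < 0 := by
      constructor
      · intro h; by_contra hle; push Not at hle; have := mul_nonneg hs.le hle; linarith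
      · intro h; exact mul_neg_of_pos_of_neg hs h
    have e2 : 1 + 2 * (c / s) * (s * GF.mdot a z) = 1 + 2 * c * GF.mdot a z := by
      field_simp
    have e3 : s * GF.mdot b z + c / s * GF.mdot a b * (s * (s * GF.mdot z z)) =
        s * (GF.mdot b z + c * GF.mdot a b * GF.mdot z z) := by
      field_simp
    rw [e1, e2, e3, mul_pos_iff_of_pos_left hs]
  ext y
  constructor
  · rintro ⟨z, hz, rfl⟩; exact (key z).2 hz
  · intro hy
    refine ⟨s⁻¹ • sim 1 (linv L) 0 y, ?_, ?_⟩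
    · rw [← key, sim_s s L (s⁻¹ • sim 1 (linv L) 0 y), simL_smul, sim_linv hL, smul_smul,
        mul_inv_cancel₀ hs.ne', one_smul]
      exact hy
    · rw [sim_s s L (s⁻¹ • sim 1 (linv L) 0 y), simL_smul, sim_linv hL, smul_smul,
        mul_inv_cancel₀ hs.ne', one_smul]

lemma nrt_inv {a w : V} (ha : IsNull a) (hw : GF.mdot a w = 0) (x : V) :
    sim 1 (nrt a w) 0 (sim 1 (nrt a (-w)) 0 x) = x := by
  have h3 : GF.mdot w a = 0 := by rw [md_comm, hw]
  have hn : ∀ y z : V, GF.mdot (-y) z = -GF.mdot y z := by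
    intro y z
    have := md_smul_l y (-1) z
    rw [neg_one_smul] at this
    linarith
  have hn' : ∀ y z : V, GF.mdot y (-z) = -GF.mdot y z := by
    intro y z; rw [md_comm, hn, md_comm]
  rw [sim_nrt, sim_nrt]
  simp only [md_add, md_sub, md_smul, hn, hn', hw, h3, ha.1]
  funext n
  simp only [Pi.sub_apply, Pi.add_apply, Pi.smul_apply, Pi.neg_apply, smul_eq_mul]
  ring

/-- the null rotation does not see the component of `w` along `a` -/
lemma nrt_shift {a w : V} (ha : IsNull a) (hw : GF.mdot a w = 0) (t : ℝ) (x : V) :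
    sim 1 (nrt a (w + t • a)) 0 x = sim 1 (nrt a w) 0 x := by
  have h3 : GF.mdot w a = 0 := by rw [md_comm, hw]
  rw [sim_nrt, sim_nrt]
  simp only [md_add, md_add_l, md_smul, md_smul_l, hw, h3, ha.1]
  funext n
  simp only [Pi.sub_apply, Pi.add_apply, Pi.smul_apply, smul_eq_mul]
  ring

/-- (g3) a translation along the null hyperplane acts on the region as a null rotation -/
lemma rgn_tra {a b w : V} {c : ℝ} (ha : IsNull a) (hk : GF.mdot a b ≠ 0)
    (hw : GF.mdot a w = 0) :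
    (fun z => z + w) '' Rgn a b c = sim 1 (nrt a (-(c • w)))
      ((GF.mdot b w / GF.mdot a b - c * GF.mdot w w) • a) '' Rgn a b c := by
  have h3 : GF.mdot w a = 0 := by rw [md_comm, hw]
  have hn : ∀ y z : V, GF.mdot (-y) z = -GF.mdot y z := by
    intro y z
    have := md_smul_l y (-1) z
    rw [neg_one_smul] at this
    linarith
  have hn' : ∀ y z : V, GF.mdot y (-z) = -GF.mdot y z := by
    intro y z; rw [md_comm, hn, md_comm]
  set σ := GF.mdot b w / GF.mdot a b - c * GF.mdot w w with hσ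
  have hσk : σ * GF.mdot a b = GF.mdot b w - c * GF.mdot a b * GF.mdot w w := by
    rw [hσ]; field_simp
  have hcw : GF.mdot a (-(c • w)) = 0 := by rw [hn', md_smul, hw, mul_zero, neg_zero]
  set g := sim 1 (nrt a (-(c • w))) (σ • a) with hg
  have hgz : ∀ z, g z = sim 1 (nrt a (-(c • w))) 0 z + σ • a := fun z => sim_t _ _ _ z
  have k1 : ∀ z, GF.mdot a (g z - w) = GF.mdot a z := by
    intro z
    rw [hgz, sim_nrt]
    simp only [md_add, md_sub, md_smul, hn, hn', hw, ha.1]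
    ring
  have k2 : ∀ z, GF.mdot b (g z - w) + c * GF.mdot a b * GF.mdot (g z - w) (g z - w) =
      GF.mdot b z + c * GF.mdot a b * GF.mdot z z := by
    intro z
    rw [hgz, sim_nrt]
    simp only [md_add, md_sub, md_smul, md_add_l, md_sub_l, md_smul_l, hn, hn', hw, h3, ha.1,
      md_comm b a, md_comm z a, md_comm z w]
    linear_combination (1 + 2 * c * GF.mdot a z) * hσk
  have key : ∀ z, g z - w ∈ Rgn a b c ↔ z ∈ Rgn a b c := by
    intro z
    simp only [Rgn, mem_setOf_eq, k1, k2]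
  ext y
  constructor
  · rintro ⟨z, hz, rfl⟩
    have hi : g (sim 1 (nrt a (c • w)) 0 (z + w - σ • a)) = z + w := by
      rw [hgz]
      have := nrt_inv ha hcw (z + w - σ • a)
      rw [neg_neg] at this
      rw [this]; simp
    refine ⟨_, ?_, hi⟩
    rw [← key, hi]
    simpa using hz
  · rintro ⟨z, hz, rfl⟩
    exact ⟨g z - w, (key z).2 hz, by simp⟩

/-- the Poincaré maps that fix the region -/
lemma rgn_self {a b w : V} {c : ℝ} (ha : IsNull a) (hk : GF.mdot a b ≠ 0)
    (hw : GF.mdot a w = 0) :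
    sim 1 (nrt a (c • w)) (w - (GF.mdot b w / GF.mdot a b + c * GF.mdot w w) • a) ''
      Rgn a b c = Rgn a b c := by
  have h3 : GF.mdot w a = 0 := by rw [md_comm, hw]
  have hn : ∀ y z : V, GF.mdot (-y) z = -GF.mdot y z := by
    intro y z
    have := md_smul_l y (-1) z
    rw [neg_one_smul] at this
    linarith
  have hn' : ∀ y z : V, GF.mdot y (-z) = -GF.mdot y z := by
    intro y z; rw [md_comm, hn, md_comm]
  set τ := GF.mdot b w / GF.mdot a b + c * GF.mdot w w with hτ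
  have hτk : τ * GF.mdot a b = GF.mdot b w + c * GF.mdot a b * GF.mdot w w := by
    rw [hτ]; field_simp
  have hcw : GF.mdot a (c • w) = 0 := by rw [md_smul, hw, mul_zero]
  set g := sim 1 (nrt a (c • w)) (w - τ • a) with hg
  have hgz : ∀ z, g z = sim 1 (nrt a (c • w)) 0 z + (w - τ • a) := fun z => sim_t _ _ _ z
  have k1 : ∀ z, GF.mdot a (g z) = GF.mdot a z := by
    intro z
    rw [hgz, sim_nrt]
    simp only [md_add, md_sub, md_smul, hn, hn', hw, ha.1]
    ring
  have k2 : ∀ z, GF.mdot b (g z) + c * GF.mdot a b * GF.mdot (g z) (g z) =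
      GF.mdot b z + c * GF.mdot a b * GF.mdot z z := by
    intro z
    rw [hgz, sim_nrt]
    simp only [md_add, md_sub, md_smul, md_add_l, md_sub_l, md_smul_l, hn, hn', hw, h3, ha.1,
      md_comm b a, md_comm z a, md_comm z w]
    linear_combination (-(1 + 2 * c * GF.mdot a z)) * hτk
  have key : ∀ z, g z ∈ Rgn a b c ↔ z ∈ Rgn a b c := by
    intro z
    simp only [Rgn, mem_setOf_eq, k1, k2]
  ext y
  constructor
  · rintro ⟨z, hz, rfl⟩; exact (key z).2 hz
  · intro hy
    have hi : g (sim 1 (nrt a (-(c • w))) 0 (y - (w - τ • a))) = y := by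
      rw [hgz, nrt_inv ha hcw]; simp
    refine ⟨_, ?_, hi⟩
    rw [← key, hi]
    exact hy

/-- boosts -/
lemma rgn_bst {a b : V} (ha : IsNull a) (hb : IsNull b) (hab : GF.mdot a b = 1) {α β c : ℝ}
    (hα : 0 < 1 + α) (h : (1 + α) * (1 + β) = 1) :
    sim 1 (bst a b α β) 0 '' Rgn a b c = Rgn a b ((1 + α) * c) := by
  have hβ : 0 < 1 + β := by
    by_contra hle
    push Not at hle
    nlinarith
  have h1 : sim 1 (bst a b α β) 0 a = (1 + α) • a := by
    rw [sim_bst, md_comm b a, hab, ha.1]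
    funext n; simp; ring
  have h2 : sim 1 (bst a b α β) 0 b = (1 + β) • b := by
    rw [sim_bst, hb.1, hab]
    funext n; simp; ring
  rw [rgn_img one_pos (isLor_bst ha hb hab hα h), h1, h2, rgn_smul_l hα, rgn_smul_r hβ, div_one]

lemma cont_md (a : V) : Continuous fun z : V => GF.mdot a z := by
  unfold GF.mdot
  fun_prop

lemma cont_sq : Continuous fun z : V => GF.mdot z z := by
  unfold GF.mdot
  fun_prop

/-- compact subsets of the wedge lie in one of the regions -/
lemma rgn_cpt {a b : V} {f : Fn} (hf : In (Wdg a b 0) f) : ∃ c : ℝ, 0 < c ∧ In (Rgn a b c) f := by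
  obtain ⟨h1, h2, h3⟩ := hf
  have hK : IsCompact (tsupport f) := h2
  rcases (tsupport f).eq_empty_or_nonempty with he | hne
  · refine ⟨1, one_pos, h1, h2, ?_⟩
    rw [he]; exact empty_subset _
  obtain ⟨C1, hC1⟩ := hK.exists_bound_of_continuousOn (cont_md a).continuousOn
  obtain ⟨C2, hC2⟩ := hK.exists_bound_of_continuousOn
    (f := fun z => GF.mdot a b * GF.mdot z z) (continuous_const.mul cont_sq).continuousOn
  obtain ⟨z0, hz0, hm⟩ := hK.exists_isMinOn hne (cont_md b).continuousOn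
  have hm0 : 0 < GF.mdot b z0 := ((wdg0 a b z0).1 (h3 hz0)).2
  set m := GF.mdot b z0
  have hC1' : 0 ≤ C1 := (norm_nonneg _).trans (hC1 z0 hz0)
  have hC2' : 0 ≤ C2 := (norm_nonneg _).trans (hC2 z0 hz0)
  have hc : 0 < min (1 / (2 * (C1 + 1))) (m / (2 * (C2 + 1))) :=
    lt_min (by positivity) (by positivity)
  refine ⟨min (1 / (2 * (C1 + 1))) (m / (2 * (C2 + 1))), hc, h1, h2, ?_⟩
  set c := min (1 / (2 * (C1 + 1))) (m / (2 * (C2 + 1))) with hcd
  have hca : c * (2 * (C1 + 1)) ≤ 1 := by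
    rw [← le_div_iff₀ (by positivity)]; exact min_le_left _ _
  have hcb : c * (2 * (C2 + 1)) ≤ m := by
    rw [← le_div_iff₀ (by positivity)]; exact min_le_right _ _
  intro z hz
  obtain ⟨w1, w2⟩ := (wdg0 a b z).1 (h3 hz)
  have g1 := (abs_le.1 (Real.norm_eq_abs _ ▸ hC1 z hz)).1
  have g2 := (abs_le.1 (Real.norm_eq_abs _ ▸ hC2 z hz)).1
  have g3 : m ≤ GF.mdot b z := hm hz
  refine ⟨w1, ?_, ?_⟩
  · have : c * (-C1) ≤ c * GF.mdot a z := mul_le_mul_of_nonneg_left g1 hc.le
    nlinarith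
  · have e : c * GF.mdot a b * GF.mdot z z = c * (GF.mdot a b * GF.mdot z z) := by ring
    have : c * (-C2) ≤ c * (GF.mdot a b * GF.mdot z z) := mul_le_mul_of_nonneg_left g2 hc.le
    rw [e]
    nlinarith

/-! ### The letters of HM (`a·b = 1`) -/

lemma Rg_zero (a b : V) : Rg a b 0 = Wdg a b 0 := by
  ext z
  rw [wdg0]
  simp [Rg]

lemma Rg_mono {a b : V} (ha : IsNull a) (hb : IsNull b) (hab : GF.mdot a b = 1) {c c1 : ℝ}
    (hc : 0 ≤ c) (hcc : c ≤ c1) : Rg a b c1 ⊆ Rg a b c := by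
  rw [← rgn_rg hab, ← rgn_rg hab]
  exact rgn_mono ha hb (by rw [hab]; exact one_pos) hc hcc

lemma Rg_img {a b a1 : V} (hab : GF.mdot a b = 1) {s r c : ℝ} {L : Ix → V} (hs : 0 < s)
    (hr : 0 < r) (hL : GF.IsLor L) (ha : sim 1 L 0 a = r • a1) :
    sim s L 0 '' Rg a b c = Rg a1 (r • sim 1 L 0 b) (r / s * c) := by
  have h1 : GF.mdot a1 (r • sim 1 L 0 b) = 1 := by
    rw [md_smul, ← md_smul_l, ← ha, md_LL hL, hab]
  rw [← rgn_rg hab, ← rgn_rg h1, rgn_img hs hL, ha, rgn_smul_l hr, rgn_smul_r hr]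
  congr 1
  ring

lemma Rg_tra {a b x : V} (ha : IsNull a) (hab : GF.mdot a b = 1) (hax : GF.mdot a x = 0)
    (hbx : GF.mdot b x = 0) (c : ℝ) :
    sim 1 GF.one x '' Rg a b c =
      sim 1 (nrt a (-(c • x))) (-(c * GF.mdot x x) • a) '' Rg a b c := by
  have h1 : sim 1 GF.one x = fun z => z + x := by
    funext z n
    simp [sim, GF.one, bas, add_comm]
  have h2 := rgn_tra (c := c) ha (by rw [hab]; exact one_ne_zero) hax
  rw [hbx, zero_div, zero_sub, rgn_rg hab] at h2
  rw [h1, h2]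

lemma Rg_self {a b x : V} (ha : IsNull a) (hab : GF.mdot a b = 1) (hax : GF.mdot a x = 0)
    (hbx : GF.mdot b x = 0) (c : ℝ) :
    sim 1 (nrt a (c • x)) (x - (c * GF.mdot x x) • a) '' Rg a b c = Rg a b c := by
  have h2 := rgn_self (c := c) ha (by rw [hab]; exact one_ne_zero) hax
  rw [hbx, zero_div, zero_add, rgn_rg hab] at h2
  exact h2

lemma Rg_bst {a b : V} (ha : IsNull a) (hb : IsNull b) (hab : GF.mdot a b = 1) {α β c : ℝ}
    (hα : 0 < 1 + α) (h : (1 + α) * (1 + β) = 1) :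
    sim 1 (bst a b α β) 0 '' Rg a b c = Rg a b ((1 + α) * c) := by
  rw [← rgn_rg hab, ← rgn_rg hab]
  exact rgn_bst ha hb hab hα h

lemma Rg_cpt {a b : V} (hab : GF.mdot a b = 1) {f : Fn} (hf : In (Wdg a b 0) f) :
    ∃ c : ℝ, 0 < c ∧ In (Rg a b c) f := by
  obtain ⟨c, hc, h⟩ := rgn_cpt hf
  rw [rgn_rg hab] at h
  exact ⟨c, hc, h⟩

end Vale.Agent.P352.HM.H584

end
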