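import Vale.Agent.P352.HM.Defs
import Vale.Agent.P352.H746.Nrt

/-!
# P352 HM, block R: geometry of the regions `Rg a b c`
-/

set_option linter.all false

noncomputable section

open MeasureTheory Filter Topology

namespace Vale.Agent.P352.HM

open GF (Ix V Fn Fld Theory IsLor bas eta o sim)
open H246 H496 H755 H15

/-! ### Preliminaries -/

lemma rmd (x y : V) : GF.mdot x y = x 0 * y 0 - x 1 * y 1 - x 2 * y 2 - x 3 * y 3 := by
  have e0 : eta 0 = 1 := rfl
  have e1 : eta 1 = -1 := by simp [eta, o]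
  have e2 : eta 2 = -1 := by simp [eta, o]
  have e3 : eta 3 = -1 := by simp [eta, o]
  unfold GF.mdot
  rw [Fin.sum_univ_four, e0, e1, e2, e3]
  ring

lemma rmd_comm (x y : V) : GF.mdot x y = GF.mdot y x := by rw [rmd, rmd]; ring

lemma rmd_add (x y z : V) : GF.mdot x (y + z) = GF.mdot x y + GF.mdot x z := by
  simp only [rmd, Pi.add_apply]; ring

lemma rmd_sub (x y z : V) : GF.mdot x (y - z) = GF.mdot x y - GF.mdot x z := by
  simp only [rmd, Pi.sub_apply]; ring

lemma rmd_smul (x y : V) (c : ℝ) : GF.mdot x (c • y) = c * GF.mdot x y := by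
  simp only [rmd, Pi.smul_apply, smul_eq_mul]; ring

lemma rmd_add' (x y z : V) : GF.mdot (y + z) x = GF.mdot y x + GF.mdot z x := by
  simp only [rmd, Pi.add_apply]; ring

lemma rmd_sub' (x y z : V) : GF.mdot (y - z) x = GF.mdot y x - GF.mdot z x := by
  simp only [rmd, Pi.sub_apply]; ring

lemma rmd_smul' (x y : V) (c : ℝ) : GF.mdot (c • y) x = c * GF.mdot y x := by
  simp only [rmd, Pi.smul_apply, smul_eq_mul]; ring

lemma rmd_cont (a : V) : Continuous fun z : V => GF.mdot a z := by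
  simp only [rmd]
  fun_prop

lemma rmd_cont_sq : Continuous fun z : V => GF.mdot z z := by
  simp only [rmd]
  fun_prop

/-- `z·z ≤ 2 (a·z) (b·z)` -/
lemma mdot_sq_le {a b : V} (ha : IsNull a) (hb : IsNull b) (hab : GF.mdot a b = 1) (z : V) :
    GF.mdot z z ≤ 2 * GF.mdot a z * GF.mdot b z := by
  have h0 : GF.mdot a (z - GF.mdot a z • b - GF.mdot b z • a) = 0 := by
    rw [rmd_sub, rmd_sub, rmd_smul, rmd_smul, hab, ha.1]; ring
  have h1 := orth_nonpos ha h0
  have h2 : GF.mdot (z - GF.mdot a z • b - GF.mdot b z • a)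
      (z - GF.mdot a z • b - GF.mdot b z • a) = GF.mdot z z - 2 * GF.mdot a z * GF.mdot b z := by
    simp only [rmd_sub, rmd_smul, rmd_sub', rmd_smul']
    rw [rmd_comm z b, rmd_comm z a, rmd_comm b a, hab, ha.1, hb.1]
    ring
  linarith

lemma sim_sl (s : ℝ) (L : Ix → V) (z : V) : sim s L 0 z = s • sim 1 L 0 z := by
  funext n
  simp [sim]

lemma sim_tr (x z : V) : sim 1 GF.one x z = z + x := by
  funext n
  simp [sim, GF.one, bas, add_comm]

lemma sim_at (s : ℝ) (L : Ix → V) (x z : V) : sim s L x z = sim s L 0 z + x := by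
  funext n
  simp [sim, add_comm]

lemma mem_Rg {a b z : V} {c : ℝ} : z ∈ Rg a b c ↔
    GF.mdot a z < 0 ∧ 0 < 1 + 2 * c * GF.mdot a z ∧ 0 < GF.mdot b z + c * GF.mdot z z := Iff.rfl

/-! ### The regions -/

/-- for `c = 0` the region is the wedge -/
theorem Rg_zero (a b : V) : Rg a b 0 = Wdg a b 0 := by
  ext z
  simp [Rg, Wdg]

/-- the regions decrease with `c` -/
theorem Rg_mono {a b : V} (ha : IsNull a) (hb : IsNull b) (hab : GF.mdot a b = 1) {c c1 : ℝ}
    (hc : 0 ≤ c) (hcc : c ≤ c1) : Rg a b c1 ⊆ Rg a b c := by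
  rintro z ⟨h1, h2, h3⟩
  have h4 := mdot_sq_le ha hb hab z
  have hc1 : 0 ≤ c1 := hc.trans hcc
  have h5 : 0 < GF.mdot b z * (1 + 2 * c1 * GF.mdot a z) := by
    have := mul_le_mul_of_nonneg_left h4 hc1
    nlinarith
  have h6 : 0 < GF.mdot b z := by
    by_contra hneg
    push Not at hneg
    nlinarith [mul_nonneg (neg_nonneg.2 hneg) h2.le]
  have h7 : GF.mdot z z ≤ 0 := by
    have : GF.mdot a z * GF.mdot b z < 0 := mul_neg_of_neg_of_pos h1 h6
    nlinarith
  refine ⟨h1, ?_, ?_⟩
  · nlinarith [mul_nonneg (sub_nonneg.2 hcc) (neg_nonneg.2 h1.le)]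
  · nlinarith [mul_nonneg (sub_nonneg.2 hcc) (neg_nonneg.2 h7)]

lemma rmdot_sim {L : Ix → V} (hL : IsLor L) (x y : V) :
    GF.mdot (sim 1 L 0 x) (sim 1 L 0 y) = GF.mdot x y := mdot_sim hL x y

/-- images under the similitudes -/
theorem Rg_img {s r : ℝ} {L : Ix → V} {a a1 b : V} {c : ℝ} (hs : 0 < s) (hr : 0 < r)
    (hL : IsLor L) (ha : sim 1 L 0 a = r • a1) :
    sim s L 0 '' Rg a b c = Rg a1 (r • sim 1 L 0 b) (r / s * c) := by
  have key : ∀ z, sim s L 0 z ∈ Rg a1 (r • sim 1 L 0 b) (r / s * c) ↔ z ∈ Rg a b c := by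
    intro z
    have e1 : GF.mdot a1 (sim s L 0 z) = s / r * GF.mdot a z := by
      have h := rmdot_sim hL a z
      rw [ha, rmd_smul'] at h
      rw [sim_sl, rmd_smul, ← h]
      field_simp
    have e2 : GF.mdot (r • sim 1 L 0 b) (sim s L 0 z) = r * s * GF.mdot b z := by
      rw [sim_sl s L z, rmd_smul', rmd_smul, rmdot_sim hL]
      ring
    have e3 : GF.mdot (sim s L 0 z) (sim s L 0 z) = s ^ 2 * GF.mdot z z := by
      rw [sim_sl, rmd_smul', rmd_smul, rmdot_sim hL]
      ring
    have hsr : 0 < s / r := div_pos hs hr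
    have hrs : 0 < r * s := mul_pos hr hs
    rw [mem_Rg, mem_Rg, e1, e2, e3]
    have f1 : s / r * GF.mdot a z < 0 ↔ GF.mdot a z < 0 := by
      constructor
      · intro h
        by_contra hn
        push Not at hn
        nlinarith [mul_nonneg hsr.le hn]
      · intro h
        exact mul_neg_of_pos_of_neg hsr h
    have f2 : 1 + 2 * (r / s * c) * (s / r * GF.mdot a z) = 1 + 2 * c * GF.mdot a z := by
      field_simp
    have f3 : r * s * GF.mdot b z + r / s * c * (s ^ 2 * GF.mdot z z) =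
        r * s * (GF.mdot b z + c * GF.mdot z z) := by
      field_simp
    rw [f1, f2, f3, mul_pos_iff_of_pos_left hrs]
  ext y
  constructor
  · rintro ⟨z, hz, rfl⟩
    exact (key z).2 hz
  · intro hy
    obtain ⟨z, rfl⟩ : ∃ z, sim s L 0 z = y :=
      ⟨(simE s L hs hL).symm y, by rw [← H755.simE_apply hs hL, LinearEquiv.apply_symm_apply]⟩
    exact ⟨z, (key z).1 hy, rfl⟩

/-- the supertranslation `z ↦ N z - c (x·x) a`, where `N` is the null rotation with the vector
`-c x`, carries `Rg a b c` onto the translate `Rg a b c + x` -/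
theorem Rg_tra {a b x : V} {c : ℝ} (ha : IsNull a) (hb : IsNull b) (hab : GF.mdot a b = 1)
    (hax : GF.mdot a x = 0) (hbx : GF.mdot b x = 0) :
    sim 1 GF.one x '' Rg a b c =
      sim 1 (H746.nrt a (-(c • x))) (-(c * GF.mdot x x) • a) '' Rg a b c := by
  have hw : GF.mdot a (-(c • x)) = 0 := by
    rw [← neg_smul, rmd_smul, hax, mul_zero]
  have hL : IsLor (H746.nrt a (-(c • x))) := H746.isLor_nrt ha hw
  have hxa : GF.mdot x a = 0 := by rw [rmd_comm, hax]
  have hxb : GF.mdot x b = 0 := by rw [rmd_comm, hbx]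
  have hba : GF.mdot b a = 1 := by rw [rmd_comm, hab]
  have key : ∀ z, sim 1 (H746.nrt a (-(c • x))) (-(c * GF.mdot x x) • a) z - x ∈ Rg a b c ↔
      z ∈ Rg a b c := by
    intro z
    have e : sim 1 (H746.nrt a (-(c • x))) (-(c * GF.mdot x x) • a) z - x =
        z + (2 * c * GF.mdot x z) • a + (-(2 * c * GF.mdot a z)) • x +
          (-(2 * c ^ 2 * GF.mdot x x * GF.mdot a z)) • a + (-(c * GF.mdot x x)) • a +
          (-1 : ℝ) • x := by
      rw [sim_at, H746.sim_nrt]
      have h1 : GF.mdot (-(c • x)) z = -(c * GF.mdot x z) := by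
        rw [← neg_smul, rmd_smul']; ring
      have h2 : GF.mdot (-(c • x)) (-(c • x)) = c ^ 2 * GF.mdot x x := by
        rw [← neg_smul, rmd_smul', rmd_smul]; ring
      rw [h1, h2]
      funext n
      simp only [Pi.sub_apply, Pi.add_apply, Pi.smul_apply, Pi.neg_apply, smul_eq_mul]
      ring
    rw [e, mem_Rg, mem_Rg]
    have e1 : GF.mdot a (z + (2 * c * GF.mdot x z) • a + (-(2 * c * GF.mdot a z)) • x +
          (-(2 * c ^ 2 * GF.mdot x x * GF.mdot a z)) • a + (-(c * GF.mdot x x)) • a +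
          (-1 : ℝ) • x) = GF.mdot a z := by
      simp only [rmd_add, rmd_smul, ha.1, hax]
      ring
    have e2 : GF.mdot b (z + (2 * c * GF.mdot x z) • a + (-(2 * c * GF.mdot a z)) • x +
          (-(2 * c ^ 2 * GF.mdot x x * GF.mdot a z)) • a + (-(c * GF.mdot x x)) • a +
          (-1 : ℝ) • x) = GF.mdot b z + 2 * c * GF.mdot x z -
            2 * c ^ 2 * GF.mdot x x * GF.mdot a z - c * GF.mdot x x := by
      simp only [rmd_add, rmd_smul, hba, hbx]
      ring
    have e3 : GF.mdot (z + (2 * c * GF.mdot x z) • a + (-(2 * c * GF.mdot a z)) • x +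
          (-(2 * c ^ 2 * GF.mdot x x * GF.mdot a z)) • a + (-(c * GF.mdot x x)) • a +
          (-1 : ℝ) • x) (z + (2 * c * GF.mdot x z) • a + (-(2 * c * GF.mdot a z)) • x +
          (-(2 * c ^ 2 * GF.mdot x x * GF.mdot a z)) • a + (-(c * GF.mdot x x)) • a +
          (-1 : ℝ) • x) = GF.mdot z z + 2 * c * GF.mdot x x * GF.mdot a z -
            2 * GF.mdot x z + GF.mdot x x := by
      simp only [rmd_add, rmd_smul, rmd_add', rmd_smul', ha.1, hax, hxa]
      rw [rmd_comm z x, rmd_comm z a]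
      ring
    rw [e1, e2, e3]
    have f : GF.mdot b z + 2 * c * GF.mdot x z - 2 * c ^ 2 * GF.mdot x x * GF.mdot a z -
          c * GF.mdot x x + c * (GF.mdot z z + 2 * c * GF.mdot x x * GF.mdot a z -
            2 * GF.mdot x z + GF.mdot x x) = GF.mdot b z + c * GF.mdot z z := by ring
    rw [f]
  ext y
  constructor
  · rintro ⟨z, hz, rfl⟩
    rw [sim_tr]
    set N := H746.nrt a (-(c • x)) with hN
    obtain ⟨u, hu⟩ : ∃ u, sim 1 N 0 u = z + x + (c * GF.mdot x x) • a :=
      ⟨(simE 1 N one_pos hL).symm (z + x + (c * GF.mdot x x) • a), by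
        rw [← H755.simE_apply one_pos hL, LinearEquiv.apply_symm_apply]⟩
    have hu2 : sim 1 N (-(c * GF.mdot x x) • a) u = z + x := by
      rw [sim_at, hu, neg_smul]
      abel
    refine ⟨u, (key u).1 ?_, hu2⟩
    rw [hu2]
    simpa using hz
  · rintro ⟨z, hz, rfl⟩
    refine ⟨sim 1 (H746.nrt a (-(c • x))) (-(c * GF.mdot x x) • a) z - x, (key z).2 hz, ?_⟩
    rw [sim_tr]
    abel

/-- a test function with compact support in the wedge has its support in the region `Rg a b c`
for small `c` -/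
theorem Rg_cpt {a b : V} {f : Fn} (hf : In (Wdg a b 0) f) : ∃ c > 0, In (Rg a b c) f := by
  obtain ⟨h1, h2, h3⟩ := hf
  have hK : IsCompact (tsupport f) := h2
  obtain ⟨M1, hM1⟩ := hK.exists_bound_of_continuousOn (rmd_cont a).continuousOn
  obtain ⟨M2, hM2⟩ := hK.exists_bound_of_continuousOn rmd_cont_sq.continuousOn
  rcases (tsupport f).eq_empty_or_nonempty with he | hne
  · exact ⟨1, one_pos, h1, h2, by rw [he]; exact Set.empty_subset _⟩
  obtain ⟨z0, hz0, hmin⟩ := hK.exists_isMinOn hne (rmd_cont b).continuousOn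
  have hβ : 0 < GF.mdot b z0 := by
    have := (h3 hz0).2
    simpa using this
  set M : ℝ := |M1| + |M2| + 1 with hM
  have hMpos : 0 < M := by positivity
  set β := GF.mdot b z0 with hβd
  refine ⟨min (1 / (4 * M)) (β / (2 * M)), by positivity, h1, h2, ?_⟩
  intro z hz
  have hc0 : 0 < min (1 / (4 * M)) (β / (2 * M)) := by positivity
  have hc1 : min (1 / (4 * M)) (β / (2 * M)) ≤ 1 / (4 * M) := min_le_left _ _
  have hc2 : min (1 / (4 * M)) (β / (2 * M)) ≤ β / (2 * M) := min_le_right _ _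
  set c := min (1 / (4 * M)) (β / (2 * M)) with hcd
  have ha1 : |GF.mdot a z| ≤ M := by
    have := hM1 z hz
    rw [Real.norm_eq_abs] at this
    have := le_abs_self M1
    have := abs_nonneg M2
    linarith
  have ha2 : |GF.mdot z z| ≤ M := by
    have := hM2 z hz
    rw [Real.norm_eq_abs] at this
    have := le_abs_self M2
    have := abs_nonneg M1
    linarith
  have hcM1 : c * M ≤ 1 / 4 := by
    have := mul_le_mul_of_nonneg_right hc1 hMpos.le
    have e : 1 / (4 * M) * M = 1 / 4 := by field_simp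
    linarith
  have hcM2 : c * M ≤ β / 2 := by
    have := mul_le_mul_of_nonneg_right hc2 hMpos.le
    have e : β / (2 * M) * M = β / 2 := by field_simp
    linarith
  have hz3 := h3 hz
  have hbz : β ≤ GF.mdot b z := hmin hz
  refine ⟨by simpa using hz3.1, ?_, ?_⟩
  · have h5 : c * (-GF.mdot a z) ≤ c * M :=
      mul_le_mul_of_nonneg_left (by linarith [neg_abs_le (GF.mdot a z)]) hc0.le
    nlinarith
  · have h5 : c * (-GF.mdot z z) ≤ c * M :=
      mul_le_mul_of_nonneg_left (by linarith [neg_abs_le (GF.mdot z z)]) hc0.le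
    linarith

end Vale.Agent.P352.HM

end
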