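import Vale.Agent.P352.HM.Lit

/-!
# P352 HM, block A3: smoothed functions converge
-/

set_option linter.all false

noncomputable section

open MeasureTheory Filter Topology Asymptotics

namespace Vale.Agent.P352.HM

namespace A34


/-- the one dimensional Gaussian with complex shift -/
def g1 (w : ℂ) (x : ℝ) : ℂ := Complex.exp (-((x : ℂ) + w) ^ 2)

/-- the normalised product -/
def g2 (w : ℂ) (s : ℝ × ℝ) : ℂ := ((1 / Real.pi : ℝ) : ℂ) * (g1 w s.1 * g1 w s.2)

lemma g1_cont (w : ℂ) : Continuous (g1 w) := by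
  unfold g1; fun_prop

lemma g2_cont (w : ℂ) : Continuous (g2 w) := by
  unfold g2 g1; fun_prop

lemma norm_g1 (w : ℂ) (x : ℝ) : ‖g1 w x‖ = Real.exp (w.im ^ 2 - (x + w.re) ^ 2) := by
  unfold g1
  rw [Complex.norm_exp]
  congr 1
  simp [pow_two, Complex.mul_re]

lemma gg_scale {m : ℝ} (hm : 0 < m) (z : ℂ) (s : ℝ × ℝ) :
    gg m z ((Real.sqrt m)⁻¹ • s) = (m : ℂ) * g2 ((Real.sqrt m : ℝ) * z) s := by
  have hs : ((Real.sqrt m : ℝ) : ℂ) ^ 2 = (m : ℂ) := by
    rw [← Complex.ofReal_pow, Real.sq_sqrt hm.le]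
  have hs0 : ((Real.sqrt m : ℝ) : ℂ) ≠ 0 := by
    exact_mod_cast (Real.sqrt_pos.2 hm).ne'
  have key : ∀ x : ℝ, -(m : ℂ) * ((((Real.sqrt m)⁻¹ * x : ℝ) : ℂ) + z) ^ 2 =
      -((x : ℂ) + (Real.sqrt m : ℝ) * z) ^ 2 := by
    intro x
    rw [← hs]
    push_cast
    field_simp
  unfold gg g2 g1
  simp only [Prod.smul_fst, Prod.smul_snd, smul_eq_mul, key]
  push_cast
  ring

lemma dg_scale {m : ℝ} (hm : 0 < m) (k : ℝ × ℝ → ℂ) (z : ℂ) :
    dg m k z = ∫ s, g2 ((Real.sqrt m : ℝ) * z) s * k ((Real.sqrt m)⁻¹ • s) := by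
  have h := Measure.integral_comp_smul (volume : Measure (ℝ × ℝ)) (fun p => gg m z p * k p)
    ((Real.sqrt m)⁻¹)
  have hsm := Real.sqrt_pos.2 hm
  have hfr : Module.finrank ℝ (ℝ × ℝ) = 2 := by simp
  rw [hfr] at h
  have hc : |(((Real.sqrt m)⁻¹) ^ 2)⁻¹| = m := by
    rw [inv_pow, Real.sq_sqrt hm.le, inv_inv, abs_of_pos hm]
  rw [hc] at h
  have h2 : (∫ s, g2 ((Real.sqrt m : ℝ) * z) s * k ((Real.sqrt m)⁻¹ • s)) =
      (m : ℂ)⁻¹ * ∫ s, gg m z ((Real.sqrt m)⁻¹ • s) * k ((Real.sqrt m)⁻¹ • s) := by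
    rw [← integral_const_mul]
    refine integral_congr_ae (Eventually.of_forall fun s => ?_)
    have : (m : ℂ) ≠ 0 := by exact_mod_cast hm.ne'
    simp only [gg_scale hm]
    field_simp
  rw [h2, h]
  have : (m : ℂ) ≠ 0 := by exact_mod_cast hm.ne'
  unfold dg
  rw [Complex.real_smul, ← mul_assoc, inv_mul_cancel₀ this, one_mul]

/-- a Gaussian times an exponential is integrable -/
lemma int1 (a : ℝ) : Integrable (fun x : ℝ => Real.exp (-x ^ 2) * Real.exp (a * |x|)) := by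
  have h := (integrable_exp_neg_mul_sq (b := 1 / 2) (by norm_num)).const_mul
    (Real.exp (a ^ 2 / 2))
  refine h.mono' (by fun_prop) (Eventually.of_forall fun x => ?_)
  rw [Real.norm_of_nonneg (by positivity), ← Real.exp_add, ← Real.exp_add]
  apply Real.exp_le_exp.2
  nlinarith [sq_nonneg (a - |x|), sq_abs x]

lemma int2 (a b : ℝ) : Integrable (fun s : ℝ × ℝ =>
    (Real.exp (-s.1 ^ 2) * Real.exp (a * |s.1|)) * (Real.exp (-s.2 ^ 2) * Real.exp (b * |s.2|))) :=
  (int1 a).mul_prod (int1 b)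

lemma prod_int (f g : ℝ → ℂ) : (∫ s : ℝ × ℝ, f s.1 * g s.2) = (∫ x, f x) * ∫ y, g y := by
  rw [Measure.volume_eq_prod]
  exact integral_prod_mul f g

end A34

open A34 in
/-- block A3 -/
theorem a3 : A3Stmt := by
  rintro k r t ⟨hk, C, hC⟩
  have hC0 : 0 ≤ C := by
    have h := (norm_nonneg _).trans (hC 0)
    have h2 := Real.exp_pos (r * (|(0 : ℝ × ℝ).1| + |(0 : ℝ × ℝ).2|))
    exact nonneg_of_mul_nonneg_left h h2
  -- translated form
  have hdg : ∀ m : ℝ, 0 < m → dg m k (t : ℂ) =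
      ∫ s, g2 0 s * k ((Real.sqrt m)⁻¹ • s + (-t, -t)) := by
    intro m hm
    have hsm := Real.sqrt_pos.2 hm
    rw [dg_scale hm]
    rw [← integral_add_right_eq_self (μ := (volume : Measure (ℝ × ℝ))) (fun s =>
      g2 ((Real.sqrt m : ℝ) * (t : ℂ)) s * k ((Real.sqrt m)⁻¹ • s))
      (-(Real.sqrt m * t), -(Real.sqrt m * t))]
    refine integral_congr_ae (Eventually.of_forall fun s => ?_)
    have e1 : g2 ((Real.sqrt m : ℝ) * (t : ℂ)) (s + (-(Real.sqrt m * t), -(Real.sqrt m * t))) =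
        g2 0 s := by
      unfold g2 g1
      simp
    have e2 : (Real.sqrt m)⁻¹ • (s + (-(Real.sqrt m * t), -(Real.sqrt m * t))) =
        (Real.sqrt m)⁻¹ • s + (-t, -t) := by
      ext <;> simp [mul_add] <;> field_simp
    simp only [e1, e2]
  have hone : (∫ s, g2 0 s) = 1 := by
    unfold g2
    rw [integral_const_mul, prod_int (g1 0) (g1 0)]
    have : (∫ x, g1 0 x) = ((Real.sqrt Real.pi : ℝ) : ℂ) := by
      have h := integral_gaussian 1
      have h2 : (∫ x : ℝ, g1 0 x) = ∫ x : ℝ, ((Real.exp (-1 * x ^ 2) : ℝ) : ℂ) := by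
        refine integral_congr_ae (Eventually.of_forall fun x => ?_)
        unfold g1
        push_cast
        ring_nf
      rw [h2, integral_complex_ofReal, h]
      simp
    rw [this]
    rw [← Complex.ofReal_mul, Real.mul_self_sqrt Real.pi_pos.le, ← Complex.ofReal_mul]
    have := Real.pi_pos.ne'
    norm_cast
    field_simp
  have hlim : Tendsto (fun m : ℝ => ∫ s, g2 0 s * k ((Real.sqrt m)⁻¹ • s + (-t, -t))) atTop
      (𝓝 (∫ s, g2 0 s * k (-t, -t))) := by
    refine tendsto_integral_filter_of_dominated_convergence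
      (fun s => ((1 / Real.pi) * (C * Real.exp (|r| * (2 * |t|)))) *
        ((Real.exp (-s.1 ^ 2) * Real.exp (|r| * |s.1|)) *
          (Real.exp (-s.2 ^ 2) * Real.exp (|r| * |s.2|)))) ?_ ?_ ?_ ?_
    · refine Eventually.of_forall fun m => ?_
      exact ((g2_cont 0).mul (hk.comp (by fun_prop))).aestronglyMeasurable
    · filter_upwards [eventually_ge_atTop (1 : ℝ)] with m hm
      refine Eventually.of_forall fun s => ?_
      have hsm : 1 ≤ Real.sqrt m := by
        rw [show (1 : ℝ) = Real.sqrt 1 by simp]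
        exact Real.sqrt_le_sqrt hm
      have hb : ∀ x : ℝ, |(Real.sqrt m)⁻¹ * x + -t| ≤ |x| + |t| := by
        intro x
        refine (abs_add_le _ _).trans ?_
        rw [abs_mul, abs_neg, abs_of_nonneg (inv_nonneg.2 (Real.sqrt_nonneg _))]
        have : (Real.sqrt m)⁻¹ ≤ 1 := inv_le_one_of_one_le₀ hsm
        nlinarith [abs_nonneg x]
      have h1 : ‖k ((Real.sqrt m)⁻¹ • s + (-t, -t))‖ ≤
          C * Real.exp (|r| * (|s.1| + |s.2| + 2 * |t|)) := by
        refine (hC _).trans (mul_le_mul_of_nonneg_left (Real.exp_le_exp.2 ?_) hC0)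
        have hx := hb s.1
        have hy := hb s.2
        have e : |((Real.sqrt m)⁻¹ • s + (-t, -t) : ℝ × ℝ).1| +
            |((Real.sqrt m)⁻¹ • s + (-t, -t) : ℝ × ℝ).2| ≤ |s.1| + |s.2| + 2 * |t| := by
          simp only [Prod.fst_add, Prod.snd_add, Prod.smul_fst, Prod.smul_snd, smul_eq_mul]
          linarith
        have e0 : 0 ≤ |((Real.sqrt m)⁻¹ • s + (-t, -t) : ℝ × ℝ).1| +
            |((Real.sqrt m)⁻¹ • s + (-t, -t) : ℝ × ℝ).2| := by positivity
        calc r * _ ≤ |r| * (|((Real.sqrt m)⁻¹ • s + (-t, -t) : ℝ × ℝ).1| +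
            |((Real.sqrt m)⁻¹ • s + (-t, -t) : ℝ × ℝ).2|) :=
              mul_le_mul_of_nonneg_right (le_abs_self r) e0
          _ ≤ _ := mul_le_mul_of_nonneg_left e (abs_nonneg r)
      have h2 : ‖g2 0 s‖ = (1 / Real.pi) * (Real.exp (-s.1 ^ 2) * Real.exp (-s.2 ^ 2)) := by
        unfold g2
        rw [norm_mul, norm_mul, norm_g1, norm_g1, Complex.norm_real,
          Real.norm_of_nonneg (by positivity)]
        simp
      rw [norm_mul, h2]
      calc _ ≤ (1 / Real.pi) * (Real.exp (-s.1 ^ 2) * Real.exp (-s.2 ^ 2)) *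
            (C * Real.exp (|r| * (|s.1| + |s.2| + 2 * |t|))) :=
            mul_le_mul_of_nonneg_left h1 (by positivity)
        _ = _ := by
            rw [show |r| * (|s.1| + |s.2| + 2 * |t|) = |r| * |s.1| + |r| * |s.2| + |r| * (2 * |t|) by
              ring, Real.exp_add, Real.exp_add]
            ring
    · exact (int2 |r| |r|).const_mul _
    · refine Eventually.of_forall fun s => ?_
      refine Tendsto.mul tendsto_const_nhds ?_
      have h0 : Tendsto (fun m : ℝ => (Real.sqrt m)⁻¹) atTop (𝓝 0) :=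
        tendsto_inv_atTop_zero.comp Real.tendsto_sqrt_atTop
      have h1 : Tendsto (fun m : ℝ => (Real.sqrt m)⁻¹ • s + (-t, -t)) atTop
          (𝓝 ((0 : ℝ) • s + (-t, -t))) := (h0.smul_const s).add_const _
      rw [zero_smul, zero_add] at h1
      exact (hk.tendsto _).comp h1
  rw [integral_mul_const, hone, one_mul] at hlim
  refine hlim.congr' ?_
  filter_upwards [eventually_gt_atTop (0 : ℝ)] with m hm
  exact (hdg m hm).symm

end Vale.Agent.P352.HM

end
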