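import Vale.Agent.P352.HM.A3

/-!
# P352 HM, block A4: first order expansion of smoothed functions
-/

set_option linter.all false

noncomputable section

open MeasureTheory Filter Topology Asymptotics

namespace Vale.Agent.P352.HM

namespace A34

/-- the Gaussian with the shift `-(I l)` -/
lemma int_g1 (l : ℝ) : (∫ x, g1 (-(Complex.I * (l : ℂ))) x) = ((Real.sqrt Real.pi : ℝ) : ℂ) := by
  have h := GaussianFourier.integral_cexp_neg_mul_sq_add_real_mul_I (b := 1) (by simp) (-l)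
  have h2 : (∫ x : ℝ, g1 (-(Complex.I * (l : ℂ))) x) =
      ∫ x : ℝ, Complex.exp (-1 * ((x : ℂ) + ((-l : ℝ) : ℂ) * Complex.I) ^ 2) := by
    refine integral_congr_ae (Eventually.of_forall fun x => ?_)
    unfold g1
    push_cast
    ring_nf
  rw [h2, h]
  rw [div_one, Real.sqrt_eq_rpow, Complex.ofReal_cpow Real.pi_pos.le]
  norm_num

lemma integrable_g1 (w : ℂ) : Integrable (g1 w) := by
  have h := (integrable_exp_neg_mul_sq (b := 1) (by norm_num)).comp_add_right w.re
  have h2 := h.const_mul (Real.exp (w.im ^ 2))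
  refine h2.mono' (g1_cont w).aestronglyMeasurable (Eventually.of_forall fun x => ?_)
  rw [norm_g1, ← Real.exp_add]
  apply Real.exp_le_exp.2
  linarith

lemma norm_g1_im (l x : ℝ) : ‖g1 (-(Complex.I * (l : ℂ))) x‖ =
    Real.exp (l ^ 2) * Real.exp (-x ^ 2) := by
  rw [norm_g1, ← Real.exp_add]
  congr 1
  simp
  ring

lemma integrable_g1' (l : ℝ) : Integrable (fun x : ℝ => g1 (-(Complex.I * (l : ℂ))) x * (x : ℂ)) := by
  have h := (int1 1).const_mul (Real.exp (l ^ 2))
  refine h.mono' ((g1_cont _).mul (by fun_prop)).aestronglyMeasurable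
    (Eventually.of_forall fun x => ?_)
  rw [norm_mul, norm_g1_im, Complex.norm_real, Real.norm_eq_abs, one_mul, mul_assoc]
  refine mul_le_mul_of_nonneg_left (mul_le_mul_of_nonneg_left ?_ (Real.exp_pos _).le)
    (Real.exp_pos _).le
  linarith [Real.add_one_le_exp |x|]

lemma int_g1' (l : ℝ) : (∫ x : ℝ, g1 (-(Complex.I * (l : ℂ))) x * (x : ℂ)) =
    Complex.I * (l : ℂ) * ((Real.sqrt Real.pi : ℝ) : ℂ) := by
  have hd : ∀ x : ℝ, HasDerivAt (fun x : ℝ => -(1 / 2 : ℂ) * g1 (-(Complex.I * (l : ℂ))) x)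
      (g1 (-(Complex.I * (l : ℂ))) x * (x : ℂ) - g1 (-(Complex.I * (l : ℂ))) x *
        (Complex.I * (l : ℂ))) x := by
    intro x
    have h1 : HasDerivAt (fun z : ℂ => Complex.exp (-(z + -(Complex.I * (l : ℂ))) ^ 2))
        (Complex.exp (-((x : ℂ) + -(Complex.I * (l : ℂ))) ^ 2) *
          (-(2 * ((x : ℂ) + -(Complex.I * (l : ℂ)))))) (x : ℂ) := by
      have h0 : HasDerivAt (fun z : ℂ => -(z + -(Complex.I * (l : ℂ))) ^ 2)
          (-(2 * ((x : ℂ) + -(Complex.I * (l : ℂ))))) (x : ℂ) := by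
        have h := (((hasDerivAt_id (x : ℂ)).add_const (-(Complex.I * (l : ℂ)))).pow 2).neg
        have h' : HasDerivAt (fun z : ℂ => -(z + -(Complex.I * (l : ℂ))) ^ 2) _ (x : ℂ) := h
        exact h'.congr_deriv (by simp)
      exact h0.cexp
    have h2 := (h1.comp_ofReal).const_mul (-(1 / 2 : ℂ))
    refine h2.congr_deriv ?_
    unfold g1
    ring
  have hi : Integrable (fun x : ℝ => g1 (-(Complex.I * (l : ℂ))) x * (x : ℂ) -
      g1 (-(Complex.I * (l : ℂ))) x * (Complex.I * (l : ℂ))) :=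
    (integrable_g1' l).sub ((integrable_g1 _).mul_const _)
  have h := integral_eq_zero_of_hasDerivAt_of_integrable hd hi ((integrable_g1 _).const_mul _)
  rw [integral_sub (integrable_g1' l) ((integrable_g1 _).mul_const _), integral_mul_const,
    int_g1] at h
  linear_combination h

end A34

open A34 in
/-- block A4 -/
theorem a4 : A4Stmt := by
  intro k α β k0 C l hk hC ho
  set w : ℂ := -(Complex.I * (l : ℂ)) with hw
  have hpi : ((Real.sqrt Real.pi : ℝ) : ℂ) * ((Real.sqrt Real.pi : ℝ) : ℂ) = (Real.pi : ℂ) := by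
    rw [← Complex.ofReal_mul, Real.mul_self_sqrt Real.pi_pos.le]
  have hpi0 : (Real.pi : ℂ) ≠ 0 := by exact_mod_cast Real.pi_pos.ne'
  have hC0 : 0 ≤ C := by
    have h := (norm_nonneg _).trans (hC (1, 0))
    simpa using h
  have hone : (∫ s, g2 w s) = 1 := by
    unfold g2
    rw [integral_const_mul, prod_int (g1 w) (g1 w), int_g1, hpi]
    push_cast
    field_simp
  have hig2 : Integrable (g2 w) := by
    unfold g2
    exact ((integrable_g1 w).mul_prod (integrable_g1 w)).const_mul _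
  have hng2 : ∀ s, ‖g2 w s‖ = (1 / Real.pi * Real.exp (l ^ 2) * Real.exp (l ^ 2)) *
      (Real.exp (-s.1 ^ 2) * Real.exp (-s.2 ^ 2)) := by
    intro s
    unfold g2
    rw [norm_mul, norm_mul, hw, norm_g1_im, norm_g1_im, Complex.norm_real,
      Real.norm_of_nonneg (by positivity)]
    ring
  -- the limit
  have hlimv : (∫ s : ℝ × ℝ, g2 w s * (α * (s.1 : ℂ) + β * (s.2 : ℂ))) =
      Complex.I * (l : ℂ) * (α + β) := by
    have e : ∀ s : ℝ × ℝ, g2 w s * (α * (s.1 : ℂ) + β * (s.2 : ℂ)) =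
        (((1 / Real.pi : ℝ) : ℂ) * α) * ((g1 w s.1 * (s.1 : ℂ)) * g1 w s.2) +
        (((1 / Real.pi : ℝ) : ℂ) * β) * (g1 w s.1 * (g1 w s.2 * (s.2 : ℂ))) := by
      intro s
      unfold g2
      ring
    simp only [e]
    rw [integral_add, integral_const_mul, integral_const_mul,
      prod_int (fun x => g1 w x * (x : ℂ)) (g1 w), prod_int (g1 w) (fun x => g1 w x * (x : ℂ)),
      hw, int_g1, int_g1']
    · have hpi' : (((1 / Real.pi : ℝ) : ℂ)) *
          (((Real.sqrt Real.pi : ℝ) : ℂ) * ((Real.sqrt Real.pi : ℝ) : ℂ)) = 1 := by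
        rw [hpi]
        push_cast
        field_simp
      linear_combination (Complex.I * l * (α + β)) * hpi'
    · exact ((integrable_g1' l).mul_prod (integrable_g1 w)).const_mul _
    · exact ((integrable_g1 w).mul_prod (integrable_g1' l)).const_mul _
  have hlim : Tendsto (fun m : ℝ => ∫ s : ℝ × ℝ, g2 w s *
      (((Real.sqrt m : ℝ) : ℂ) * (k ((Real.sqrt m)⁻¹ • s) - k0))) atTop
      (𝓝 (∫ s : ℝ × ℝ, g2 w s * (α * (s.1 : ℂ) + β * (s.2 : ℂ)))) := by
    refine tendsto_integral_filter_of_dominated_convergence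
      (fun s => ((1 / Real.pi * Real.exp (l ^ 2) * Real.exp (l ^ 2)) * C) *
        ((Real.exp (-s.1 ^ 2) * Real.exp (1 * |s.1|)) *
          (Real.exp (-s.2 ^ 2) * Real.exp (1 * |s.2|)))) ?_ ?_ ?_ ?_
    · refine Eventually.of_forall fun m => ?_
      exact ((g2_cont w).mul (continuous_const.mul
        ((hk.comp (by fun_prop)).sub continuous_const))).aestronglyMeasurable
    · filter_upwards [eventually_gt_atTop (0 : ℝ)] with m hm
      refine Eventually.of_forall fun s => ?_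
      have hsm := Real.sqrt_pos.2 hm
      have h1 : ‖((Real.sqrt m : ℝ) : ℂ) * (k ((Real.sqrt m)⁻¹ • s) - k0)‖ ≤
          C * (|s.1| + |s.2|) := by
        rw [norm_mul, Complex.norm_real, Real.norm_of_nonneg hsm.le]
        have h := hC ((Real.sqrt m)⁻¹ • s)
        have e : |((Real.sqrt m)⁻¹ • s).1| + |((Real.sqrt m)⁻¹ • s).2| =
            (Real.sqrt m)⁻¹ * (|s.1| + |s.2|) := by
          simp only [Prod.smul_fst, Prod.smul_snd, smul_eq_mul, abs_mul,
            abs_of_pos (inv_pos.2 hsm)]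
          ring
        rw [e] at h
        calc Real.sqrt m * _ ≤ Real.sqrt m * (C * ((Real.sqrt m)⁻¹ * (|s.1| + |s.2|))) :=
              mul_le_mul_of_nonneg_left h hsm.le
          _ = _ := by field_simp
      have h3 : |s.1| + |s.2| ≤ Real.exp (1 * |s.1|) * Real.exp (1 * |s.2|) := by
        rw [← Real.exp_add]
        linarith [Real.add_one_le_exp (1 * |s.1| + 1 * |s.2|)]
      rw [norm_mul, hng2]
      have hp : 0 ≤ (1 / Real.pi * Real.exp (l ^ 2) * Real.exp (l ^ 2)) *
          (Real.exp (-s.1 ^ 2) * Real.exp (-s.2 ^ 2)) := by positivity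
      calc _ ≤ (1 / Real.pi * Real.exp (l ^ 2) * Real.exp (l ^ 2)) *
            (Real.exp (-s.1 ^ 2) * Real.exp (-s.2 ^ 2)) *
            (C * (Real.exp (1 * |s.1|) * Real.exp (1 * |s.2|))) :=
            mul_le_mul_of_nonneg_left (h1.trans (mul_le_mul_of_nonneg_left h3 hC0)) hp
        _ = _ := by ring
    · exact (int2 1 1).const_mul _
    · refine Eventually.of_forall fun s => ?_
      refine Tendsto.mul tendsto_const_nhds ?_
      have h0 : Tendsto (fun m : ℝ => (Real.sqrt m)⁻¹) atTop (𝓝 0) :=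
        tendsto_inv_atTop_zero.comp Real.tendsto_sqrt_atTop
      have h1 : Tendsto (fun m : ℝ => (Real.sqrt m)⁻¹ • s) atTop (𝓝 0) := by
        have := h0.smul_const s
        rwa [zero_smul] at this
      have h2 := ho.comp_tendsto h1
      have h3 : (fun m : ℝ => (Real.sqrt m)⁻¹ • s) =O[atTop] fun m : ℝ => (Real.sqrt m)⁻¹ := by
        refine IsBigO.of_bound ‖s‖ (Eventually.of_forall fun m => ?_)
        rw [norm_smul, mul_comm]
      have h4 := h2.trans_isBigO h3
      have h5 : Tendsto (fun m : ℝ => ((Real.sqrt m : ℝ) : ℂ) *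
          (k ((Real.sqrt m)⁻¹ • s) - k0 - α * ((((Real.sqrt m)⁻¹ • s).1 : ℝ) : ℂ) -
            β * ((((Real.sqrt m)⁻¹ • s).2 : ℝ) : ℂ))) atTop (𝓝 0) := by
        rw [tendsto_zero_iff_norm_tendsto_zero]
        have h6 := h4.norm_left.tendsto_div_nhds_zero
        refine h6.congr' ?_
        filter_upwards [eventually_gt_atTop (0 : ℝ)] with m hm
        have hsm := Real.sqrt_pos.2 hm
        rw [norm_mul, Complex.norm_real, Real.norm_of_nonneg hsm.le, div_inv_eq_mul, mul_comm]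
        rfl
      have h7 : Tendsto (fun m : ℝ => ((Real.sqrt m : ℝ) : ℂ) *
          (k ((Real.sqrt m)⁻¹ • s) - k0 - α * ((((Real.sqrt m)⁻¹ • s).1 : ℝ) : ℂ) -
            β * ((((Real.sqrt m)⁻¹ • s).2 : ℝ) : ℂ)) + (α * (s.1 : ℂ) + β * (s.2 : ℂ))) atTop
          (𝓝 (0 + (α * (s.1 : ℂ) + β * (s.2 : ℂ)))) := h5.add_const _
      rw [zero_add] at h7
      refine h7.congr' ?_
      filter_upwards [eventually_gt_atTop (0 : ℝ)] with m hm
      have hsm : ((Real.sqrt m : ℝ) : ℂ) ≠ 0 := by exact_mod_cast (Real.sqrt_pos.2 hm).ne'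
      simp only [Prod.smul_fst, Prod.smul_snd, smul_eq_mul]
      push_cast
      field_simp
      ring
  rw [hlimv] at hlim
  refine hlim.congr' ?_
  filter_upwards [eventually_gt_atTop (0 : ℝ)] with m hm
  have hsm : ((Real.sqrt m : ℝ) : ℂ) ≠ 0 := by exact_mod_cast (Real.sqrt_pos.2 hm).ne'
  have hz : ((Real.sqrt m : ℝ) : ℂ) * (-(Complex.I * ((l / Real.sqrt m : ℝ) : ℂ))) = w := by
    rw [hw]
    push_cast
    field_simp
  rw [dg_scale hm, hz]
  have hik : Integrable (fun s : ℝ × ℝ => g2 w s * (k ((Real.sqrt m)⁻¹ • s) - k0)) := by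
    have hs := Real.sqrt_pos.2 hm
    refine Integrable.mono' (((int2 1 1).const_mul
      ((1 / Real.pi * Real.exp (l ^ 2) * Real.exp (l ^ 2)) * (C * (Real.sqrt m)⁻¹))))
      ((g2_cont w).mul ((hk.comp (by fun_prop)).sub continuous_const)).aestronglyMeasurable
      (Eventually.of_forall fun s => ?_)
    have h := hC ((Real.sqrt m)⁻¹ • s)
    have e : |((Real.sqrt m)⁻¹ • s).1| + |((Real.sqrt m)⁻¹ • s).2| =
        (Real.sqrt m)⁻¹ * (|s.1| + |s.2|) := by
      simp only [Prod.smul_fst, Prod.smul_snd, smul_eq_mul, abs_mul, abs_of_pos (inv_pos.2 hs)]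
      ring
    rw [e] at h
    have h3 : |s.1| + |s.2| ≤ Real.exp (1 * |s.1|) * Real.exp (1 * |s.2|) := by
      rw [← Real.exp_add]
      linarith [Real.add_one_le_exp (1 * |s.1| + 1 * |s.2|)]
    have hs' : 0 ≤ (Real.sqrt m)⁻¹ := (inv_pos.2 hs).le
    rw [norm_mul, hng2]
    have hp : 0 ≤ (1 / Real.pi * Real.exp (l ^ 2) * Real.exp (l ^ 2)) *
        (Real.exp (-s.1 ^ 2) * Real.exp (-s.2 ^ 2)) := by positivity
    calc _ ≤ (1 / Real.pi * Real.exp (l ^ 2) * Real.exp (l ^ 2)) *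
          (Real.exp (-s.1 ^ 2) * Real.exp (-s.2 ^ 2)) *
          (C * ((Real.sqrt m)⁻¹ * (Real.exp (1 * |s.1|) * Real.exp (1 * |s.2|)))) :=
          mul_le_mul_of_nonneg_left (h.trans (mul_le_mul_of_nonneg_left
            (mul_le_mul_of_nonneg_left h3 hs') hC0)) hp
      _ = _ := by ring
  have e1 : (∫ s : ℝ × ℝ, g2 w s * k ((Real.sqrt m)⁻¹ • s)) - k0 =
      ∫ s : ℝ × ℝ, g2 w s * (k ((Real.sqrt m)⁻¹ • s) - k0) := by
    have e2 : (∫ s : ℝ × ℝ, g2 w s * k ((Real.sqrt m)⁻¹ • s)) =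
        (∫ s : ℝ × ℝ, g2 w s * (k ((Real.sqrt m)⁻¹ • s) - k0)) + ∫ s, g2 w s * k0 := by
      rw [← integral_add hik (hig2.mul_const k0)]
      refine integral_congr_ae (Eventually.of_forall fun s => ?_)
      simp only
      ring
    rw [e2, integral_mul_const, hone]
    ring
  rw [e1, ← integral_const_mul]
  refine integral_congr_ae (Eventually.of_forall fun s => ?_)
  simp only
  ring

end Vale.Agent.P352.HM

end
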