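import Vale.Agent.P352.HM.Lit
import Vale.Agent.P352.H48.A5c

/-! # P352 HM, block A5 -/

open MeasureTheory Filter Topology

noncomputable section

namespace Vale.Agent.P352.HM

theorem a5 {D : Type*} [NormedAddCommGroup D] [InnerProductSpace ℂ D] : A5Stmt D := by
  intro φ ψ m t hm hc hc' hb hb'
  exact H48.a5core φ ψ m t hm hc hc' hb hb' (fun k => dg m k (t : ℂ)) (fun k => rfl)

end Vale.Agent.P352.HM
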