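import Vale.Agent.P352.HM.Lit
import Vale.Agent.P352.H452.A6c

/-! # P352 HM, block A6 -/

namespace Vale.Agent.P352.HM

theorem a6 : A6Stmt := a6_core

end Vale.Agent.P352.HM
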