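import Vale.Agent.P352.HM.Lit

/-!
# P352 HM: basic facts on `Modl` (helper981)
-/

set_option linter.all false

open MeasureTheory Filter Topology Asymptotics
open Vale.Agent.P352.GF (Theory)

namespace Vale.Agent.P352.HM
noncomputable section

variable {D : Type*} [NormedAddCommGroup D] [InnerProductSpace ℂ D]
variable {Q : Theory D} {N : Set (D → D)} {v : ℝ → D → D} {j k : D → D}

theorem ext_l {x y : D} (h : ∀ z : D, inner ℂ x z = inner ℂ y z) : x = y := ext_inner_right ℂ h

/-- a map with an adjoint is linear: additivity -/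
theorem lin_add {S T : D → D} (h : ∀ x y, inner ℂ (S x) y = inner ℂ x (T y)) (x y : D) :
    S (x + y) = S x + S y := by
  apply ext_l; intro z
  rw [h, inner_add_left, inner_add_left, h, h]

theorem lin_smul {S T : D → D} (h : ∀ x y, inner ℂ (S x) y = inner ℂ x (T y)) (c : ℂ) (x : D) :
    S (c • x) = c • S x := by
  apply ext_l; intro z
  rw [h, inner_smul_left, inner_smul_left, h]

theorem lin_sub {S T : D → D} (h : ∀ x y, inner ℂ (S x) y = inner ℂ x (T y)) (x y : D) :
    S (x - y) = S x - S y := by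
  apply ext_l; intro z
  rw [h, inner_sub_left, inner_sub_left, h, h]

namespace Modl

variable (h : Modl Q N v j k)
include h

theorem norm_v (t : ℝ) (x : D) : ‖v t x‖ = ‖x‖ := by
  have h1 : (inner ℂ (v t x) (v t x) : ℂ) = inner ℂ x x := h.inn t x x
  rw [inner_self_eq_norm_sq_to_K, inner_self_eq_norm_sq_to_K] at h1
  have h2 : ‖v t x‖ ^ 2 = ‖x‖ ^ 2 := by exact_mod_cast h1
  exact (sq_eq_sq₀ (norm_nonneg _) (norm_nonneg _)).1 h2

theorem v_zero (x : D) : v 0 x = x := by
  have h0 : v 0 (v 0 x) = v 0 x := by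
    have := h.add 0 0 x
    rw [add_zero] at this
    exact this.symm
  apply ext_l; intro z
  have h1 := h.inn 0 (v 0 x) z
  rw [h0] at h1
  have h2 := h.inn 0 x z
  rw [← h1, h2]

theorem v_neg (t : ℝ) (x : D) : v (-t) (v t x) = x := by
  rw [← h.add, neg_add_cancel, v_zero h]

theorem v_neg' (t : ℝ) (x : D) : v t (v (-t) x) = x := by
  rw [← h.add, add_neg_cancel, v_zero h]

theorem adj_v (t : ℝ) (x y : D) : (inner ℂ (v t x) y : ℂ) = inner ℂ x (v (-t) y) := by
  rw [← h.inn t x (v (-t) y), v_neg' h]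

theorem adj_v' (t : ℝ) (x y : D) : (inner ℂ (v (-t) x) y : ℂ) = inner ℂ x (v t y) := by
  have := adj_v h (-t) x y
  rwa [neg_neg] at this

theorem v_add (t : ℝ) (x y : D) : v t (x + y) = v t x + v t y := lin_add (adj_v h t) x y
theorem v_sub (t : ℝ) (x y : D) : v t (x - y) = v t x - v t y := lin_sub (adj_v h t) x y
theorem v_smul (t : ℝ) (c : ℂ) (x : D) : v t (c • x) = c • v t x := lin_smul (adj_v h t) c x

/-- `v t` as an isometric linear map -/
def lv (t : ℝ) : D →ₗᵢ[ℂ] D where
  toFun := v t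
  map_add' := v_add h t
  map_smul' := v_smul h t
  norm_map' := norm_v h t

@[simp] theorem lv_apply (t : ℝ) (x : D) : lv h t x = v t x := rfl

/-- derivative of `t ↦ v t x` at `t`, first form -/
theorem der1 (t : ℝ) (x : D) : HasDerivAt (fun s : ℝ => v s x) (v t (Complex.I • k x)) t := by
  have h1 : HasDerivAt (fun s : ℝ => v (s - t) x) (Complex.I • k x) t := by
    have := h.der x
    have h2 : HasDerivAt (fun s : ℝ => s - t) 1 t := (hasDerivAt_id t).sub_const t
    have h3 : HasDerivAt (fun s : ℝ => v s x) (Complex.I • k x) (t - t) := by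
      rw [sub_self]; exact this
    have h4 := HasDerivAt.scomp (h := fun s : ℝ => s - t) t h3 h2
    rw [one_smul] at h4
    exact h4
  have h5 := (((lv h t).toContinuousLinearMap.restrictScalars ℝ).hasFDerivAt.comp_hasDerivAt t h1)
  have h6 : (fun s : ℝ => v s x) =
      (fun s : ℝ => ((lv h t).toContinuousLinearMap.restrictScalars ℝ) (v (s - t) x)) := by
    funext s
    show v s x = v t (v (s - t) x)
    rw [← h.add]; congr 1; ring
  rw [h6]
  exact h5

/-- derivative of `t ↦ v t x` at `t`, second form -/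
theorem der2 (t : ℝ) (x : D) : HasDerivAt (fun s : ℝ => v s x) (Complex.I • k (v t x)) t := by
  have h2 : HasDerivAt (fun s : ℝ => s - t) 1 t := (hasDerivAt_id t).sub_const t
  have h3 : HasDerivAt (fun s : ℝ => v s (v t x)) (Complex.I • k (v t x)) (t - t) := by
    rw [sub_self]; exact h.der (v t x)
  have h4 := HasDerivAt.scomp (h := fun s : ℝ => s - t) t h3 h2
  have h6 : (fun s : ℝ => v s x) = ((fun s : ℝ => v s (v t x)) ∘ fun s => s - t) := by
    funext s
    show v s x = v (s - t) (v t x)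
    rw [← h.add]; congr 1; ring
  rw [h6]
  rw [one_smul] at h4
  exact h4

/-- the generator commutes with the group -/
theorem k_v (t : ℝ) (x : D) : k (v t x) = v t (k x) := by
  have h1 := (der1 h t x).unique (der2 h t x)
  rw [v_smul h] at h1
  have h2 := congrArg (fun y => (-Complex.I) • y) h1
  simp only [smul_smul] at h2
  simpa using h2.symm

theorem cont_v (x : D) : Continuous fun t => v t x :=
  continuous_iff_continuousAt.2 fun t => (der1 h t x).continuousAt

/-- the generator is symmetric -/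
theorem k_symm (x y : D) : (inner ℂ (k x) y : ℂ) = inner ℂ x (k y) := by
  have h1 : HasDerivAt (fun t : ℝ => (inner ℂ (v t x) (v t y) : ℂ))
      (inner ℂ (v 0 x) (Complex.I • k y) + inner ℂ (Complex.I • k x) (v 0 y)) 0 :=
    (h.der x).inner ℂ (h.der y)
  have h2 : (fun t : ℝ => (inner ℂ (v t x) (v t y) : ℂ)) = fun _ => inner ℂ x y := by
    funext t; exact h.inn t x y
  rw [h2, v_zero h, v_zero h] at h1
  have h3 := h1.unique (hasDerivAt_const (0 : ℝ) (inner ℂ x y : ℂ))
  rw [inner_smul_left, inner_smul_right] at h3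
  have h4 : (starRingEnd ℂ) Complex.I = -Complex.I := Complex.conj_I
  rw [h4] at h3
  have h5 : Complex.I * (inner ℂ x (k y) - inner ℂ (k x) y) = 0 := by
    linear_combination h3
  have h6 := (mul_eq_zero.1 h5).resolve_left Complex.I_ne_zero
  exact (sub_eq_zero.1 h6).symm

theorem norm_kv (t : ℝ) (x : D) : ‖k (v t x)‖ = ‖k x‖ := by rw [k_v h, norm_v h]

/-- Lipschitz estimate -/
theorem lip (s t : ℝ) (x : D) : ‖v s x - v t x‖ ≤ ‖k x‖ * |s - t| := by
  have hb : ∀ r ∈ (Set.univ : Set ℝ), ‖Complex.I • k (v r x)‖ ≤ ‖k x‖ := by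
    intro r _
    rw [norm_smul, Complex.norm_I, one_mul, norm_kv h]
  have := convex_univ.norm_image_sub_le_of_norm_hasDerivWithin_le
    (f := fun r : ℝ => v r x) (f' := fun r => Complex.I • k (v r x)) (C := ‖k x‖)
    (fun r _ => (der2 h r x).hasDerivWithinAt) hb (Set.mem_univ t) (Set.mem_univ s)
  simpa [Real.norm_eq_abs] using this

theorem lip0 (s : ℝ) (x : D) : ‖x - v (-s) x‖ ≤ ‖k x‖ * |s| := by
  have := lip h 0 (-s) x
  rw [v_zero h] at this
  simpa using this

/-- `(x - v (-s) x)/s → i k x` for `s → 0` -/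
theorem quot (x : D) : Tendsto (fun s : ℝ => s⁻¹ • (x - v (-s) x)) (𝓝[≠] 0)
    (𝓝 (Complex.I • k x)) := by
  have h1 : HasDerivAt (fun s : ℝ => v (-s) x) (-(Complex.I • k x)) 0 := by
    have h2 : HasDerivAt (fun s : ℝ => -s) (-1) (0 : ℝ) := (hasDerivAt_id (0:ℝ)).neg
    have h3 : HasDerivAt (fun s : ℝ => v s x) (Complex.I • k x) (-(0:ℝ)) := by
      rw [neg_zero]; exact h.der x
    have h4 := HasDerivAt.scomp (h := fun s : ℝ => -s) (0 : ℝ) h3 h2
    rw [neg_smul, one_smul] at h4
    exact h4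
  have h5 := h1.neg
  rw [hasDerivAt_iff_tendsto_slope] at h5
  rw [neg_neg] at h5
  refine h5.congr fun s => ?_
  simp only [slope, vsub_eq_sub, sub_zero, neg_zero, Pi.neg_apply, v_zero h]
  congr 1
  abel

theorem quot' (x : D) : Tendsto (fun s : ℝ => s⁻¹ • (x - v s x)) (𝓝[≠] 0)
    (𝓝 (-(Complex.I • k x))) := by
  have h5 := (h.der x).neg
  rw [hasDerivAt_iff_tendsto_slope] at h5
  refine h5.congr fun s => ?_
  simp only [slope, vsub_eq_sub, sub_zero, Pi.neg_apply, v_zero h]
  congr 1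
  abel

/-- the conjugation: `⟨j x, y⟩ = ⟨j y, x⟩` -/
theorem j_adj (x y : D) : (inner ℂ (j x) y : ℂ) = inner ℂ (j y) x := by
  have := h.jinn x (j y)
  rw [h.jj] at this
  exact this

theorem j_adj' (x y : D) : (inner ℂ x (j y) : ℂ) = inner ℂ y (j x) := by
  have := h.jinn (j x) y
  rw [h.jj] at this
  exact this

theorem norm_j (x : D) : ‖j x‖ = ‖x‖ := by
  have h1 : (inner ℂ (j x) (j x) : ℂ) = inner ℂ x x := h.jinn x x
  rw [inner_self_eq_norm_sq_to_K, inner_self_eq_norm_sq_to_K] at h1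
  have h2 : ‖j x‖ ^ 2 = ‖x‖ ^ 2 := by exact_mod_cast h1
  exact (sq_eq_sq₀ (norm_nonneg _) (norm_nonneg _)).1 h2

theorem j_add (x y : D) : j (x + y) = j x + j y := by
  apply ext_l; intro z
  rw [j_adj h, inner_add_right, inner_add_left, ← j_adj h x, ← j_adj h y]

theorem j_sub (x y : D) : j (x - y) = j x - j y := by
  apply ext_l; intro z
  rw [j_adj h, inner_sub_right, inner_sub_left, ← j_adj h x, ← j_adj h y]

theorem j_smul (c : ℂ) (x : D) : j (c • x) = (starRingEnd ℂ c) • j x := by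
  apply ext_l; intro z
  rw [j_adj h, inner_smul_right, inner_smul_left, Complex.conj_conj, ← j_adj h x]

/-- `j k = - k j` -/
theorem j_k (x : D) : j (k x) = -k (j x) := by
  have h1 : HasDerivAt (fun t : ℝ => v t (j x)) (Complex.I • k (j x)) 0 := h.der (j x)
  -- the map `j` as a real linear isometry
  let J : D →L[ℝ] D := LinearMap.mkContinuous
    { toFun := j, map_add' := j_add h, map_smul' := fun r y => by
        have := j_smul h (r : ℂ) y
        rw [Complex.conj_ofReal] at this
        simpa using this } 1 (fun y => by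
          rw [one_mul]; exact (norm_j h y).le)
  have h2 : HasDerivAt (fun t : ℝ => J (v t x)) (J (Complex.I • k x)) 0 :=
    J.hasFDerivAt.comp_hasDerivAt 0 (h.der x)
  have h3 : (fun t : ℝ => J (v t x)) = fun t : ℝ => v t (j x) := by
    funext t; exact h.jv t x
  rw [h3] at h2
  have h4 : J (Complex.I • k x) = Complex.I • k (j x) := h2.unique h1
  have h5 : J (Complex.I • k x) = -(Complex.I • j (k x)) := by
    show j (Complex.I • k x) = _
    rw [j_smul h, Complex.conj_I, neg_smul]
  rw [h5] at h4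
  have h6 := congrArg (fun y => Complex.I • y) h4
  simp only [smul_neg, smul_smul, Complex.I_mul_I] at h6
  simpa using h6

/-- joint continuity of matrix coefficients of two groups -/
theorem cont_inner {Q' : Theory D} {M : Set (D → D)} {u : ℝ → D → D} {j' k' : D → D}
    (h' : Modl Q' M u j' k') (x y : D) :
    Continuous fun p : ℝ × ℝ => (inner ℂ (v p.1 x) (u p.2 y) : ℂ) :=
  ((cont_v h x).comp continuous_fst).inner ((cont_v h' y).comp continuous_snd)

/-- for a symmetric `K` which is locally bounded on the orbit of `y`, the function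
`p ↦ ⟨v p₁ x, K (v p₂ y)⟩` is continuous -/
theorem cont_K {K : D → D} (hK : ∀ x y, (inner ℂ (K x) y : ℂ) = inner ℂ x (K y)) {x y : D}
    {g g' : ℝ → ℝ} (hg : Continuous g) (hb : ∀ t, ‖K (v t y)‖ ≤ g t)
    (hb' : ∀ t, ‖K (v t x)‖ ≤ g' t) :
    Continuous fun p : ℝ × ℝ => (inner ℂ (v p.1 x) (K (v p.2 y)) : ℂ) := by
  rw [continuous_iff_continuousAt]
  intro q
  rw [ContinuousAt, tendsto_iff_norm_sub_tendsto_zero]
  have h1 : Tendsto (fun p : ℝ × ℝ => ‖v p.1 x - v q.1 x‖ * g p.2 + g' q.1 * ‖v p.2 y - v q.2 y‖)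
      (𝓝 q) (𝓝 (‖v q.1 x - v q.1 x‖ * g q.2 + g' q.1 * ‖v q.2 y - v q.2 y‖)) := by
    have c1 : Continuous fun p : ℝ × ℝ => v p.1 x := (cont_v h x).comp continuous_fst
    have c2 : Continuous fun p : ℝ × ℝ => v p.2 y := (cont_v h y).comp continuous_snd
    have c3 : Continuous fun p : ℝ × ℝ =>
        ‖v p.1 x - v q.1 x‖ * g p.2 + g' q.1 * ‖v p.2 y - v q.2 y‖ :=
      ((c1.sub continuous_const).norm.mul (hg.comp continuous_snd)).add
        (continuous_const.mul (c2.sub continuous_const).norm)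
    exact c3.tendsto q
  simp only [sub_self, norm_zero, zero_mul, mul_zero, add_zero] at h1
  refine squeeze_zero (fun _ => norm_nonneg _) (fun p => ?_) h1
  have e : (inner ℂ (v p.1 x) (K (v p.2 y)) : ℂ) - inner ℂ (v q.1 x) (K (v q.2 y)) =
      inner ℂ (v p.1 x - v q.1 x) (K (v p.2 y)) + inner ℂ (K (v q.1 x)) (v p.2 y - v q.2 y) := by
    rw [inner_sub_left, inner_sub_right, hK, hK]; ring
  rw [e]
  refine (norm_add_le _ _).trans (add_le_add ?_ ?_)
  · exact (norm_inner_le_norm _ _).trans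
      (mul_le_mul_of_nonneg_left (hb _) (norm_nonneg _))
  · exact (norm_inner_le_norm _ _).trans
      (mul_le_mul_of_nonneg_right (hb' _) (norm_nonneg _))

end Modl

/-- bounded continuous functions have exponential growth -/
theorem Grw.of_bdd {κ : ℝ × ℝ → ℂ} {C r : ℝ} (hr : 0 ≤ r) (hc : Continuous κ)
    (hb : ∀ p, ‖κ p‖ ≤ C) : Grw κ r := by
  refine ⟨hc, C, fun p => (hb p).trans ?_⟩
  have hC : 0 ≤ C := (norm_nonneg _).trans (hb 0)
  have h1 : (1 : ℝ) ≤ Real.exp (r * (|p.1| + |p.2|)) := by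
    rw [Real.one_le_exp_iff]; positivity
  nlinarith

/-- matrix coefficients of two groups, bounded continuous -/
theorem Modl.grw {Q' : Theory D} {M : Set (D → D)} {u : ℝ → D → D} {j' k' : D → D}
    (h : Modl Q N v j k) (h' : Modl Q' M u j' k') (x y : D) :
    Grw (fun p : ℝ × ℝ => (inner ℂ (v p.1 x) (u p.2 y) : ℂ)) 0 := by
  refine Grw.of_bdd le_rfl (h.cont_inner h' x y) (C := ‖x‖ * ‖y‖) fun p => ?_
  refine (norm_inner_le_norm _ _).trans ?_
  rw [h.norm_v, h'.norm_v]

end

end Vale.Agent.P352.HM
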