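import Vale.Agent.P352.HM.Lit

/-!
# P352 HM: block C, the theorem on half-sided modular inclusions
-/

open MeasureTheory Filter Topology

namespace Vale.Agent.P352.HM

open GF (Ix V Fn Fld Theory IsLor bas eta o sim)
open H246 H496 H755 H15

namespace CB

variable {D : Type*} [NormedAddCommGroup D] [InnerProductSpace ℂ D]
variable {Q : Theory D} {N : Set (D → D)} {v : ℝ → D → D} {j k : D → D}

theorem v0 (h : Modl Q N v j k) (x : D) : v 0 x = x := by
  have h1 : v 0 (v 0 x) = v 0 x := by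
    have := h.add 0 0 x
    simpa using this.symm
  have h2 : inner ℂ (v 0 x) x = inner ℂ x x := by
    rw [← h.inn 0 (v 0 x) x, h1, h.inn]
  have h3 : inner ℂ x (v 0 x) = inner ℂ x x := by
    rw [← h.inn 0 x (v 0 x), h1, h.inn]
  have : inner ℂ (v 0 x - x) (v 0 x - x) = 0 := by
    rw [inner_sub_left, inner_sub_right, inner_sub_right, h.inn, h2, h3]; ring
  exact sub_eq_zero.mp (inner_self_eq_zero.mp this)

theorem vneg (h : Modl Q N v j k) (t : ℝ) (x : D) : v t (v (-t) x) = x := by
  rw [← h.add, add_neg_cancel, v0 h]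

theorem vneg' (h : Modl Q N v j k) (t : ℝ) (x : D) : v (-t) (v t x) = x := by
  rw [← h.add, neg_add_cancel, v0 h]

theorem adj (h : Modl Q N v j k) (t : ℝ) (x y : D) : inner ℂ (v t x) y = inner ℂ x (v (-t) y) := by
  rw [← h.inn (-t) (v t x) y, vneg' h]

theorem v_add (h : Modl Q N v j k) (t : ℝ) (x y : D) : v t (x + y) = v t x + v t y := by
  refine ext_inner_right ℂ fun z => ?_
  rw [adj h, inner_add_left, inner_add_left, adj h, adj h]

theorem v_smul (h : Modl Q N v j k) (t : ℝ) (c : ℂ) (x : D) : v t (c • x) = c • v t x := by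
  refine ext_inner_right ℂ fun z => ?_
  rw [adj h, inner_smul_left, inner_smul_left, adj h]

theorem v_sub (h : Modl Q N v j k) (t : ℝ) (x y : D) : v t (x - y) = v t x - v t y := by
  refine ext_inner_right ℂ fun z => ?_
  rw [adj h, inner_sub_left, inner_sub_left, adj h, adj h]

theorem v_norm (h : Modl Q N v j k) (t : ℝ) (x : D) : ‖v t x‖ = ‖x‖ := by
  have := h.inn t x x
  rw [inner_self_eq_norm_sq_to_K, inner_self_eq_norm_sq_to_K] at this
  have h2 : ‖v t x‖ ^ 2 = ‖x‖ ^ 2 := by exact_mod_cast this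
  exact (sq_eq_sq₀ (norm_nonneg _) (norm_nonneg _)).mp h2

theorem der (h : Modl Q N v j k) (t : ℝ) (x : D) :
    HasDerivAt (fun t : ℝ => v t x) (Complex.I • k (v t x)) t := by
  have h1 := h.der (v t x)
  have h2 : HasDerivAt (fun s : ℝ => v (s + t) x) (Complex.I • k (v t x)) 0 := by
    refine h1.congr_of_eventuallyEq (Eventually.of_forall fun s => ?_)
    exact h.add s t x
  have h4 : HasDerivAt (fun s : ℝ => v (s + t) x) (Complex.I • k (v t x)) (t - t) := by
    rw [sub_self]; exact h2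
  refine (h4.comp_sub_const t t).congr_of_eventuallyEq (Eventually.of_forall fun s => ?_)
  simp

theorem vcont (h : Modl Q N v j k) (x : D) : Continuous fun t : ℝ => v t x :=
  continuous_iff_continuousAt.mpr fun t => (der h t x).continuousAt

theorem symm (h : Modl Q N v j k) (x y : D) : inner ℂ (k x) y = inner ℂ x (k y) := by
  have h1 := (h.der x).inner ℂ (h.der y)
  have h2 : HasDerivAt (fun t : ℝ => inner ℂ (v t x) (v t y)) 0 0 := by
    have : (fun t : ℝ => inner ℂ (v t x) (v t y)) = fun _ => inner ℂ x y :=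
      funext fun t => h.inn t x y
    rw [this]
    exact hasDerivAt_const _ _
  have h3 := h1.unique h2
  rw [v0 h, v0 h, inner_smul_left, inner_smul_right, Complex.conj_I] at h3
  have h4 : Complex.I * (inner ℂ x (k y) - inner ℂ (k x) y) = 0 := by
    rw [← h3]; ring
  rcases mul_eq_zero.mp h4 with h5 | h5
  · exact absurd h5 Complex.I_ne_zero
  · exact (sub_eq_zero.mp h5).symm

theorem k_add (h : Modl Q N v j k) (x y : D) : k (x + y) = k x + k y := by
  refine ext_inner_right ℂ fun z => ?_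
  rw [symm h, inner_add_left, inner_add_left, symm h, symm h]

theorem k_sub (h : Modl Q N v j k) (x y : D) : k (x - y) = k x - k y := by
  refine ext_inner_right ℂ fun z => ?_
  rw [symm h, inner_sub_left, inner_sub_left, symm h, symm h]

theorem k_smul (h : Modl Q N v j k) (c : ℂ) (x : D) : k (c • x) = c • k x := by
  refine ext_inner_right ℂ fun z => ?_
  rw [symm h, inner_smul_left, inner_smul_left, symm h]

theorem kv (h : Modl Q N v j k) (t : ℝ) (x : D) : k (v t x) = v t (k x) := by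
  refine ext_inner_left ℂ fun z => ?_
  -- derivative of `s ↦ ⟪z, v (s + t) x⟫`
  have h1 : HasDerivAt (fun s : ℝ => inner ℂ z (v s (v t x))) (inner ℂ z (Complex.I • k (v t x))) 0 := by
    have := (hasDerivAt_const (0 : ℝ) z).inner ℂ (h.der (v t x))
    simpa only [inner_zero_left, add_zero] using this
  have h2 : HasDerivAt (fun s : ℝ => inner ℂ (v (-t) z) (v s x))
      (inner ℂ (v (-t) z) (Complex.I • k x)) 0 := by
    have := (hasDerivAt_const (0 : ℝ) (v (-t) z)).inner ℂ (h.der x)
    simpa only [inner_zero_left, add_zero] using this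
  have h3 : (fun s : ℝ => inner ℂ z (v s (v t x))) = fun s : ℝ => inner ℂ (v (-t) z) (v s x) := by
    funext s
    rw [adj h, neg_neg, ← h.add, ← h.add, add_comm]
  rw [h3] at h1
  have h4 := h1.unique h2
  rw [inner_smul_right, inner_smul_right, adj h, neg_neg] at h4
  exact mul_left_cancel₀ Complex.I_ne_zero h4

theorem j_swap (h : Modl Q N v j k) (x y : D) : inner ℂ x (j y) = inner ℂ y (j x) := by
  calc inner ℂ x (j y) = inner ℂ (j (j x)) (j y) := by rw [h.jj]
    _ = inner ℂ y (j x) := h.jinn (j x) y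

theorem kj (h : Modl Q N v j k) (x : D) : k (j x) = -j (k x) := by
  refine ext_inner_left ℂ fun z => ?_
  have h1 : HasDerivAt (fun s : ℝ => inner ℂ z (v s (j x))) (inner ℂ z (Complex.I • k (j x))) 0 := by
    have := (hasDerivAt_const (0 : ℝ) z).inner ℂ (h.der (j x))
    simpa only [inner_zero_left, add_zero] using this
  have h2 : HasDerivAt (fun s : ℝ => inner ℂ (v s x) (j z)) (inner ℂ (Complex.I • k x) (j z)) 0 := by
    have := (h.der x).inner ℂ (hasDerivAt_const (0 : ℝ) (j z))
    simpa only [inner_zero_right, zero_add] using this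
  have h3 : (fun s : ℝ => inner ℂ z (v s (j x))) = fun s : ℝ => inner ℂ (v s x) (j z) := by
    funext s
    rw [← h.jv, j_swap h]
  rw [h3] at h1
  have h4 := h1.unique h2
  rw [inner_smul_right, inner_smul_left, Complex.conj_I, j_swap h] at h4
  rw [inner_neg_right]
  refine mul_left_cancel₀ Complex.I_ne_zero ?_
  rw [h4]; ring

theorem real_k (h : Modl Q N v j k) (x : D) :
    (inner ℂ x (k x) : ℂ) = (((inner ℂ x (k x) : ℂ).re : ℝ) : ℂ) := by
  have h1 : (starRingEnd ℂ) (inner ℂ x (k x)) = inner ℂ x (k x) := by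
    rw [inner_conj_symm, symm h]
  exact (Complex.conj_eq_iff_real.mp h1).elim fun r hr => by rw [hr, Complex.ofReal_re]

/-- the elementary lemma on the limits of three terms -/
theorem three {c0 c1 c2 : ℝ → ℝ} {A B : ℝ → ℝ}
    (h1 : ∀ᶠ m in atTop, 0 ≤ c1 m) (h2 : ∀ᶠ m in atTop, c2 m ≤ 0)
    (hA : ∀ t, Tendsto (fun m => c0 m + c1 m * Real.exp (2 * Real.pi * t) +
      c2 m * Real.exp (-(2 * Real.pi * t))) atTop (𝓝 (A t)))
    (hB : ∀ t, Tendsto (fun m => -c0 m + c1 m * Real.exp (2 * Real.pi * t) +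
      c2 m * Real.exp (-(2 * Real.pi * t))) atTop (𝓝 (B t))) :
    ∃ C0 C1 C2 : ℝ, 0 ≤ C1 ∧ C2 ≤ 0 ∧ ∀ t,
      A t = C0 + C1 * Real.exp (2 * Real.pi * t) + C2 * Real.exp (-(2 * Real.pi * t)) ∧
      B t = -C0 + C1 * Real.exp (2 * Real.pi * t) + C2 * Real.exp (-(2 * Real.pi * t)) := by
  have hpi := Real.pi_pos
  set T : ℝ := Real.log 2 / (2 * Real.pi) with hT
  have e1 : Real.exp (2 * Real.pi * T) = 2 := by
    rw [hT, mul_div_cancel₀ _ (by positivity), Real.exp_log (by norm_num)]
  have e2 : Real.exp (-(2 * Real.pi * T)) = 1 / 2 := by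
    rw [Real.exp_neg, e1, one_div]
  have e3 : Real.exp (2 * Real.pi * (-T)) = 1 / 2 := by
    rw [mul_neg, e2]
  have e4 : Real.exp (-(2 * Real.pi * (-T))) = 2 := by
    rw [mul_neg, neg_neg, e1]
  have a0 := hA 0
  have a1 := hA T
  have a2 := hA (-T)
  simp only [mul_zero, neg_zero, Real.exp_zero, mul_one] at a0
  rw [e1, e2] at a1
  rw [e3, e4] at a2
  have l1 : Tendsto c1 atTop (𝓝 (1 / 3 * (A T - A (-T)) + (A T + A (-T) - 2 * A 0))) := by
    refine Tendsto.congr (fun m => ?_) (((a1.sub a2).const_mul (1 / 3)).add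
      ((a1.add a2).sub (a0.const_mul 2)))
    ring
  have l2 : Tendsto c2 atTop (𝓝 ((A T + A (-T) - 2 * A 0) - 1 / 3 * (A T - A (-T)))) := by
    refine Tendsto.congr (fun m => ?_) (((a1.add a2).sub (a0.const_mul 2)).sub
      ((a1.sub a2).const_mul (1 / 3)))
    ring
  have l0 : Tendsto c0 atTop (𝓝 (A 0 - 2 * (A T + A (-T) - 2 * A 0))) := by
    refine Tendsto.congr (fun m => ?_) (a0.sub (((a1.add a2).sub (a0.const_mul 2)).const_mul 2))
    ring
  refine ⟨A 0 - 2 * (A T + A (-T) - 2 * A 0), 1 / 3 * (A T - A (-T)) + (A T + A (-T) - 2 * A 0),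
    (A T + A (-T) - 2 * A 0) - 1 / 3 * (A T - A (-T)), ge_of_tendsto l1 h1, le_of_tendsto l2 h2,
    fun t => ⟨?_, ?_⟩⟩
  · exact tendsto_nhds_unique (hA t) ((l0.add (l1.mul_const _)).add (l2.mul_const _))
  · exact tendsto_nhds_unique (hB t) ((l0.neg.add (l1.mul_const _)).add (l2.mul_const _))

/-- no growth at `+∞` -/
theorem nogrow {C0 C1 C2 κ : ℝ} (h1 : 0 ≤ C1) (h2 : C2 ≤ 0)
    (h : ∀ t, C0 + C1 * Real.exp (2 * Real.pi * t) + C2 * Real.exp (-(2 * Real.pi * t)) ≤ κ) :
    C1 = 0 ∧ C0 ≤ κ := by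
  have hpi := Real.pi_pos
  have hC1 : C1 = 0 := by
    by_contra hne
    have hpos : 0 < C1 := lt_of_le_of_ne h1 (Ne.symm hne)
    have h0 := h 0
    simp only [mul_zero, neg_zero, Real.exp_zero, mul_one] at h0
    set s : ℝ := (κ - C0 - C2) / (C1 * (2 * Real.pi)) with hs
    have hs0 : 0 ≤ s := div_nonneg (by linarith) (by positivity)
    have h3 := h s
    have h4 : 1 + 2 * Real.pi * s ≤ Real.exp (2 * Real.pi * s) := by
      have := Real.add_one_le_exp (2 * Real.pi * s); linarith
    have h5 : Real.exp (-(2 * Real.pi * s)) ≤ 1 := Real.exp_le_one_iff.mpr (by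
      have : 0 ≤ 2 * Real.pi * s := by positivity
      linarith)
    have h6 : C2 ≤ C2 * Real.exp (-(2 * Real.pi * s)) := by nlinarith
    have h7 : C1 * (1 + 2 * Real.pi * s) ≤ C1 * Real.exp (2 * Real.pi * s) :=
      mul_le_mul_of_nonneg_left h4 h1
    have h8 : C1 * (2 * Real.pi * s) = κ - C0 - C2 := by
      rw [hs]; field_simp
    nlinarith
  refine ⟨hC1, ?_⟩
  have h3 : Tendsto (fun t : ℝ => C0 + C2 * Real.exp (-(2 * Real.pi * t))) atTop
      (𝓝 (C0 + C2 * 0)) := by
    refine Tendsto.const_add _ (Tendsto.const_mul _ ?_)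
    refine Real.tendsto_exp_atBot.comp ?_
    refine tendsto_neg_atTop_atBot.comp ?_
    exact tendsto_id.const_mul_atTop (by positivity)
  rw [mul_zero, add_zero] at h3
  refine le_of_tendsto' h3 fun t => ?_
  have := h t
  rw [hC1, zero_mul, add_zero] at this
  exact this

end CB

open CB

/-- block C -/
theorem hblock {D : Type*} [NormedAddCommGroup D] [InnerProductSpace ℂ D] (hP : PStmt D)
    (hI : IStmt D) (hA : A3Stmt) : HStmt D := by
  intro Q N M v u j j' k k' hs
  have hN := hs.small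
  have hM := hs.big
  -- the kernels
  have hgrw : ∀ x : D, ∃ r : ℝ, Grw (fun p : ℝ × ℝ => inner ℂ (v p.1 x) (k' (v p.2 x))) r := by
    intro x
    obtain ⟨C, r, hC⟩ := hs.grow x
    refine ⟨|r|, ?_, ‖x‖ * C, fun p => ?_⟩
    · rw [continuous_iff_continuousAt]
      intro q
      have h1 : Tendsto (fun p : ℝ × ℝ => inner ℂ (v p.1 x - v q.1 x) (k' (v p.2 x))) (𝓝 q)
          (𝓝 0) := by
        have hb : Tendsto (fun p : ℝ × ℝ => ‖v p.1 x - v q.1 x‖ * (C * Real.exp (r * |p.2|)))
            (𝓝 q) (𝓝 (‖v q.1 x - v q.1 x‖ * (C * Real.exp (r * |q.2|)))) := by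
          refine Tendsto.mul ?_ ?_
          · refine (Tendsto.sub_const ?_ _).norm
            exact ((vcont hN x).comp continuous_fst).tendsto q
          · have : Continuous fun p : ℝ × ℝ => C * Real.exp (r * |p.2|) := by fun_prop
            exact this.tendsto q
        rw [sub_self, norm_zero, zero_mul] at hb
        refine squeeze_zero_norm (fun p => ?_) hb
        exact (norm_inner_le_norm _ _).trans (mul_le_mul_of_nonneg_left (hC _) (norm_nonneg _))
      have h2 : Tendsto (fun p : ℝ × ℝ => inner ℂ (k' (v q.1 x)) (v p.2 x)) (𝓝 q)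
          (𝓝 (inner ℂ (k' (v q.1 x)) (v q.2 x))) := by
        refine Tendsto.inner tendsto_const_nhds ?_
        exact ((vcont hN x).comp continuous_snd).tendsto q
      have h3 := h1.add h2
      rw [zero_add, symm hM] at h3
      refine h3.congr fun p => ?_
      rw [symm hM, ← inner_add_left]
      simp
    · refine (norm_inner_le_norm _ _).trans ?_
      rw [v_norm hN, mul_assoc]
      refine mul_le_mul_of_nonneg_left ?_ (norm_nonneg _)
      have hC0 : 0 ≤ C := by
        have := hC 0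
        simp only [abs_zero, mul_zero, Real.exp_zero, mul_one] at this
        exact (norm_nonneg _).trans this
      refine (hC _).trans (mul_le_mul_of_nonneg_left (Real.exp_le_exp.mpr ?_) hC0)
      calc r * |p.2| ≤ |r| * |p.2| := mul_le_mul_of_nonneg_right (le_abs_self r) (abs_nonneg _)
        _ ≤ |r| * (|p.1| + |p.2|) := mul_le_mul_of_nonneg_left
            (by linarith [abs_nonneg p.1]) (abs_nonneg _)
  have hlim : ∀ (x : D) (t : ℝ), Tendsto (fun m : ℝ =>
      (dg m (fun p => inner ℂ (v p.1 x) (k' (v p.2 x))) (t : ℂ)).re) atTop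
      (𝓝 (inner ℂ (v (-t) x) (k' (v (-t) x)) : ℂ).re) := by
    intro x t
    obtain ⟨r, hr⟩ := hgrw x
    exact (Complex.continuous_re.tendsto _).comp (hA _ r t hr)
  have hdiag : ∀ (x : D) (t : ℝ), (inner ℂ (v (-t) x) (k' (v (-t) x)) : ℂ) =
      inner ℂ x (k x + (Real.exp (-(2 * Real.pi * t)) : ℂ) • (k' x - k x)) := by
    intro x
    have hc : ∀ m : ℝ, ∃ c : ℝ × ℝ × ℝ, 0 < m → 0 ≤ c.2.1 ∧ c.2.2 ≤ 0 ∧ ∀ t : ℝ,
        dg m (fun p => inner ℂ (v p.1 x) (k' (v p.2 x))) t = c.1 + c.2.1 *
          Real.exp (2 * Real.pi * t) + c.2.2 * Real.exp (-(2 * Real.pi * t)) ∧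
        dg m (fun p => inner ℂ (v p.1 (j x)) (k' (v p.2 (j x)))) t =
          -c.1 + c.2.1 * Real.exp (2 * Real.pi * t) + c.2.2 * Real.exp (-(2 * Real.pi * t)) := by
      intro m
      by_cases hm : 0 < m
      · obtain ⟨c0, c1, c2, h1, h2, h3⟩ := hP Q N M v u j j' k k' hs m hm x
        exact ⟨(c0, c1, c2), fun _ => ⟨h1, h2, h3⟩⟩
      · exact ⟨0, fun h => absurd h hm⟩
    choose c hc using hc
    obtain ⟨C0, C1, C2, hC1, hC2, hform⟩ := three (c0 := fun m => (c m).1)
      (c1 := fun m => (c m).2.1) (c2 := fun m => (c m).2.2)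
      (A := fun t => (inner ℂ (v (-t) x) (k' (v (-t) x)) : ℂ).re)
      (B := fun t => (inner ℂ (v (-t) (j x)) (k' (v (-t) (j x))) : ℂ).re)
      ((eventually_gt_atTop 0).mono fun m hm => (hc m hm).1)
      ((eventually_gt_atTop 0).mono fun m hm => (hc m hm).2.1)
      (fun t => (hlim x t).congr' ((eventually_gt_atTop 0).mono fun m hm => by
        rw [((hc m hm).2.2 t).1]
        norm_cast))
      (fun t => (hlim (j x) t).congr' ((eventually_gt_atTop 0).mono fun m hm => by
        rw [((hc m hm).2.2 t).2]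
        norm_cast))
    -- the upper bounds
    have hup : ∀ (y : D) (t : ℝ), (inner ℂ (v (-t) y) (k' (v (-t) y)) : ℂ).re ≤
        (inner ℂ y (k y) : ℂ).re := by
      intro y t
      have h1 := hI Q N M v u j j' k k' hN hM hs.sub (v (-t) y)
      rwa [kv hN, hN.inn] at h1
    obtain ⟨hz, h0⟩ := nogrow hC1 hC2 (κ := (inner ℂ x (k x) : ℂ).re) fun t => by
      rw [← (hform t).1]; exact hup x t
    obtain ⟨-, h0'⟩ := nogrow hC1 hC2 (κ := (inner ℂ (j x) (k (j x)) : ℂ).re) (C0 := -C0) fun t => by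
      rw [← (hform t).2]; exact hup (j x) t
    have hκ : (inner ℂ (j x) (k (j x)) : ℂ).re = -(inner ℂ x (k x) : ℂ).re := by
      rw [kj hN, inner_neg_right, hN.jinn, symm hN, Complex.neg_re]
    have hC0 : C0 = (inner ℂ x (k x) : ℂ).re := le_antisymm h0 (by linarith)
    have h00 := (hform 0).1
    simp only [neg_zero, v0 hN, mul_zero, Real.exp_zero, mul_one, hz, add_zero] at h00
    intro t
    have ht := (hform t).1
    simp only [hz, zero_mul, add_zero] at ht
    rw [real_k hM, ht, inner_add_right, inner_smul_right, inner_sub_right, real_k hN x,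
      real_k hM x, h00, hC0]
    push_cast
    ring
  intro x y t
  -- polarization
  let S : D →ₗ[ℂ] D :=
    { toFun := fun x => v t (k' (v (-t) x))
      map_add' := fun a b => by rw [v_add hN, k_add hM, v_add hN]
      map_smul' := fun c a => by rw [v_smul hN, k_smul hM, v_smul hN]; rfl }
  let T : D →ₗ[ℂ] D :=
    { toFun := fun x => k x + (Real.exp (-(2 * Real.pi * t)) : ℂ) • (k' x - k x)
      map_add' := fun a b => by
        rw [k_add hN, k_add hM]
        module
      map_smul' := fun c a => by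
        rw [k_smul hN, k_smul hM]
        simp only [RingHom.id_apply]
        module }
  have hST : S = T := by
    refine (ext_inner_map S T).mp fun z => ?_
    have h1 : (inner ℂ z (S z) : ℂ) = inner ℂ z (T z) := by
      have h2 := hdiag z t
      rw [adj hN, neg_neg] at h2
      exact h2
    rw [← inner_conj_symm, h1, inner_conj_symm]
  have h3 : v t (k' (v (-t) x)) = k x + (Real.exp (-(2 * Real.pi * t)) : ℂ) • (k' x - k x) :=
    congrArg (fun F : D →ₗ[ℂ] D => F x) hST
  rw [adj hN, neg_neg, h3]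

end Vale.Agent.P352.HM
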