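import Vale.Agent.P352.HM.E1
import Vale.Agent.P352.HM.H228.Eb

/-!
# P352 HM, block E
-/

set_option linter.all false

noncomputable section

open MeasureTheory Filter Topology Asymptotics

namespace Vale.Agent.P352.HM

open GF (Ix V Fn Fld Theory IsLor bas eta o sim)
open H246 H496 H755 H15

variable {D : Type*} [NormedAddCommGroup D] [InnerProductSpace ℂ D]

/-- **block E** -/
theorem eblock (a1 : A1Stmt) (a2 : A2Stmt) (a5 : A5Stmt D) (a6 : A6Stmt) : EStmt D := by
  intro Q N M v u j j' k k' V W m hm hN hM hVW h1 h2 hv hsub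
  have hid := fun (x y : D) (t : ℝ) =>
    e_id a6 Q N M v u j j' k k' V W m hm hN hM hVW h1 h2 hv hsub x y t
  exact ⟨hid, fun x y z hz1 hz2 => H228.ebound a1 a2 a5 hm hN hM hVW h2 x y (hid x y) z hz1 hz2⟩

end Vale.Agent.P352.HM

end
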