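import Vale.Agent.P352.HM.Lit

/-!
# P352 HM: elementary properties of the modular objects
-/

set_option linter.all false

noncomputable section

open MeasureTheory Filter Topology Asymptotics
open scoped ComplexConjugate

namespace Vale.Agent.P352.HM

open GF (Ix V Fn Fld Theory IsLor bas eta o sim)
open H246 H496 H755 H15

variable {D : Type*} [NormedAddCommGroup D] [InnerProductSpace ℂ D]

/-! ### Operators with an inverse adjoint -/

section uni

variable {V W : D → D} (h : ∀ x y, inner ℂ (V x) y = inner ℂ x (W y)) (h1 : ∀ x, V (W x) = x)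
  (h2 : ∀ x, W (V x) = x)
include h

lemma adj_add (x y : D) : V (x + y) = V x + V y :=
  ext_inner_right ℂ fun z => by rw [h, inner_add_left, inner_add_left, h, h]

lemma adj_smul (c : ℂ) (x : D) : V (c • x) = c • V x :=
  ext_inner_right ℂ fun z => by rw [h, inner_smul_left, inner_smul_left, h]

lemma adj_zero : V 0 = 0 := by
  have := adj_smul h (0 : ℂ) 0
  simpa using this

lemma adj_sub (x y : D) : V (x - y) = V x - V y :=
  ext_inner_right ℂ fun z => by rw [h, inner_sub_left, inner_sub_left, h, h]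

lemma adj_swap (x y : D) : inner ℂ (W x) y = inner ℂ x (V y) := by
  rw [← inner_conj_symm, ← h, inner_conj_symm]

include h2

lemma uni_inner (x y : D) : inner ℂ (V x) (V y) = inner ℂ x y := by rw [h, h2]

lemma uni_norm (x : D) : ‖V x‖ = ‖x‖ := by
  have h3 := uni_inner h h2 x x
  rw [inner_self_eq_norm_sq_to_K, inner_self_eq_norm_sq_to_K] at h3
  have h4 : ‖V x‖ ^ 2 = ‖x‖ ^ 2 := by exact_mod_cast h3
  exact (sq_eq_sq₀ (norm_nonneg _) (norm_nonneg _)).1 h4

end uni

/-! ### Antiunitary involutions -/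

section anti

variable {j : D → D} (hj : ∀ x y, inner ℂ (j x) (j y) = inner ℂ y x) (hjj : ∀ x, j (j x) = x)
include hj hjj

/-- `⟨a, j b⟩ = ⟨b, j a⟩` -/
lemma j_adj (x y : D) : inner ℂ x (j y) = inner ℂ y (j x) := by
  conv_lhs => rw [← hjj x]
  exact hj _ _

lemma j_adj' (x y : D) : inner ℂ (j x) y = inner ℂ (j y) x := by
  conv_lhs => rw [← hjj y]
  exact hj _ _

lemma j_add (x y : D) : j (x + y) = j x + j y :=
  ext_inner_right ℂ fun z => by
    rw [j_adj' hj hjj, inner_add_right, inner_add_left, j_adj' hj hjj x, j_adj' hj hjj y]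

lemma j_sub (x y : D) : j (x - y) = j x - j y :=
  ext_inner_right ℂ fun z => by
    rw [j_adj' hj hjj, inner_sub_right, inner_sub_left, j_adj' hj hjj x, j_adj' hj hjj y]

lemma j_smul (c : ℂ) (x : D) : j (c • x) = conj c • j x :=
  ext_inner_right ℂ fun z => by
    rw [j_adj' hj hjj, inner_smul_right, inner_smul_left, j_adj' hj hjj x, Complex.conj_conj]

lemma j_norm (x : D) : ‖j x‖ = ‖x‖ := by
  have h3 := hj x x
  rw [inner_self_eq_norm_sq_to_K, inner_self_eq_norm_sq_to_K] at h3
  have h4 : ‖j x‖ ^ 2 = ‖x‖ ^ 2 := by exact_mod_cast h3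
  exact (sq_eq_sq₀ (norm_nonneg _) (norm_nonneg _)).1 h4

lemma j_cont : Continuous j := by
  refine LipschitzWith.continuous (K := 1) (LipschitzWith.of_dist_le_mul fun x y => ?_)
  rw [dist_eq_norm, dist_eq_norm, ← j_sub hj hjj, j_norm hj hjj]
  simp

end anti

/-! ### The modular group -/

section grp

variable {v : ℝ → D → D} {k : D → D} (hi : ∀ t x y, inner ℂ (v t x) (v t y) = inner ℂ x y)
  (ha : ∀ s t x, v (s + t) x = v s (v t x))
include hi ha

lemma g_zero (x : D) : v 0 x = x := by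
  have h1 : v 0 (v 0 x) = v 0 x := by rw [← ha, add_zero]
  have h2 : inner ℂ (v 0 x) x = inner ℂ x x := by rw [← hi 0 (v 0 x) x, h1, hi]
  have h3 : inner ℂ x (v 0 x) = inner ℂ x x := by rw [← hi 0 x (v 0 x), h1, hi]
  have h4 : inner ℂ (v 0 x - x) (v 0 x - x) = 0 := by
    rw [inner_sub_left, inner_sub_right, inner_sub_right, hi, h2, h3]
    ring
  exact sub_eq_zero.1 (inner_self_eq_zero.1 h4)

lemma g_inv (t : ℝ) (x : D) : v t (v (-t) x) = x := by
  rw [← ha, add_neg_cancel, g_zero hi ha]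

lemma g_inv' (t : ℝ) (x : D) : v (-t) (v t x) = x := by
  rw [← ha, neg_add_cancel, g_zero hi ha]

lemma g_adj (t : ℝ) (x y : D) : inner ℂ (v t x) y = inner ℂ x (v (-t) y) := by
  conv_lhs => rw [← g_inv hi ha t y]
  exact hi t _ _

lemma g_adj' (t : ℝ) (x y : D) : inner ℂ x (v t y) = inner ℂ (v (-t) x) y := by
  rw [g_adj hi ha, neg_neg]

lemma g_add (t : ℝ) (x y : D) : v t (x + y) = v t x + v t y :=
  adj_add (g_adj hi ha t) x y

lemma g_sub (t : ℝ) (x y : D) : v t (x - y) = v t x - v t y :=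
  adj_sub (g_adj hi ha t) x y

lemma g_smul (t : ℝ) (c : ℂ) (x : D) : v t (c • x) = c • v t x :=
  adj_smul (g_adj hi ha t) c x

lemma g_norm (t : ℝ) (x : D) : ‖v t x‖ = ‖x‖ :=
  uni_norm (g_adj hi ha t) (g_inv' hi ha t) x

variable (hd : ∀ x, HasDerivAt (fun t : ℝ => v t x) (Complex.I • k x) 0)
include hd

lemma g_cont (x : D) : Continuous fun t => v t x := by
  rw [continuous_iff_continuousAt]
  intro t
  have h1 : Tendsto (fun s : ℝ => v s x) (𝓝 0) (𝓝 (v 0 x)) := (hd x).continuousAt
  have h2 : Tendsto (fun s : ℝ => s - t) (𝓝 t) (𝓝 0) := by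
    have : Tendsto (fun s : ℝ => s - t) (𝓝 t) (𝓝 (t - t)) :=
      (continuous_id.sub continuous_const).tendsto t
    rwa [sub_self] at this
  have h3 := (h1.comp h2)
  rw [Metric.tendsto_nhds] at h3
  rw [ContinuousAt, Metric.tendsto_nhds]
  intro ε hε
  filter_upwards [h3 ε hε] with s hs
  simp only [Function.comp_apply] at hs
  rw [g_zero hi ha] at hs
  have e : v s x - v t x = v t (v (s - t) x - x) := by
    rw [g_sub hi ha, ← ha]
    congr 2
    ring
  rwa [dist_eq_norm, e, g_norm hi ha, ← dist_eq_norm]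

/-- the derivative at all times -/
lemma g_der (t : ℝ) (x : D) : HasDerivAt (fun s : ℝ => v s x) (Complex.I • k (v t x)) t := by
  have h1 := hd (v t x)
  have h3 : HasDerivAt (fun s : ℝ => v s (v t x)) (Complex.I • k (v t x)) (t - t) := by
    rw [sub_self]
    exact h1
  have h4 := HasDerivAt.comp_sub_const t t h3
  refine h4.congr_of_eventuallyEq (Eventually.of_forall fun s => ?_)
  show v s x = v (s - t) (v t x)
  rw [← ha]
  congr 1
  ring

/-- the generator commutes with the group -/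
lemma g_com (t : ℝ) (x : D) : k (v t x) = v t (k x) := by
  have h1 := g_der hi ha hd t x
  have h2 : HasDerivAt (fun s : ℝ => v s x) (v t (Complex.I • k x)) t := by
    have h3 : HasDerivAt (fun s : ℝ => v (s - t) x) (Complex.I • k x) t := by
      have h5 : HasDerivAt (fun s : ℝ => v s x) (Complex.I • k x) (t - t) := by
        rw [sub_self]
        exact hd x
      exact HasDerivAt.comp_sub_const t t h5
    rw [hasDerivAt_iff_tendsto] at h3 ⊢
    refine h3.congr fun s => ?_
    congr 1
    have e : v s x - v t x - (s - t) • v t (Complex.I • k x) =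
        v t (v (s - t) x - v (t - t) x - (s - t) • (Complex.I • k x)) := by
      rw [g_sub hi ha, g_sub hi ha, ← ha, ← ha]
      have e1 : t + (s - t) = s := by ring
      have e2 : t + (t - t) = t := by ring
      rw [e1, e2]
      congr 1
      have e3 : ((s - t) : ℝ) • (Complex.I • k x) = ((s - t : ℝ) : ℂ) • (Complex.I • k x) := rfl
      have e4 : ((s - t) : ℝ) • v t (Complex.I • k x) =
        ((s - t : ℝ) : ℂ) • v t (Complex.I • k x) := rfl
      rw [e3, e4, g_smul hi ha t ((s - t : ℝ) : ℂ)]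
    rw [e, g_norm hi ha]
  have h7 := h1.unique h2
  rw [g_smul hi ha] at h7
  have h8 : Complex.I • (k (v t x) - v t (k x)) = 0 := by rw [smul_sub, h7, sub_self]
  rcases smul_eq_zero.1 h8 with h9 | h9
  · exact absurd h9 Complex.I_ne_zero
  · exact sub_eq_zero.1 h9

/-- the generator is symmetric -/
lemma g_symm (x y : D) : inner ℂ (k x) y = inner ℂ x (k y) := by
  have h1 : HasDerivAt (fun t : ℝ => inner ℂ (v t x) y) (inner ℂ (Complex.I • k x) y) 0 := by
    have h2 := (hd x).inner ℂ (hasDerivAt_const (0 : ℝ) y)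
    rwa [inner_zero_right, zero_add] at h2
  have h3 : HasDerivAt (fun t : ℝ => inner ℂ x (v (-t) y)) (inner ℂ x (-(Complex.I • k y))) 0 := by
    have h4 : HasDerivAt (fun t : ℝ => v (-t) y) (-(Complex.I • k y)) 0 := by
      have h5 : HasDerivAt (fun s : ℝ => v s y) (Complex.I • k y) (-(0 : ℝ)) := by
        rw [neg_zero]
        exact hd y
      have h6 := HasDerivAt.scomp (0 : ℝ) h5 (hasDerivAt_neg (0 : ℝ))
      rwa [neg_one_smul] at h6
    have h2 := (hasDerivAt_const (0 : ℝ) x).inner ℂ h4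
    rwa [inner_zero_left, add_zero] at h2
  have h4 : (fun t : ℝ => inner ℂ (v t x) y) = fun t : ℝ => inner ℂ x (v (-t) y) := by
    funext t
    exact g_adj hi ha t x y
  rw [h4] at h1
  have h5 := h1.unique h3
  rw [inner_smul_left, inner_neg_right, inner_smul_right, Complex.conj_I] at h5
  have h6 : Complex.I * (inner ℂ (k x) y - inner ℂ x (k y)) = 0 := by linear_combination -h5
  rcases mul_eq_zero.1 h6 with h7 | h7
  · exact absurd h7 Complex.I_ne_zero
  · exact sub_eq_zero.1 h7

end grp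

/-! ### Properties of `Modl` -/

section mod

variable {Q : Theory D} {N : Set (D → D)} {v : ℝ → D → D} {j k : D → D} (h : Modl Q N v j k)
include h

lemma Modl.zero (x : D) : v 0 x = x := g_zero h.inn h.add x

lemma Modl.vinv (t : ℝ) (x : D) : v t (v (-t) x) = x := g_inv h.inn h.add t x

lemma Modl.vinv' (t : ℝ) (x : D) : v (-t) (v t x) = x := g_inv' h.inn h.add t x

lemma Modl.vadj (t : ℝ) (x y : D) : inner ℂ (v t x) y = inner ℂ x (v (-t) y) :=
  g_adj h.inn h.add t x y

lemma Modl.vadj' (t : ℝ) (x y : D) : inner ℂ x (v t y) = inner ℂ (v (-t) x) y :=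
  g_adj' h.inn h.add t x y

lemma Modl.vadd (t : ℝ) (x y : D) : v t (x + y) = v t x + v t y := g_add h.inn h.add t x y

lemma Modl.vsub (t : ℝ) (x y : D) : v t (x - y) = v t x - v t y := g_sub h.inn h.add t x y

lemma Modl.vsmul (t : ℝ) (c : ℂ) (x : D) : v t (c • x) = c • v t x := g_smul h.inn h.add t c x

lemma Modl.vnorm (t : ℝ) (x : D) : ‖v t x‖ = ‖x‖ := g_norm h.inn h.add t x

lemma Modl.vcont (x : D) : Continuous fun t => v t x := g_cont h.inn h.add h.der x

lemma Modl.vder (t : ℝ) (x : D) : HasDerivAt (fun s : ℝ => v s x) (Complex.I • k (v t x)) t :=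
  g_der h.inn h.add h.der t x

lemma Modl.kcom (t : ℝ) (x : D) : k (v t x) = v t (k x) := g_com h.inn h.add h.der t x

lemma Modl.ksymm (x y : D) : inner ℂ (k x) y = inner ℂ x (k y) := g_symm h.inn h.add h.der x y

lemma Modl.kadd (x y : D) : k (x + y) = k x + k y := adj_add h.ksymm x y

lemma Modl.ksub (x y : D) : k (x - y) = k x - k y := adj_sub h.ksymm x y

lemma Modl.ksmul (c : ℂ) (x : D) : k (c • x) = c • k x := adj_smul h.ksymm c x

/-- `⟨x, j y⟩ = ⟨y, j x⟩` -/
lemma Modl.jadj (x y : D) : inner ℂ x (j y) = inner ℂ y (j x) := j_adj h.jinn h.jj x y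

lemma Modl.jadj' (x y : D) : inner ℂ (j x) y = inner ℂ (j y) x := j_adj' h.jinn h.jj x y

lemma Modl.jadd (x y : D) : j (x + y) = j x + j y := j_add h.jinn h.jj x y

lemma Modl.jsub (x y : D) : j (x - y) = j x - j y := j_sub h.jinn h.jj x y

lemma Modl.jsmul (c : ℂ) (x : D) : j (c • x) = conj c • j x := j_smul h.jinn h.jj c x

lemma Modl.jnorm (x : D) : ‖j x‖ = ‖x‖ := j_norm h.jinn h.jj x

lemma Modl.jcont : Continuous j := j_cont h.jinn h.jj

end mod

end Vale.Agent.P352.HM

end
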