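import Vale.Agent.P352.HM.E0

/-!
# P352 HM, block E: the boundary values of the smoothed functions
-/

set_option linter.all false

noncomputable section

open MeasureTheory Filter Topology Asymptotics
open scoped ComplexConjugate

namespace Vale.Agent.P352.HM

open GF (Ix V Fn Fld Theory IsLor bas eta o sim)
open H246 H496 H755 H15

variable {D : Type*} [NormedAddCommGroup D] [InnerProductSpace ℂ D]

/-- Gaussian weights -/
def g1 (m : ℝ) (a : ℂ) (p : ℝ) : ℂ := Complex.exp (-(m : ℂ) * ((p : ℂ) + a) ^ 2)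

lemma g1_cont (m : ℝ) (a : ℂ) : Continuous (g1 m a) := by
  unfold g1
  fun_prop

lemma g1_int {m : ℝ} (hm : 0 < m) (a : ℂ) : Integrable (g1 m a) := by
  have h1 := GaussianFourier.integrable_cexp_neg_mul_sq_add_real_mul_I (b := (m : ℂ))
    (by simpa using hm) a.im
  have h2 := h1.comp_add_right a.re
  refine h2.congr (Eventually.of_forall fun p => ?_)
  simp only [g1]
  congr 3
  push_cast
  rw [add_assoc, Complex.re_add_im]

lemma gg_eq (m : ℝ) (z : ℂ) (p : ℝ × ℝ) :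
    gg m z p = ((m / Real.pi : ℝ) : ℂ) * (g1 m z p.1 * g1 m z p.2) := by
  unfold gg g1
  ring

section fub

variable {m : ℝ} (hm : 0 < m) (a b : ℂ) {K : ℝ × ℝ → ℂ} (hK : Continuous K) {C : ℝ}
  (hC : ∀ p, ‖K p‖ ≤ C)
include hm hK hC

lemma g2_int : Integrable fun p : ℝ × ℝ => g1 m a p.1 * g1 m b p.2 * K p := by
  have h1 : Integrable (fun p : ℝ × ℝ => g1 m a p.1 * g1 m b p.2) (volume.prod volume) :=
    (g1_int hm a).mul_prod (g1_int hm b)
  refine (h1.norm.mul_const C).mono' ?_ (Eventually.of_forall fun p => ?_)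
  · exact ((((g1_cont m a).comp continuous_fst).mul
      ((g1_cont m b).comp continuous_snd)).mul hK).aestronglyMeasurable
  · rw [norm_mul]
    exact mul_le_mul_of_nonneg_left (hC p) (norm_nonneg _)

lemma g2_fub1 : ∫ p : ℝ × ℝ, g1 m a p.1 * g1 m b p.2 * K p =
    ∫ p1 : ℝ, g1 m a p1 * ∫ p2 : ℝ, g1 m b p2 * K (p1, p2) := by
  have h1 := g2_int hm a b hK hC
  have h2 := integral_prod _ (h1 : Integrable _ (volume.prod volume))
  refine h2.trans (integral_congr_ae (Eventually.of_forall fun p1 => ?_))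
  simp only
  rw [← integral_const_mul]
  exact integral_congr_ae (Eventually.of_forall fun p2 => by simp only; ring)

lemma g2_fub2 : ∫ p : ℝ × ℝ, g1 m a p.1 * g1 m b p.2 * K p =
    ∫ p2 : ℝ, g1 m b p2 * ∫ p1 : ℝ, g1 m a p1 * K (p1, p2) := by
  have h1 := g2_int hm a b hK hC
  have h2 := integral_prod_symm _ (h1 : Integrable _ (volume.prod volume))
  refine h2.trans (integral_congr_ae (Eventually.of_forall fun p2 => ?_))
  simp only
  rw [← integral_const_mul]
  exact integral_congr_ae (Eventually.of_forall fun p1 => by simp only; ring)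

end fub

lemma dg_eq (m : ℝ) (K : ℝ × ℝ → ℂ) (z : ℂ) :
    dg m K z = ((m / Real.pi : ℝ) : ℂ) * ∫ p : ℝ × ℝ, g1 m z p.1 * g1 m z p.2 * K p := by
  unfold dg
  rw [← integral_const_mul]
  refine integral_congr_ae (Eventually.of_forall fun p => ?_)
  simp only
  rw [gg_eq]
  ring

/-- the smoothed functions depend continuously on the functions -/
lemma dg_lip {m : ℝ} (hm : 0 < m) (z : ℂ) {K K' : ℝ × ℝ → ℂ} (hK : Continuous K)
    (hK' : Continuous K') {C C' c : ℝ} (hC : ∀ p, ‖K p‖ ≤ C) (hC' : ∀ p, ‖K' p‖ ≤ C')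
    (h : ∀ p, ‖K p - K' p‖ ≤ c) :
    ‖dg m K z - dg m K' z‖ ≤ |m / Real.pi| *
      (∫ p : ℝ × ℝ, ‖g1 m z p.1 * g1 m z p.2‖) * c := by
  rw [dg_eq, dg_eq, ← mul_sub, ← integral_sub (g2_int hm z z hK hC) (g2_int hm z z hK' hC'),
    norm_mul, Complex.norm_real, Real.norm_eq_abs, mul_assoc]
  refine mul_le_mul_of_nonneg_left ?_ (abs_nonneg _)
  have h1 : Integrable (fun p : ℝ × ℝ => g1 m z p.1 * g1 m z p.2) (volume.prod volume) :=
    (g1_int hm z).mul_prod (g1_int hm z)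
  rw [← integral_mul_const]
  refine norm_integral_le_of_norm_le (h1.norm.mul_const c) (Eventually.of_forall fun p => ?_)
  rw [← mul_sub, norm_mul]
  exact mul_le_mul_of_nonneg_left (h p) (norm_nonneg _)

section kms

variable {Q : Theory D} {N : Set (D → D)} {v : ℝ → D → D} {j k : D → D} (h : Modl Q N v j k)
include h

/-- the Tomita relation for the smoothed modular group, on the right -/
lemma km_right (a6 : A6Stmt) {m : ℝ} (hm : 0 < m) {X Y : D → D} (hX : X ∈ N) (hY : Y ∈ N)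
    (hXY : ∀ x y, inner ℂ (X x) y = inner ℂ x (Y y)) (x : D) (t : ℝ) :
    ∫ p : ℝ, g1 m ((t : ℂ) - Complex.I / 2) p * inner ℂ (v p x) (X Q.vac) =
      ∫ p : ℝ, g1 m (t : ℂ) p * inner ℂ (Y Q.vac) (j (v p x)) := by
  obtain ⟨F, hF, hFb, hFt⟩ := h.kms X hX Y hY hXY x
  have e1 : ∀ p : ℝ, inner ℂ (v p x) (X Q.vac) = F ((-p : ℝ) : ℂ) := by
    intro p
    rw [h.vadj, (hFt (-p)).1]
  have e2 : ∀ p : ℝ, inner ℂ (Y Q.vac) (j (v p x)) = F (((-p : ℝ) : ℂ) - Complex.I / 2) := by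
    intro p
    rw [h.jadj, h.vadj, (hFt (-p)).2]
  have h1 := a6 F m (-(t : ℂ) + Complex.I / 2) hm hF hFb
  have l1 : ∫ p : ℝ, g1 m ((t : ℂ) - Complex.I / 2) p * inner ℂ (v p x) (X Q.vac) =
      ∫ τ : ℝ, Complex.exp (-(m : ℂ) * ((τ : ℂ) + (-(t : ℂ) + Complex.I / 2)) ^ 2) * F τ := by
    rw [← integral_neg_eq_self]
    refine integral_congr_ae (Eventually.of_forall fun p => ?_)
    simp only
    rw [e1, neg_neg]
    unfold g1
    congr 2
    push_cast
    ring
  have l2 : ∫ p : ℝ, g1 m (t : ℂ) p * inner ℂ (Y Q.vac) (j (v p x)) =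
      ∫ τ : ℝ, Complex.exp (-(m : ℂ) * ((τ : ℂ) - Complex.I / 2 +
        (-(t : ℂ) + Complex.I / 2)) ^ 2) * F (τ - Complex.I / 2) := by
    rw [← integral_neg_eq_self]
    refine integral_congr_ae (Eventually.of_forall fun p => ?_)
    simp only
    rw [e2, neg_neg]
    unfold g1
    congr 2
    push_cast
    ring
  rw [l1, l2, h1]

/-- the Tomita relation for the smoothed modular group, on the left -/
lemma km_left (a6 : A6Stmt) {m : ℝ} (hm : 0 < m) {X Y : D → D} (hX : X ∈ N) (hY : Y ∈ N)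
    (hXY : ∀ x y, inner ℂ (X x) y = inner ℂ x (Y y)) (w : D) (t : ℝ) :
    ∫ p : ℝ, g1 m ((t : ℂ) - Complex.I / 2) p * inner ℂ (v p (Y Q.vac)) w =
      ∫ p : ℝ, g1 m (t : ℂ) p * inner ℂ (j (v p (X Q.vac))) w := by
  have hYX : ∀ x y, inner ℂ (Y x) y = inner ℂ x (X y) := fun x y => adj_swap hXY x y
  obtain ⟨F, hF, hFb, hFt⟩ := h.kms Y hY X hX hYX w
  have h1 := a6 F m ((t : ℂ) + Complex.I / 2) hm hF hFb
  have l1 : ∫ p : ℝ, g1 m ((t : ℂ) - Complex.I / 2) p * inner ℂ (v p (Y Q.vac)) w =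
      conj (∫ τ : ℝ, Complex.exp (-(m : ℂ) * ((τ : ℂ) + ((t : ℂ) + Complex.I / 2)) ^ 2) * F τ) := by
    rw [← integral_conj]
    refine integral_congr_ae (Eventually.of_forall fun p => ?_)
    simp only
    rw [map_mul, (hFt p).1, inner_conj_symm, ← Complex.exp_conj]
    unfold g1
    congr 2
    simp only [map_mul, map_neg, map_pow, map_add, Complex.conj_ofReal, map_div₀, Complex.conj_I,
      map_ofNat]
    ring
  have l2 : ∫ p : ℝ, g1 m (t : ℂ) p * inner ℂ (j (v p (X Q.vac))) w =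
      conj (∫ τ : ℝ, Complex.exp (-(m : ℂ) * ((τ : ℂ) - Complex.I / 2 +
        ((t : ℂ) + Complex.I / 2)) ^ 2) * F (τ - Complex.I / 2)) := by
    rw [← integral_conj]
    refine integral_congr_ae (Eventually.of_forall fun p => ?_)
    simp only
    rw [map_mul, (hFt p).2, inner_conj_symm, ← Complex.exp_conj, h.jv]
    unfold g1
    congr 2
    simp only [map_mul, map_neg, map_pow, map_add, map_sub, Complex.conj_ofReal, map_div₀,
      Complex.conj_I, map_ofNat]
    ring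
  rw [l1, l2, h1]

end kms

/-- **block E, the identity** -/
theorem e_id (a6 : A6Stmt) (Q : Theory D) (N M : Set (D → D)) (v u : ℝ → D → D)
    (j j' k k' : D → D) (V W : D → D) (m : ℝ) (hm : 0 < m) (hN : Modl Q N v j k)
    (hM : Modl Q M u j' k') (hVW : ∀ x y, inner ℂ (V x) y = inner ℂ x (W y))
    (h1 : ∀ x, V (W x) = x) (h2 : ∀ x, W (V x) = x) (hv : V Q.vac = Q.vac)
    (hsub : ∀ X ∈ N, (fun x => V (X (W x))) ∈ M) (x y : D) (t : ℝ) :
    dg m (fun p => inner ℂ (u p.1 x) (V (v p.2 y))) ((t : ℂ) - Complex.I / 2) =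
      dg m (fun p => inner ℂ (V (j (v p.2 y))) (j' (u p.1 x))) (t : ℂ) := by
  have hW : W Q.vac = Q.vac := by rw [← hv, h2, hv]
  have hVc : Continuous V := by
    refine LipschitzWith.continuous (K := 1) (LipschitzWith.of_dist_le_mul fun x y => ?_)
    rw [dist_eq_norm, dist_eq_norm, ← adj_sub hVW, uni_norm hVW h2]
    simp
  have hu := hM.vcont
  have hvc := hN.vcont
  -- continuity and bounds of the three functions
  have c1 : ∀ y : D, Continuous fun p : ℝ × ℝ => inner ℂ (u p.1 x) (V (v p.2 y)) := fun y =>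
    ((hu x).comp continuous_fst).inner (hVc.comp ((hvc y).comp continuous_snd))
  have b1 : ∀ (y : D) (p : ℝ × ℝ), ‖inner ℂ (u p.1 x) (V (v p.2 y))‖ ≤ ‖x‖ * ‖y‖ := by
    intro y p
    refine (norm_inner_le_norm _ _).trans ?_
    rw [hM.vnorm, uni_norm hVW h2, hN.vnorm]
  have c3 : ∀ y : D, Continuous fun p : ℝ × ℝ => inner ℂ (V (j (v p.2 y))) (j' (u p.1 x)) :=
    fun y => (hVc.comp (hN.jcont.comp ((hvc y).comp continuous_snd))).inner
      (hM.jcont.comp ((hu x).comp continuous_fst))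
  have b3 : ∀ (y : D) (p : ℝ × ℝ), ‖inner ℂ (V (j (v p.2 y))) (j' (u p.1 x))‖ ≤ ‖y‖ * ‖x‖ := by
    intro y p
    refine (norm_inner_le_norm _ _).trans ?_
    rw [hM.jnorm, hM.vnorm, uni_norm hVW h2, hN.jnorm, hN.vnorm]
  -- density
  have key : ∀ y ∈ {x | ∃ X ∈ N, X Q.vac = x},
      dg m (fun p => inner ℂ (u p.1 x) (V (v p.2 y))) ((t : ℂ) - Complex.I / 2) =
      dg m (fun p => inner ℂ (V (j (v p.2 y))) (j' (u p.1 x))) (t : ℂ) := by
    rintro y ⟨X, hX, rfl⟩
    obtain ⟨Y, hY, hXY⟩ := hN.adj X hX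
    have c2 : Continuous fun p : ℝ × ℝ => inner ℂ (V (v p.2 (Y Q.vac))) (j' (u p.1 x)) :=
      (hVc.comp ((hvc _).comp continuous_snd)).inner (hM.jcont.comp ((hu x).comp continuous_fst))
    have b2 : ∀ p : ℝ × ℝ, ‖inner ℂ (V (v p.2 (Y Q.vac))) (j' (u p.1 x))‖ ≤
        ‖Y Q.vac‖ * ‖x‖ := by
      intro p
      refine (norm_inner_le_norm _ _).trans ?_
      rw [hM.jnorm, hM.vnorm, uni_norm hVW h2, hN.vnorm]
    -- the integral over `p1`
    have s1 : ∀ p2 : ℝ, ∫ p1 : ℝ, g1 m ((t : ℂ) - Complex.I / 2) p1 *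
        inner ℂ (u p1 x) (V (v p2 (X Q.vac))) =
        ∫ p1 : ℝ, g1 m (t : ℂ) p1 * inner ℂ (V (v p2 (Y Q.vac))) (j' (u p1 x)) := by
      intro p2
      have m1 := hsub _ (hN.inv p2 X hX)
      have m2 := hsub _ (hN.inv p2 Y hY)
      have m3 : ∀ a b : D, inner ℂ (V (v p2 (X (v (-p2) (W a))))) b =
          inner ℂ a (V (v p2 (Y (v (-p2) (W b))))) := by
        intro a b
        rw [hVW, hN.vadj, hXY, ← adj_swap hVW, hN.vadj']
      have h3 := km_right hM a6 hm m1 m2 m3 x t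
      simp only [hW, hN.vac] at h3
      exact h3
    -- the integral over `p2`
    have s2 : ∀ p1 : ℝ, ∫ p2 : ℝ, g1 m ((t : ℂ) - Complex.I / 2) p2 *
        inner ℂ (V (v p2 (Y Q.vac))) (j' (u p1 x)) =
        ∫ p2 : ℝ, g1 m (t : ℂ) p2 * inner ℂ (V (j (v p2 (X Q.vac)))) (j' (u p1 x)) := by
      intro p1
      have h3 := km_left hN a6 hm hX hY hXY (W (j' (u p1 x))) t
      simp only [← hVW] at h3
      exact h3
    rw [dg_eq, dg_eq, g2_fub2 hm _ _ (c1 _) (b1 _), g2_fub1 hm _ _ (c3 _) (b3 _)]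
    congr 1
    simp only [s1, ← s2]
    rw [← g2_fub2 hm _ _ c2 b2, ← g2_fub1 hm _ _ c2 b2]
  -- continuity in `y`
  have d1 : Continuous fun y : D => dg m (fun p => inner ℂ (u p.1 x) (V (v p.2 y)))
      ((t : ℂ) - Complex.I / 2) := by
    refine LipschitzWith.continuous (K := Real.toNNReal (|m / Real.pi| *
      (∫ p : ℝ × ℝ, ‖g1 m ((t : ℂ) - Complex.I / 2) p.1 * g1 m ((t : ℂ) - Complex.I / 2) p.2‖) *
        ‖x‖)) (LipschitzWith.of_dist_le_mul fun y y' => ?_)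
    rw [dist_eq_norm, dist_eq_norm, Real.coe_toNNReal _ (by positivity), mul_assoc]
    refine dg_lip hm _ (c1 y) (c1 y') (b1 y) (b1 y') fun p => ?_
    rw [← inner_sub_right, ← adj_sub hVW, ← hN.vsub]
    exact b1 _ p
  have d3 : Continuous fun y : D => dg m (fun p => inner ℂ (V (j (v p.2 y))) (j' (u p.1 x)))
      (t : ℂ) := by
    refine LipschitzWith.continuous (K := Real.toNNReal (|m / Real.pi| *
      (∫ p : ℝ × ℝ, ‖g1 m (t : ℂ) p.1 * g1 m (t : ℂ) p.2‖) *
        ‖x‖)) (LipschitzWith.of_dist_le_mul fun y y' => ?_)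
    rw [dist_eq_norm, dist_eq_norm, Real.coe_toNNReal _ (by positivity), mul_assoc]
    refine dg_lip hm _ (c3 y) (c3 y') (b3 y) (b3 y') fun p => ?_
    rw [← inner_sub_left, ← adj_sub hVW, ← hN.jsub, ← hN.vsub, mul_comm]
    exact b3 _ p
  exact (isClosed_eq d1 d3).closure_subset_iff.2 key (hN.cyc y)

end Vale.Agent.P352.HM

end
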