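import Vale.Agent.P352.HM.Lit
import Vale.Agent.P352.HM.R
import Vale.Agent.P352.H755.R7h
import Vale.Agent.P352.H755.R7d
import Vale.Agent.P352.N86.K.C1
import Vale.Agent.P352.NF.F4a

/-!
# P352 HM: the modular Hamiltonians of the regions `Rg a b c` are affine functions of `c`
-/

set_option linter.all false

noncomputable section

open MeasureTheory Filter Topology

namespace Vale.Agent.P352.HM

open GF (Ix V Fn Fld Theory IsLor bas eta o sim)
open H246 H496 H755 H15 H746 N86

variable {D : Type*} [NormedAddCommGroup D] [InnerProductSpace ℂ D]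
variable {Q : GF.Theory D} {A : (V → V) → D → D} {alg : Set V → Set (D → D)}
  {v : V → V → ℝ → ℝ → D → D} {j k : V → V → ℝ → D → D}

/-- the unitary operators `V` and `W` are inverse to each other and fix the vacuum -/
structure Inv (Q : GF.Theory D) (V W : D → D) : Prop where
  adj : ∀ x y, inner ℂ (V x) y = inner ℂ x (W y)
  vw : ∀ x, V (W x) = x
  wv : ∀ x, W (V x) = x
  vac : V Q.vac = Q.vac

lemma Inv.symm {V W : D → D} (h : Inv Q V W) : Inv Q W V where
  adj x y := by rw [← inner_conj_symm, ← h.adj, inner_conj_symm]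
  vw := h.wv
  wv := h.vw
  vac := by rw [← h.vac, h.wv, h.vac]

/-- conjugates of modular objects -/
def CjStmt (D : Type*) [NormedAddCommGroup D] [InnerProductSpace ℂ D] : Prop :=
  ∀ (Q : Theory D) (N : Set (D → D)) (v : ℝ → D → D) (j k V W : D → D), Modl Q N v j k →
  Inv Q V W → Modl Q {Y | ∃ X ∈ N, ∀ x, Y x = V (X (W x))} (fun t x => V (v t (W x)))
    (fun x => V (j (W x))) (fun x => V (k (W x)))

/-- the inverse of `Q.U s L y` -/
def Wi (Q : GF.Theory D) (s : ℝ) (L : Ix → V) (y : V) : D → D :=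
  Q.U s⁻¹ (linv L) (-(s⁻¹ • sim 1 (linv L) 0 y))

lemma sim_wi {s : ℝ} (hs : 0 < s) {L : Ix → V} (hL : IsLor L) (y z : V) :
    sim s⁻¹ (linv L) (-(s⁻¹ • sim 1 (linv L) 0 y)) (sim s L y z) = z := by
  rw [c1_sim, c1_sim s L y, simL_add, simL_smul, c1_linv hL, smul_add, smul_smul,
    inv_mul_cancel₀ hs.ne', one_smul]
  abel

lemma sim_iw {s : ℝ} (hs : 0 < s) {L : Ix → V} (hL : IsLor L) (y z : V) :
    sim s L y (sim s⁻¹ (linv L) (-(s⁻¹ • sim 1 (linv L) 0 y)) z) = z := by
  rw [c1_sim s L y, c1_sim s⁻¹, simL_add, ← neg_one_smul ℝ (s⁻¹ • _), simL_smul, simL_smul,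
    simL_smul, sim_linv hL, sim_linv hL, smul_add, smul_smul, smul_smul, smul_smul, mul_neg_one,
    neg_mul, mul_inv_cancel₀ hs.ne', one_smul, neg_one_smul]
  abel

lemma U_inv (R : Rep Q A) {s : ℝ} (hs : 0 < s) {L : Ix → V} (hL : IsLor L) (y : V) :
    Inv Q (Q.U s L y) (Wi Q s L y) := by
  have hi := isLor_linv hL
  have e1 : ∀ x, Q.U s L y (Wi Q s L y x) = x := by
    intro x
    unfold Wi
    rw [R.mul s L y _ _ _ x hs (inv_pos.2 hs) hL hi, mul_inv_cancel₀ hs.ne', linv_id hL]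
    have e : sim s L y (-(s⁻¹ • sim 1 (linv L) 0 y)) = 0 := by
      have h := sim_iw hs hL y 0
      rw [c1_sim s⁻¹, sim_zero', smul_zero, add_zero] at h
      exact h
    rw [e]
    exact U1_zero_all (Q := Q) x
  have e2 : ∀ x, Wi Q s L y (Q.U s L y x) = x := by
    intro x
    unfold Wi
    rw [R.mul _ _ _ s L y x (inv_pos.2 hs) hs hi hL, inv_mul_cancel₀ hs.ne']
    have e : sim s⁻¹ (linv L) (-(s⁻¹ • sim 1 (linv L) 0 y)) y = 0 := by
      have h := sim_wi hs hL y 0
      rwa [c1_sim s L, sim_zero', smul_zero, add_zero] at h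
    have e' : (fun m => sim 1 (linv L) 0 (L m)) = GF.one := by
      funext m
      rw [← c1_bas L m, c1_linv hL]
      rfl
    rw [e, e']
    exact U1_zero_all (Q := Q) x
  refine ⟨fun x z => ?_, e1, e2, Q.U_vac s L y hs hL⟩
  have h := Q.U_inner s L y x (Wi Q s L y z) hs hL
  rwa [e1] at h

/-- the sets of operators of images of regions -/
theorem alg_img (h : MNet Q A alg v j k) {s : ℝ} (hs : 0 < s) {L : Ix → V} (hL : IsLor L)
    (y : V) (O : Set V) : alg (sim s L y '' O) =
      {Y | ∃ X ∈ alg O, ∀ x, Y x = Q.U s L y (X (Wi Q s L y x))} := by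
  have hI := U_inv h.toRep hs hL y
  ext Y
  constructor
  · intro hY
    obtain ⟨X, hX, hXY⟩ := h.cov s⁻¹ (linv L) (-(s⁻¹ • sim 1 (linv L) 0 y)) _ Y hY
      (inv_pos.2 hs) (isLor_linv hL)
    have e : sim s⁻¹ (linv L) (-(s⁻¹ • sim 1 (linv L) 0 y)) '' (sim s L y '' O) = O := by
      rw [← Set.image_comp]
      have : (sim s⁻¹ (linv L) (-(s⁻¹ • sim 1 (linv L) 0 y)) ∘ sim s L y) = id := by
        funext z
        exact sim_wi hs hL y z
      rw [this, Set.image_id]
    rw [e] at hX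
    refine ⟨X, hX, fun x => ?_⟩
    have h1 : X (Wi Q s L y x) = Wi Q s L y (Y x) := hXY x
    rw [h1, hI.vw]
  · rintro ⟨X, hX, hXY⟩
    obtain ⟨Y', hY', h1⟩ := h.cov s L y O X hX hs hL
    have e : Y = Y' := by
      funext x
      rw [hXY, ← h1, hI.vw]
    rwa [e]

/-- transported modular Hamiltonians -/
theorem k_cov2 (hU : UStmt D) (hC : CjStmt D) (h : MNet Q A alg v j k) {a b a' b' y y' : V}
    {c c' s s' : ℝ} {L L' : Ix → V} (ha : IsNull a) (hb : IsNull b) (hab : GF.mdot a b = 1)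
    (hc : 0 ≤ c) (ha' : IsNull a') (hb' : IsNull b') (hab' : GF.mdot a' b' = 1) (hc' : 0 ≤ c')
    (hs : 0 < s) (hL : IsLor L) (hs' : 0 < s') (hL' : IsLor L')
    (he : sim s L y '' Rg a b c = sim s' L' y' '' Rg a' b' c') (x : D) :
    Q.U s L y (k a b c (Wi Q s L y x)) = Q.U s' L' y' (k a' b' c' (Wi Q s' L' y' x)) := by
  have h1 := hC Q _ _ _ _ _ _ (h.mod a b c ha hb hab hc) (U_inv h.toRep hs hL y)
  have h2 := hC Q _ _ _ _ _ _ (h.mod a' b' c' ha' hb' hab' hc') (U_inv h.toRep hs' hL' y')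
  rw [← alg_img h hs hL y] at h1
  rw [← alg_img h hs' hL' y', ← he] at h2
  exact hU Q _ _ _ _ _ _ _ h1 h2 x

/-- covariance of the modular Hamiltonians -/
theorem k_cov (hU : UStmt D) (hC : CjStmt D) (h : MNet Q A alg v j k) {a b a' b' y : V}
    {c c' s : ℝ} {L : Ix → V} (ha : IsNull a) (hb : IsNull b) (hab : GF.mdot a b = 1)
    (hc : 0 ≤ c) (ha' : IsNull a') (hb' : IsNull b') (hab' : GF.mdot a' b' = 1) (hc' : 0 ≤ c')
    (hs : 0 < s) (hL : IsLor L) (he : sim s L y '' Rg a b c = Rg a' b' c') (x : D) :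
    Q.U s L y (k a b c x) = k a' b' c' (Q.U s L y x) := by
  have h1 := hC Q _ _ _ _ _ _ (h.mod a b c ha hb hab hc) (U_inv h.toRep hs hL y)
  rw [← alg_img h hs hL y, he] at h1
  have h2 := hU Q _ _ _ _ _ _ _ h1 (h.mod a' b' c' ha' hb' hab' hc') (Q.U s L y x)
  rw [← h2, (U_inv h.toRep hs hL y).wv]

/-- the boost with `a ↦ l a` -/
def bo (a b : V) (l : ℝ) : Ix → V := bst a b (l - 1) (l⁻¹ - 1)

lemma isLor_bo {a b : V} (ha : IsNull a) (hb : IsNull b) (hab : GF.mdot a b = 1) {l : ℝ}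
    (hl : 0 < l) : IsLor (bo a b l) :=
  isLor_bst ha hb hab (by linarith) (by
    have := hl.ne'
    field_simp
    ring)

lemma sim_bo (a b z : V) (l : ℝ) : sim 1 (bo a b l) 0 z =
    z + ((l - 1) * GF.mdot b z) • a + ((l⁻¹ - 1) * GF.mdot a z) • b := sim_bst _ _ _ _ _

lemma bo_a {a b : V} (ha : IsNull a) (hab : GF.mdot a b = 1) (l : ℝ) :
    sim 1 (bo a b l) 0 a = l • a := by
  rw [sim_bo, ha.1, md_comm b a, hab]
  module

lemma bo_b {a b : V} (hb : IsNull b) (hab : GF.mdot a b = 1) (l : ℝ) :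
    sim 1 (bo a b l) 0 b = l⁻¹ • b := by
  rw [sim_bo, hb.1, hab]
  module

section

variable (h : MNet Q A alg v j k) {a b : V} (ha : IsNull a) (hb : IsNull b)
  (hab : GF.mdot a b = 1)
include h ha hb hab

/-- the modular unitaries of the wedges -/
theorem v_bo (t : ℝ) (x : D) :
    v a b 0 t x = Q.U 1 (bo a b (Real.exp (-(2 * Real.pi * t)))) 0 x := by
  refine h.bw a b t _ x ha hb hab (isLor_bo ha hb hab (Real.exp_pos _)) fun z => ?_
  rw [sim_bo, ← Real.exp_neg, neg_neg]

/-- the modular Hamiltonians of the wedges -/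
theorem k_zero (x : D) : k a b 0 x = A (fun z => (2 * Real.pi) • (GF.mdot a z • b -
    GF.mdot b z • a)) x := by
  have h1 := (h.mod a b 0 ha hb hab le_rfl).der x
  have h2 : HasDerivAt (fun t : ℝ => Q.U 1 (bo a b (Real.exp (-(2 * Real.pi * t)))) 0 x)
      (Complex.I • A (fun z => (2 * Real.pi) • (GF.mdot a z • b - GF.mdot b z • a)) x) 0 := by
    refine h.toRep.der (fun _ => 1) (fun t => bo a b (Real.exp (-(2 * Real.pi * t))))
      (fun _ => 0) _ x rfl ?_ rfl (fun e => ⟨one_pos, isLor_bo ha hb hab (Real.exp_pos _)⟩)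
      fun n z => ?_
    · funext m n
      simp [bo, bst, GF.one]
    · have e : (fun t : ℝ => sim 1 (bo a b (Real.exp (-(2 * Real.pi * t)))) 0 z n) =
          fun t : ℝ => z n + (Real.exp (-(2 * Real.pi * t)) - 1) * (GF.mdot b z * a n) +
            (Real.exp (2 * Real.pi * t) - 1) * (GF.mdot a z * b n) := by
        funext t
        rw [sim_bo, ← Real.exp_neg, neg_neg]
        simp only [Pi.add_apply, Pi.smul_apply, smul_eq_mul]
        ring
      rw [e]
      have d1 : HasDerivAt (fun t : ℝ => Real.exp (-(2 * Real.pi * t))) (-(2 * Real.pi)) 0 := by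
        have := (((hasDerivAt_id (0 : ℝ)).const_mul (2 * Real.pi)).neg).exp
        simpa using this
      have d2 : HasDerivAt (fun t : ℝ => Real.exp (2 * Real.pi * t)) (2 * Real.pi) 0 := by
        have := ((hasDerivAt_id (0 : ℝ)).const_mul (2 * Real.pi)).exp
        simpa using this
      have d3 := (((d1.sub_const 1).mul_const (GF.mdot b z * a n)).const_add (z n)).add
        ((d2.sub_const 1).mul_const (GF.mdot a z * b n))
      refine d3.congr_deriv ?_
      simp only [Pi.sub_apply, Pi.smul_apply, smul_eq_mul]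
      ring
  have e : (fun t : ℝ => v a b 0 t x) =
      fun t : ℝ => Q.U 1 (bo a b (Real.exp (-(2 * Real.pi * t)))) 0 x :=
    funext fun t => v_bo h ha hb hab t x
  rw [e] at h1
  exact smul_right_injective D Complex.I_ne_zero (h1.unique h2)

/-- images under the boosts -/
theorem bo_img {l c : ℝ} (hl : 0 < l) : sim 1 (bo a b l) 0 '' Rg a b c = Rg a b (l * c) := by
  rw [Rg_img one_pos hl (isLor_bo ha hb hab hl) (bo_a ha hab l), bo_b hb hab, smul_smul,
    mul_inv_cancel₀ hl.ne', one_smul, div_one]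

/-- **half-sided modular inclusions** -/
theorem hsm {c : ℝ} (hc : 0 ≤ c) : Hsm Q (alg (Rg a b c)) (alg (Rg a b 0)) (v a b c) (v a b 0)
    (j a b c) (j a b 0) (k a b c) (k a b 0) where
  small := h.mod a b c ha hb hab hc
  big := h.mod a b 0 ha hb hab le_rfl
  sub := h.mono _ _ (Rg_mono ha hb hab le_rfl hc)
  half s hs X hX := by
    have hm := h.mod a b 0 ha hb hab le_rfl
    have hl : 0 < Real.exp (2 * Real.pi * s) := Real.exp_pos _
    have h1 : 1 ≤ Real.exp (2 * Real.pi * s) := by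
      rw [← Real.exp_zero]
      exact Real.exp_le_exp.2 (by positivity)
    obtain ⟨Y, hY, hYX⟩ := h.cov 1 (bo a b (Real.exp (2 * Real.pi * s))) 0 _ X hX one_pos
      (isLor_bo ha hb hab hl)
    rw [bo_img h ha hb hab hl] at hY
    have hY' := h.mono _ _ (Rg_mono ha hb hab hc (by nlinarith)) hY
    have e : ∀ x, v a b 0 (-s) x = Q.U 1 (bo a b (Real.exp (2 * Real.pi * s))) 0 x := by
      intro x
      rw [v_bo h ha hb hab]
      congr 2
      rw [mul_neg, neg_neg]
    have e2 : (fun x => v a b 0 (-s) (X (v a b 0 s x))) = Y := by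
      funext x
      rw [e, ← hYX, ← e]
      have h2 := hm.add (-s) s x
      rw [neg_add_cancel] at h2
      rw [← h2]
      congr 1
      rw [v_bo h ha hb hab, mul_zero, neg_zero, Real.exp_zero]
      have e3 : bo a b 1 = GF.one := by
        funext m n
        simp [bo, bst, GF.one]
      rw [e3]
      exact U1_zero_all (Q := Q) x
    rw [e2]
    exact hY'
  grow := fun x => h.bdk a b c x ha hb hab hc

/-- **the modular Hamiltonians are affine functions of `c`** -/
theorem klin (hU : UStmt D) (hC : CjStmt D) (hLs : LStmt D) {c : ℝ} (hc : 0 < c) (x : D) :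
    k a b c x = k a b 0 x + (c : ℂ) • (k a b 1 x - k a b 0 x) := by
  have hH := hsm h ha hb hab (c := 1) zero_le_one
  have hm := h.mod a b 0 ha hb hab le_rfl
  set t : ℝ := -(Real.log c / (2 * Real.pi)) with ht
  have h1 := hLs Q _ _ _ _ _ _ _ _ hH x t
  have e0 : Real.exp (-(2 * Real.pi * t)) = c := by
    rw [ht, mul_neg, neg_neg, mul_div_cancel₀ _ (by positivity), Real.exp_log hc]
  rw [e0] at h1
  rw [← h1]
  have h2 := k_cov hU hC h ha hb hab zero_le_one ha hb hab hc.le one_pos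
    (isLor_bo ha hb hab hc) (by rw [bo_img h ha hb hab hc, mul_one]) (v a b 0 (-t) x)
  have e1 : ∀ x, v a b 0 t x = Q.U 1 (bo a b c) 0 x := by
    intro x
    rw [v_bo h ha hb hab, e0]
  rw [e1, h2, ← e1]
  congr 1
  have h3 := hm.add t (-t) x
  rw [add_neg_cancel] at h3
  rw [← h3, v_bo h ha hb hab, mul_zero, neg_zero, Real.exp_zero]
  have e3 : bo a b 1 = GF.one := by
    funext m n
    simp [bo, bst, GF.one]
  rw [e3]
  exact (U1_zero_all (Q := Q) x).symm

end

end Vale.Agent.P352.HM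

end
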