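import Vale.Agent.P352.HM.U
import Vale.Agent.P352.HM.E0
import Vale.Agent.P352.HM.R
import Vale.Agent.P352.N86.K.C1
import Vale.Agent.P352.H846.Sw1

/-!
# P352 HM, block KS: the null generators of the modular Hamiltonians transform like special
conformal generators
-/

set_option linter.all false

noncomputable section

open MeasureTheory Filter Topology

namespace Vale.Agent.P352.HM

open GF (Ix V Fn Fld Theory IsLor bas eta o sim)
open H246 H496 H755 H15
open H746 (nrt sim_nrt nrt_fix nrt_mul isLor_nrt nrt_row)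

variable {D : Type*} [NormedAddCommGroup D] [InnerProductSpace ℂ D] {Q : Theory D}
  {A : (V → V) → D → D} {alg : Set V → Set (D → D)} {v : V → V → ℝ → ℝ → D → D}
  {j k : V → V → ℝ → D → D}

/-- the velocity field of the modular group of a wedge -/
def X0 (a b : V) : V → V := fun z => (2 * Real.pi) • (GF.mdot a z • b - GF.mdot b z • a)

lemma X0_sim (a b : V) : IsSim 0 (X0 a b) := by
  refine ⟨0, fun m n => (2 * Real.pi) * (eta m * a m * b n - eta m * b m * a n), ?_, ?_⟩
  · intro m n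
    ring
  · intro z n
    simp only [X0, GF.mdot, Fin.sum_univ_four, Pi.sub_apply, Pi.smul_apply, smul_eq_mul,
      Pi.zero_apply]
    ring

/-- the difference of the modular Hamiltonians of a region and of a wedge -/
def Gb (k : V → V → ℝ → D → D) (a b : V) (x : D) : D :=
  (((2 * Real.pi)⁻¹ : ℝ) : ℂ) • (k a b 1 x - k a b 0 x)

/-! ### The self map of the region -/

/-- the Poincaré transformation, a null rotation followed by a translation, that carries
`Rg a b c` onto itself -/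
lemma Rg_self {a b x : V} {c : ℝ} (ha : IsNull a) (hb : IsNull b) (hab : GF.mdot a b = 1)
    (hax : GF.mdot a x = 0) (hbx : GF.mdot b x = 0) :
    sim 1 (nrt a (c • x)) (x - (c * GF.mdot x x) • a) '' Rg a b c = Rg a b c := by
  have hw : GF.mdot a (c • x) = 0 := by rw [rmd_smul, hax, mul_zero]
  have hL := isLor_nrt ha hw
  have hba : GF.mdot b a = 1 := by rw [rmd_comm, hab]
  have hxa : GF.mdot x a = 0 := by rw [rmd_comm, hax]
  have hxb : GF.mdot x b = 0 := by rw [rmd_comm, hbx]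
  have key : ∀ z, sim 1 (nrt a (c • x)) (x - (c * GF.mdot x x) • a) z ∈ Rg a b c ↔
      z ∈ Rg a b c := by
    intro z
    have e0 : sim 1 (nrt a (c • x)) (x - (c * GF.mdot x x) • a) z =
        (z - (2 * (c * GF.mdot x z)) • a + (2 * GF.mdot a z) • c • x -
          (2 * (c * (c * GF.mdot x x)) * GF.mdot a z) • a) + (x - (c * GF.mdot x x) • a) := by
      rw [sim_at, sim_nrt]
      simp only [rmd_smul, rmd_smul']
    have e1 : GF.mdot a (sim 1 (nrt a (c • x)) (x - (c * GF.mdot x x) • a) z) =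
        GF.mdot a z := by
      rw [e0]
      simp only [rmd_add, rmd_sub, rmd_smul, hax, ha.1]
      ring
    have e2 : GF.mdot b (sim 1 (nrt a (c • x)) (x - (c * GF.mdot x x) • a) z) =
        GF.mdot b z - 2 * (c * GF.mdot x z) - 2 * (c * (c * GF.mdot x x)) * GF.mdot a z -
          c * GF.mdot x x := by
      rw [e0]
      simp only [rmd_add, rmd_sub, rmd_smul, hbx, hba]
      ring
    have e3 : GF.mdot (sim 1 (nrt a (c • x)) (x - (c * GF.mdot x x) • a) z)
        (sim 1 (nrt a (c • x)) (x - (c * GF.mdot x x) • a) z) =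
        GF.mdot z z + 2 * GF.mdot x z + 2 * c * GF.mdot x x * GF.mdot a z + GF.mdot x x := by
      rw [e0]
      simp only [rmd_add, rmd_sub, rmd_smul, rmd_add', rmd_sub', rmd_smul', hax, hxa, ha.1]
      rw [rmd_comm z a, rmd_comm z x]
      ring
    rw [mem_Rg, mem_Rg, e1, e2, e3]
    have f : GF.mdot b z - 2 * (c * GF.mdot x z) - 2 * (c * (c * GF.mdot x x)) * GF.mdot a z -
          c * GF.mdot x x + c * (GF.mdot z z + 2 * GF.mdot x z +
            2 * c * GF.mdot x x * GF.mdot a z + GF.mdot x x) = GF.mdot b z + c * GF.mdot z z := by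
      ring
    rw [f]
  ext y
  constructor
  · rintro ⟨z, hz, rfl⟩
    exact (key z).2 hz
  · intro hy
    have e := ub_sim one_pos hL (x - (c * GF.mdot x x) • a) y
    refine ⟨_, (key _).1 ?_, e⟩
    rw [e]
    exact hy

section comm

variable (hU : UStmt D) (h : MNet Q A alg v j k)
  (hk0 : ∀ a b x, IsNull a → IsNull b → GF.mdot a b = 1 → k a b 0 x = A (X0 a b) x)
  (hkl : ∀ a b c x, IsNull a → IsNull b → GF.mdot a b = 1 → 0 < c →
    k a b c x = k a b 0 x + (c : ℂ) • (k a b 1 x - k a b 0 x))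

include hkl in
lemma klin_Gb {a b : V} {c : ℝ} (ha : IsNull a) (hb : IsNull b) (hab : GF.mdot a b = 1)
    (hc : 0 ≤ c) (x : D) : k a b c x = k a b 0 x + ((2 * Real.pi * c : ℝ) : ℂ) • Gb k a b x := by
  rcases hc.eq_or_lt with h0 | h0
  · rw [← h0]
    simp
  · rw [hkl a b c x ha hb hab h0, Gb, smul_smul]
    congr 2
    have hpi := Real.pi_pos.ne'
    push_cast
    field_simp

/-- `Q.U` of a composition with a translation -/
lemma U_split (R : Rep Q A) {L : Ix → V} (hL : IsLor L) (x y : V) (z : D) :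
    Q.U 1 GF.one x (Q.U 1 L y z) = Q.U 1 L (x + y) z := by
  rw [R.mul 1 GF.one x 1 L y z one_pos one_pos isLor_one hL, one_mul]
  congr 1
  · funext m n
    simp [sim, GF.one, bas]
  · rw [sim_tr, add_comm]

lemma U_nrt2 (R : Rep Q A) {a w : V} (ha : IsNull a) (hw : GF.mdot a w = 0) (t : ℝ) (z : D) :
    Q.U 1 (nrt a w) (t • a) (Q.U 1 (nrt a w) (t • a) z) =
      Q.U 1 (nrt a ((2 : ℝ) • w)) ((2 * t) • a) z := by
  rw [R.mul _ _ _ _ _ _ z one_pos one_pos (isLor_nrt ha hw) (isLor_nrt ha hw), one_mul]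
  congr 1
  · funext m
    rw [nrt_row a w m, nrt_mul ha hw, ← nrt_row]
  · rw [sim_at, simL_smul, nrt_fix ha hw]
    module

lemma U_injL {s : ℝ} {L : Ix → V} (hs : 0 < s) (hL : IsLor L) {y : V} {p q : D}
    (e : Q.U s L y p = Q.U s L y q) : p = q :=
  ub_inj (fun x z => Q.U_inner s L y x z hs hL) e

include hU h hk0 hkl

variable {a b : V} (ha : IsNull a) (hb : IsNull b) (hab : GF.mdot a b = 1)
include ha hb hab

/-- the conjugate of the null generator with the self map of the region -/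
lemma ks_self {x : V} {c : ℝ} (hax : GF.mdot a x = 0) (hbx : GF.mdot b x = 0) (hc : 0 < c)
    (z : D) : Q.U 1 (nrt a (c • x)) (x - (c * GF.mdot x x) • a) (Gb k a b z) =
      Gb k a b (Q.U 1 (nrt a (c • x)) (x - (c * GF.mdot x x) • a) z) +
        A (XX a x) (Q.U 1 (nrt a (c • x)) (x - (c * GF.mdot x x) • a) z) := by
  have hw : GF.mdot a (c • x) = 0 := by rw [rmd_smul, hax, mul_zero]
  have hL := isLor_nrt ha hw
  have hba : GF.mdot b a = 1 := by rw [rmd_comm, hab]
  have hxa : GF.mdot x a = 0 := by rw [rmd_comm, hax]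
  set y : V := x - (c * GF.mdot x x) • a with hy
  set Uc : D → D := Q.U 1 (nrt a (c • x)) y with hUc
  have h1 := net_kcov hU h ha hb hab hc.le ha hb hab hc.le one_pos hL
    (Rg_self ha hb hab hax hbx) z
  rw [klin_Gb hkl ha hb hab hc.le, klin_Gb hkl ha hb hab hc.le, hk0 a b _ ha hb hab,
    hk0 a b _ ha hb hab, U_add one_pos hL, U_smul one_pos hL] at h1
  have h2 := N86.A_conj h.toRep (X0_sim a b) one_pos hL y z
  have e : (fun z => (1 : ℝ) • sim 1 (nrt a (c • x)) 0
      (X0 a b (sim 1⁻¹ (linv (nrt a (c • x))) 0 (z - y)))) =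
      fun z => X0 a b z + (-(2 * Real.pi * c)) • XX a x z := by
    funext z
    obtain ⟨q, hq⟩ : ∃ q, q = sim 1 (linv (nrt a (c • x))) 0 (z - y) := ⟨_, rfl⟩
    have hz : z = sim 1 (nrt a (c • x)) 0 q + y := by
      rw [hq, sim_linv hL]
      abel
    rw [inv_one, ← hq, one_smul]
    have e1 : GF.mdot a z = GF.mdot a q := by
      rw [hz, sim_nrt, hy]
      simp only [rmd_add, rmd_sub, rmd_smul, rmd_smul', hax, ha.1]
      ring
    have e2 : GF.mdot b z = GF.mdot b q - 2 * (c * GF.mdot x q) -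
        2 * (c * (c * GF.mdot x x)) * GF.mdot a q - c * GF.mdot x x := by
      rw [hz, sim_nrt, hy]
      simp only [rmd_add, rmd_sub, rmd_smul, rmd_smul', hbx, hba]
      ring
    have e3 : GF.mdot x z = GF.mdot x q + 2 * c * GF.mdot x x * GF.mdot a q + GF.mdot x x := by
      rw [hz, sim_nrt, hy]
      simp only [rmd_add, rmd_sub, rmd_smul, rmd_smul', hxa]
      ring
    have e4 : sim 1 (nrt a (c • x)) 0 b = b + (2 * c) • x - (2 * (c * (c * GF.mdot x x))) • a := by
      rw [sim_nrt]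
      simp only [rmd_smul, rmd_smul', rmd_comm x b, hbx, hab]
      module
    unfold X0 XX cK
    rw [simL_smul, simL_sub, simL_smul, simL_smul, nrt_fix ha hw, e4, e1, e2, e3, hax]
    module
  rw [e] at h2
  have h3 := h.toRep.add 0 _ (-(2 * Real.pi * c)) (X0 a b) (XX a x) (Uc z) (X0_sim a b)
    (XX_sim a x)
  rw [h3] at h2
  rw [h2] at h1
  have hpi := Real.pi_pos
  have hne : ((2 * Real.pi * c : ℝ) : ℂ) ≠ 0 := by
    have : (0 : ℝ) < 2 * Real.pi * c := by positivity
    exact_mod_cast this.ne'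
  have h4 : ((2 * Real.pi * c : ℝ) : ℂ) • Uc (Gb k a b z) =
      ((2 * Real.pi * c : ℝ) : ℂ) • (Gb k a b (Uc z) + A (XX a x) (Uc z)) := by
    rw [smul_add]
    have h5 : A (X0 a b) (Uc z) + ((-(2 * Real.pi * c) : ℝ) : ℂ) • A (XX a x) (Uc z) +
        ((2 * Real.pi * c : ℝ) : ℂ) • Uc (Gb k a b z) = A (X0 a b) (Uc z) +
          ((2 * Real.pi * c : ℝ) : ℂ) • Gb k a b (Uc z) := h1
    rw [Complex.ofReal_neg, neg_smul] at h5
    have h6 := congrArg (fun u => u - A (X0 a b) (Uc z) +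
      ((2 * Real.pi * c : ℝ) : ℂ) • A (XX a x) (Uc z)) h5
    have e7 : A (X0 a b) (Uc z) + -(((2 * Real.pi * c : ℝ) : ℂ) • A (XX a x) (Uc z)) +
        ((2 * Real.pi * c : ℝ) : ℂ) • Uc (Gb k a b z) - A (X0 a b) (Uc z) +
        ((2 * Real.pi * c : ℝ) : ℂ) • A (XX a x) (Uc z) =
        ((2 * Real.pi * c : ℝ) : ℂ) • Uc (Gb k a b z) := by abel
    have e8 : A (X0 a b) (Uc z) + ((2 * Real.pi * c : ℝ) : ℂ) • Gb k a b (Uc z) -
        A (X0 a b) (Uc z) + ((2 * Real.pi * c : ℝ) : ℂ) • A (XX a x) (Uc z) =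
        ((2 * Real.pi * c : ℝ) : ℂ) • Gb k a b (Uc z) +
          ((2 * Real.pi * c : ℝ) : ℂ) • A (XX a x) (Uc z) := by abel
    rw [e7, e8] at h6
    exact h6
  exact smul_right_injective D hne h4

/-- the null generators commute with the transformations `N_c`, and their translates -/
lemma ks_nc {x : V} (hax : GF.mdot a x = 0) (hbx : GF.mdot b x = 0) :
    (∀ (c : ℝ) (z : D), 0 < c → Q.U 1 (nrt a (c • x)) (-(c * GF.mdot x x) • a) (Gb k a b z) =
      Gb k a b (Q.U 1 (nrt a (c • x)) (-(c * GF.mdot x x) • a) z)) ∧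
    ∀ z : D, Q.U 1 GF.one x (Gb k a b (Q.U 1 GF.one (-x) z)) = Gb k a b z + A (XX a x) z := by
  have hw : ∀ c : ℝ, GF.mdot a (c • x) = 0 := fun c => by rw [rmd_smul, hax, mul_zero]
  have hL := fun c : ℝ => isLor_nrt ha (hw c)
  set Nc : ℝ → D → D := fun c z => Q.U 1 (nrt a (c • x)) (-(c * GF.mdot x x) • a) z with hNc
  set Gt : D → D := fun z => Q.U 1 GF.one (-x) (Gb k a b (Q.U 1 GF.one x z) +
    A (XX a x) (Q.U 1 GF.one x z)) with hGt
  have r1 : ∀ (c : ℝ) (z : D), 0 < c → Nc c (Gb k a b z) = Gt (Nc c z) := by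
    intro c z hc
    have h1 := ks_self hU h hk0 hkl ha hb hab hax hbx hc z
    have e : ∀ z : D, Q.U 1 (nrt a (c • x)) (x - (c * GF.mdot x x) • a) z =
        Q.U 1 GF.one x (Nc c z) := by
      intro z
      rw [hNc]
      simp only
      rw [U_split h.toRep (hL c), neg_smul, ← sub_eq_add_neg]
    rw [e, e] at h1
    rw [hGt]
    simp only
    rw [← h1, Uadd1, neg_add_cancel, Uone]
  have r2 : ∀ (c : ℝ) (z : D), Nc c (Nc c z) = Nc (2 * c) z := by
    intro c z
    rw [hNc]
    simp only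
    rw [U_nrt2 h.toRep ha (hw c), smul_smul]
    congr 2
    ring
  have r3 : ∀ z : D, Gt (Nc 1 z) = Gb k a b (Nc 1 z) := by
    intro z
    have h1 := r1 2 z (by norm_num)
    have h2 : Nc 1 (Nc 1 (Gb k a b z)) = Gt (Nc 1 (Nc 1 z)) := by
      rw [r2, r2, mul_one]
      exact h1
    rw [r1 1 z one_pos, ← r1 1 (Nc 1 z) one_pos] at h2
    exact U_injL one_pos (hL 1) h2
  have r4 : ∀ z : D, Gt z = Gb k a b z := by
    intro z
    have h1 := ub_Uinv h.toRep one_pos (hL 1) (-(1 * GF.mdot x x) • a) z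
    have h2 := r3 (Q.U 1⁻¹ (linv (nrt a ((1 : ℝ) • x)))
      (-(sim 1⁻¹ (linv (nrt a ((1 : ℝ) • x))) 0 (-(1 * GF.mdot x x) • a))) z)
    rw [hNc] at h2
    simp only at h2
    rwa [h1] at h2
  refine ⟨fun c z hc => ?_, fun z => ?_⟩
  · have h1 := r1 c z hc
    rw [r4] at h1
    exact h1
  · have h1 := r4 (Q.U 1 GF.one (-x) z)
    rw [hGt] at h1
    simp only at h1
    rw [Uadd1, add_neg_cancel, Uone] at h1
    rw [← h1, Uadd1, add_neg_cancel, Uone]

/-- the null generators commute with the translations along `a` -/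
lemma ks_ta (t : ℝ) (z : D) :
    Gb k a b (Q.U 1 GF.one (t • a) z) = Q.U 1 GF.one (t • a) (Gb k a b z) := by
  -- a transversal vector
  obtain ⟨x, hx0, hax, hbx⟩ : ∃ x : V, x ≠ 0 ∧ GF.mdot a x = 0 ∧ GF.mdot b x = 0 := by
    set f : V →ₗ[ℝ] ℝ × ℝ := (ml a).toLinearMap.prod (ml b).toLinearMap with hf
    have h1 : Module.finrank ℝ (ℝ × ℝ) < Module.finrank ℝ V := by
      have e1 : Module.finrank ℝ (ℝ × ℝ) = 2 := by simp
      have e2 : Module.finrank ℝ V = 4 := by
        show Module.finrank ℝ (Ix → ℝ) = 4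
        simp
      rw [e1, e2]
      norm_num
    have h2 := LinearMap.ker_ne_bot_of_finrank_lt (f := f) h1
    obtain ⟨x, hx, hx0⟩ := (Submodule.ne_bot_iff _).1 h2
    have h3 : f x = 0 := hx
    have h4 : (ml a x, ml b x) = ((0 : ℝ), (0 : ℝ)) := h3
    have h5 := congrArg Prod.fst h4
    have h6 := congrArg Prod.snd h4
    simp only [ml_apply] at h5 h6
    exact ⟨x, hx0, h5, h6⟩
  have hxx : 0 < -GF.mdot x x := by
    have h1 := H846.perp_norm ha hb hab hax hbx
    have h2 : 0 < ‖x‖ ^ 2 := by positivity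
    have ha0 : 0 < a 0 := ha.2
    have hb0 : 0 < b 0 := hb.2
    have h3 : 0 < (a 0 + b 0) ^ 2 / 2 := by positivity
    by_contra hn
    push Not at hn
    nlinarith [mul_nonneg h3.le (neg_nonneg.2 hn)]
  have key : ∀ (t : ℝ) (z : D), 0 < t →
      Gb k a b (Q.U 1 GF.one (t • a) z) = Q.U 1 GF.one (t • a) (Gb k a b z) := by
    intro t z ht
    set c : ℝ := t / (-GF.mdot x x) with hcdef
    have hc : 0 < c := div_pos ht hxx
    have hne : GF.mdot x x ≠ 0 := by linarith
    have hcx : -(c * GF.mdot x x) = t := by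
      rw [hcdef]
      field_simp
    have hw : GF.mdot a (c • x) = 0 := by rw [rmd_smul, hax, mul_zero]
    have hL := isLor_nrt ha hw
    have h1 := (ks_nc hU h hk0 hkl ha hb hab hax hbx).1 c
    have h2 := (ks_nc hU h hk0 hkl ha hb hab (x := (2 : ℝ) • x) (by rw [rmd_smul, hax, mul_zero])
      (by rw [rmd_smul, hbx, mul_zero])).1 (c / 2)
    have e1 : (c / 2) • (2 : ℝ) • x = c • x := by rw [smul_smul]; congr 1; ring
    have e2 : -(c / 2 * GF.mdot ((2 : ℝ) • x) ((2 : ℝ) • x)) = t + t := by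
      rw [rmd_smul, rmd_smul']
      linear_combination 2 * hcx
    rw [e1, e2] at h2
    rw [hcx] at h1
    have e3 : ∀ z : D, Q.U 1 (nrt a (c • x)) ((t + t) • a) z =
        Q.U 1 GF.one (t • a) (Q.U 1 (nrt a (c • x)) (t • a) z) := by
      intro z
      rw [U_split h.toRep hL, add_smul]
    obtain ⟨z', rfl⟩ : ∃ z', Q.U 1 (nrt a (c • x)) (t • a) z' = z :=
      ⟨_, ub_Uinv h.toRep one_pos hL (t • a) z⟩
    rw [← e3, ← h2 z' (by positivity), e3, h1 z' hc]
  rcases lt_trichotomy t 0 with ht | ht | ht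
  · have h1 := key (-t) (Q.U 1 GF.one (t • a) z) (by linarith)
    rw [Uadd1, ← add_smul, neg_add_cancel, zero_smul, Uone] at h1
    rw [h1, Uadd1, ← add_smul, add_neg_cancel, zero_smul, Uone]
  · rw [ht, zero_smul, Uone, Uone]
  · exact key t z ht

/-- the null generators commute with the null rotations -/
lemma ks_nr {x : V} (hax : GF.mdot a x = 0) (hbx : GF.mdot b x = 0) (z : D) :
    Gb k a b (Q.U 1 (nrt a x) 0 z) = Q.U 1 (nrt a x) 0 (Gb k a b z) := by
  have hL := isLor_nrt ha hax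
  have h1 := (ks_nc hU h hk0 hkl ha hb hab hax hbx).1 1 z one_pos
  rw [one_smul, one_mul] at h1
  have e : ∀ z : D, Q.U 1 (nrt a x) (-GF.mdot x x • a) z =
      Q.U 1 GF.one (-GF.mdot x x • a) (Q.U 1 (nrt a x) 0 z) := by
    intro z
    rw [U_split h.toRep hL, add_zero]
  rw [e, e, ks_ta hU h hk0 hkl ha hb hab] at h1
  exact (U_injL one_pos isLor_one h1).symm

/-- the translates of the null generators along the null hyperplane -/
lemma ks_tra {y : V} (hay : GF.mdot a y = 0) (z : D) :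
    Q.U 1 GF.one y (Gb k a b (Q.U 1 GF.one (-y) z)) = Gb k a b z + A (XX a y) z := by
  have hba : GF.mdot b a = 1 := by rw [rmd_comm, hab]
  obtain ⟨x, hx⟩ : ∃ x, x = y - GF.mdot b y • a := ⟨_, rfl⟩
  have hax : GF.mdot a x = 0 := by rw [hx, rmd_sub, rmd_smul, hay, ha.1]; ring
  have hbx : GF.mdot b x = 0 := by rw [hx, rmd_sub, rmd_smul, hba]; ring
  have hy : y = x + GF.mdot b y • a := by rw [hx]; abel
  obtain ⟨t, ht⟩ : ∃ t, t = GF.mdot b y := ⟨_, rfl⟩
  rw [← ht] at hy
  have h1 := (ks_nc hU h hk0 hkl ha hb hab hax hbx).2 z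
  have e1 : XX a y = XX a x := by
    funext z
    unfold XX cK
    rw [hy]
    simp only [rmd_add, rmd_smul, rmd_add', rmd_smul', hax, ha.1, rmd_comm x a]
    module
  have e2 : Q.U 1 GF.one (-y) z = Q.U 1 GF.one ((-t) • a) (Q.U 1 GF.one (-x) z) := by
    rw [Uadd1]
    congr 1
    rw [hy]
    module
  have e3 : ∀ z : D, Q.U 1 GF.one y z = Q.U 1 GF.one x (Q.U 1 GF.one (t • a) z) := by
    intro z
    rw [Uadd1, hy]
  rw [e1, ← h1, e2, ks_ta hU h hk0 hkl ha hb hab, e3, Uadd1 (t • a), ← add_smul,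
    add_neg_cancel, zero_smul, Uone]

/-- the null generators do not depend on `b` -/
lemma ks_b {b' : V} (hb' : IsNull b') (hab' : GF.mdot a b' = 1) (z : D) :
    Gb k a b' z = Gb k a b z := by
  have hba : GF.mdot b a = 1 := by rw [rmd_comm, hab]
  obtain ⟨w, hw⟩ : ∃ w, w = (1 / 2 : ℝ) • (b' - b - GF.mdot b b' • a) := ⟨_, rfl⟩
  have haw : GF.mdot a w = 0 := by
    rw [hw]
    simp only [rmd_smul, rmd_sub, hab, hab', ha.1]
    ring
  have hbw : GF.mdot b w = 0 := by
    rw [hw]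
    simp only [rmd_smul, rmd_sub, hb.1, hba]
    ring
  have hww : GF.mdot w w = -(1 / 2) * GF.mdot b b' := by
    rw [hw]
    simp only [rmd_smul, rmd_sub, rmd_smul', rmd_sub', hb.1, hb'.1, ha.1, hab, hab', hba,
      rmd_comm b' b, rmd_comm b' a]
    ring
  have hL := isLor_nrt ha haw
  have hLa : sim 1 (nrt a w) 0 a = (1 : ℝ) • a := by rw [nrt_fix ha haw, one_smul]
  have hLb : (1 : ℝ) • sim 1 (nrt a w) 0 b = b' := by
    rw [sim_nrt, rmd_comm w b, hbw, hab, hww, hw]
    module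
  have hR : ∀ c, sim 1 (nrt a w) 0 '' Rg a b c = Rg a b' c := by
    intro c
    have h1 := Rg_img (b := b) (c := c) one_pos one_pos hL hLa
    rw [hLb, div_one, one_mul] at h1
    exact h1
  obtain ⟨z', rfl⟩ : ∃ z', Q.U 1 (nrt a w) 0 z' = z :=
    ⟨_, ub_Uinv h.toRep one_pos hL 0 z⟩
  have h1 := net_kcov hU h ha hb hab zero_le_one ha hb' hab' zero_le_one one_pos hL (hR 1) z'
  have h2 := net_kcov hU h ha hb hab le_rfl ha hb' hab' le_rfl one_pos hL (hR 0) z'
  rw [ks_nr hU h hk0 hkl ha hb hab haw hbw, Gb, Gb, ← h1, ← h2, U_smul one_pos hL]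
  congr 1
  exact (adj_sub (V := Q.U 1 (nrt a w) 0) (W := fun z => Q.U 1⁻¹ (linv (nrt a w))
    (-(sim 1⁻¹ (linv (nrt a w)) 0 0)) z) (fun x y => by
      rw [← Q.U_inner 1 (nrt a w) 0 x _ one_pos hL, ub_Uinv h.toRep one_pos hL]) _ _).symm

end comm

/-! ### The null generators -/

/-- a null vector `b` with `a·b = 1` -/
def db (a : V) : V := by
  classical
  exact if h : IsNull a then (H755.exists_dual h).choose else 0

lemma db_null {a : V} (ha : IsNull a) : IsNull (db a) := by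
  unfold db
  rw [dif_pos ha]
  exact (H755.exists_dual ha).choose_spec.1

lemma db_dual {a : V} (ha : IsNull a) : GF.mdot a (db a) = 1 := by
  unfold db
  rw [dif_pos ha]
  exact (H755.exists_dual ha).choose_spec.2

/-- the null generators -/
def Gm (k : V → V → ℝ → D → D) (a : V) (x : D) : D := Gb k a (db a) x

section main

variable (hU : UStmt D) (h : MNet Q A alg v j k)
  (hk0 : ∀ a b x, IsNull a → IsNull b → GF.mdot a b = 1 → k a b 0 x = A (X0 a b) x)
  (hkl : ∀ a b c x, IsNull a → IsNull b → GF.mdot a b = 1 → 0 < c →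
    k a b c x = k a b 0 x + (c : ℂ) • (k a b 1 x - k a b 0 x))
include hU h hk0 hkl

lemma Gm_eq {a b : V} (ha : IsNull a) (hb : IsNull b) (hab : GF.mdot a b = 1) (x : D) :
    Gm k a x = Gb k a b x :=
  ks_b hU h hk0 hkl ha hb hab (db_null ha) (db_dual ha) x

/-- **the modular Hamiltonians of the regions** -/
theorem klin_Gm {a b : V} {c : ℝ} (ha : IsNull a) (hb : IsNull b) (hab : GF.mdot a b = 1)
    (hc : 0 ≤ c) (x : D) : k a b c x = k a b 0 x + ((2 * Real.pi * c : ℝ) : ℂ) • Gm k a x := by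
  rw [Gm_eq hU h hk0 hkl ha hb hab, klin_Gb hkl ha hb hab hc]

/-- **block KS** -/
theorem ks_of : NF.KS Q A (Gm k) where
  toRep := h.toRep
  symm a x y ha := by
    have m0 := h.mod a (db a) 0 ha (db_null ha) (db_dual ha) le_rfl
    have m1 := h.mod a (db a) 1 ha (db_null ha) (db_dual ha) zero_le_one
    unfold Gm Gb
    rw [inner_smul_left, inner_smul_right, inner_sub_left, inner_sub_right, ub_ksymm m0,
      ub_ksymm m1, Complex.conj_ofReal]
  cov s L r a b z hs hr hL ha hb hLa := by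
    obtain ⟨b', hb'⟩ : ∃ b', b' = r • sim 1 L 0 (db a) := ⟨_, rfl⟩
    have hd := db_null ha
    have hda := db_dual ha
    have hbb' : GF.mdot b b' = 1 := by
      have h1 := rmdot_sim hL a (db a)
      rw [hLa, rmd_smul', hda] at h1
      rw [hb', rmd_smul, h1]
    have hn' : IsNull b' := by
      have h0 : GF.mdot b' b' = 0 := by
        rw [hb', rmd_smul, rmd_smul', rmdot_sim hL, hd.1]
        ring
      exact ⟨h0, H755.null_pos hb h0 (by rw [hbb']; exact one_pos)⟩
    have hR : ∀ c, sim s L 0 '' Rg a (db a) c = Rg b b' (r / s * c) := by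
      intro c
      rw [hb']
      exact Rg_img hs hr hL hLa
    have hrs : 0 < r / s := div_pos hr hs
    have h1 := net_kcov hU h ha hd hda zero_le_one hb hn' hbb' (by positivity) hs hL (hR 1) z
    have h2 := net_kcov hU h ha hd hda le_rfl hb hn' hbb' (by simp) hs hL (hR 0) z
    rw [mul_one] at h1
    rw [mul_zero] at h2
    rw [hkl b b' (r / s) _ hb hn' hbb' hrs, ← h2] at h1
    have e2 : Q.U s L 0 (k a (db a) 1 z - k a (db a) 0 z) =
        Q.U s L 0 (k a (db a) 1 z) - Q.U s L 0 (k a (db a) 0 z) :=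
      adj_sub (V := Q.U s L 0) (W := fun z => Q.U s⁻¹ (linv L)
        (-(sim s⁻¹ (linv L) 0 0)) z) (fun x y => by
        rw [← Q.U_inner s L 0 x _ hs hL, ub_Uinv h.toRep hs hL]) _ _
    rw [Gm_eq hU h hk0 hkl hb hn' hbb']
    unfold Gm Gb
    rw [U_smul hs hL, e2, h1, ← h2, add_sub_cancel_left, smul_comm]
  tra a y z ha hay := ks_tra hU h hk0 hkl ha (db_null ha) (db_dual ha) hay z

end main

end Vale.Agent.P352.HM

end
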