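import Vale.Agent.P352.HM.Defs
import Vale.Agent.P352.NG.Loc1

/-!
# P352 HM: locality of the null generators with respect to null hyperplanes
-/

set_option linter.all false

noncomputable section

open MeasureTheory Filter Topology
open scoped ComplexConjugate

namespace Vale.Agent.P352.HM

open GF (Ix V Fn Fld Theory IsLor bas eta o sim bar)
open H246 H496 H755 H15
open ND (isSim_tr wdg_opp)
open NF (LocA)

variable {D : Type*} [NormedAddCommGroup D] [InnerProductSpace ℂ D]

/-! ## weak derivatives -/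

section

variable {v : ℝ → D → D} {k : D → D}
  (inn : ∀ t x y, inner ℂ (v t x) (v t y) = inner ℂ x y)
  (add : ∀ s t x, v (s + t) x = v s (v t x))
include inn add

lemma lo_zero (x : D) : v 0 x = x := by
  have h0 : v 0 (v 0 x) = v 0 x := by rw [← add, add_zero]
  have e1 : inner ℂ (v 0 x) x = inner ℂ x x := by
    rw [← inn 0 (v 0 x) x, h0, inn]
  have e2 : inner ℂ x (v 0 x) = inner ℂ x x := by
    rw [← inn 0 x (v 0 x), h0, inn]
  have e3 : inner ℂ (v 0 x - x) (v 0 x - x) = 0 := by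
    rw [inner_sub_left, inner_sub_right, inner_sub_right, inn, e1, e2]
    ring
  exact sub_eq_zero.1 (inner_self_eq_zero.1 e3)

lemma lo_inv (t : ℝ) (x : D) : v t (v (-t) x) = x := by
  rw [← add, add_neg_cancel, lo_zero inn add]

lemma lo_inv' (t : ℝ) (x : D) : v (-t) (v t x) = x := by
  rw [← add, neg_add_cancel, lo_zero inn add]

lemma lo_adj (t : ℝ) (x y : D) : inner ℂ (v t x) y = inner ℂ x (v (-t) y) := by
  rw [← inn t x (v (-t) y), lo_inv inn add]

lemma lo_adj' (t : ℝ) (x y : D) : inner ℂ x (v t y) = inner ℂ (v (-t) x) y := by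
  rw [← inn t (v (-t) x) y, lo_inv inn add]

variable (der : ∀ x, HasDerivAt (fun t : ℝ => v t x) (Complex.I • k x) 0)
include der

lemma lo_der' (x : D) : HasDerivAt (fun t : ℝ => v (-t) x) (-(Complex.I • k x)) 0 := by
  have h1 : HasDerivAt (fun t : ℝ => v t x) (Complex.I • k x) (-(0 : ℝ)) := by
    rw [neg_zero]
    exact der x
  have h2 := h1.scomp (0 : ℝ) (hasDerivAt_neg (0 : ℝ))
  simpa [Function.comp_def] using h2

/-- the weak derivative of `v t X v(-t)` -/
lemma lo_wder {X Y : D → D} (hX : Adj X Y) {u : D}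
    (hb : ∃ C : ℝ, ∀ t, |t| ≤ 1 → ‖X (v t u)‖ ≤ C) (w : D) :
    HasDerivAt (fun t : ℝ => inner ℂ w (v t (X (v (-t) u))))
      (inner ℂ (-(Complex.I • k w)) (X u) + inner ℂ w (X (-(Complex.I • k u)))) 0 := by
  have z0 := fun x => lo_zero inn add x
  have e : (fun t : ℝ => inner ℂ w (v t (X (v (-t) u)))) = fun t : ℝ =>
      inner ℂ (v (-t) w - w) (X (v (-t) u)) + inner ℂ (Y w) (v (-t) u) := by
    funext t
    rw [lo_adj' inn add, inner_sub_left, hX.symm w]
    ring
  rw [e]
  refine HasDerivAt.add ?_ ?_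
  · -- product of a differentiable and a bounded weakly convergent function
    obtain ⟨C, hC⟩ := hb
    have hw := lo_der' inn add der w
    have hu := lo_der' inn add der u
    rw [hasDerivAt_iff_tendsto_slope] at hw ⊢
    have hC0 : 0 ≤ C := le_trans (norm_nonneg _) (hC 0 (by simp))
    -- the weak limit
    have hwk : Tendsto (fun t : ℝ => inner ℂ (-(Complex.I • k w)) (X (v (-t) u)))
        (𝓝[≠] 0) (𝓝 (inner ℂ (-(Complex.I • k w)) (X u))) := by
      have h1 : Tendsto (fun t : ℝ => v (-t) u) (𝓝[≠] 0) (𝓝 u) := by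
        have := hu.continuousAt.tendsto
        rw [neg_zero, z0] at this
        exact this.mono_left nhdsWithin_le_nhds
      have h2 : Tendsto (fun t : ℝ => inner ℂ (Y (-(Complex.I • k w))) (v (-t) u)) (𝓝[≠] 0)
          (𝓝 (inner ℂ (Y (-(Complex.I • k w))) u)) := tendsto_const_nhds.inner h1
      have e1 : ∀ z, inner ℂ (Y (-(Complex.I • k w))) z = inner ℂ (-(Complex.I • k w)) (X z) :=
        fun z => hX.symm _ z
      simpa only [e1] using h2
    have hdiff : Tendsto (fun t : ℝ => inner ℂ (slope (fun t : ℝ => v (-t) w) 0 t -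
        (-(Complex.I • k w))) (X (v (-t) u))) (𝓝[≠] 0) (𝓝 0) := by
      refine squeeze_zero_norm' (a := fun t : ℝ => ‖slope (fun t : ℝ => v (-t) w) 0 t -
        (-(Complex.I • k w))‖ * C) ?_ ?_
      · have hnear : ∀ᶠ t : ℝ in 𝓝[≠] 0, |-t| ≤ 1 := by
          refine (Filter.Eventually.filter_mono nhdsWithin_le_nhds ?_)
          filter_upwards [Metric.ball_mem_nhds (0 : ℝ) one_pos] with t ht
          rw [abs_neg]
          have : |t| < 1 := by simpa [Real.dist_eq] using ht
          exact this.le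
        filter_upwards [hnear] with t ht
        refine (norm_inner_le_norm _ _).trans ?_
        exact mul_le_mul_of_nonneg_left (hC _ ht) (norm_nonneg _)
      · have h1 : Tendsto (fun t : ℝ => ‖slope (fun t : ℝ => v (-t) w) 0 t -
            (-(Complex.I • k w))‖ * C) (𝓝[≠] 0) (𝓝 (‖(-(Complex.I • k w)) -
            (-(Complex.I • k w))‖ * C)) := ((hw.sub_const _).norm).mul_const C
        simpa using h1
    have hsum := hdiff.add hwk
    rw [zero_add] at hsum
    refine hsum.congr' ?_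
    filter_upwards [self_mem_nhdsWithin] with t ht
    rw [← inner_add_left, sub_add_cancel]
    simp only [slope_def_module, neg_zero, z0, sub_self, inner_zero_left, sub_zero]
    rw [← Complex.coe_smul (t⁻¹) (v (-t) w - w), inner_smul_left]
    simp [inner_sub_left]
  · have h2 := (hasDerivAt_const (0 : ℝ) (Y w)).inner ℂ (lo_der' inn add der u)
    have e2 : inner ℂ w (X (-(Complex.I • k u))) = inner ℂ (Y w) (-(Complex.I • k u)) :=
      (hX.symm w _).symm
    rw [e2]
    simpa using h2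

/-- **differentiation of commutators** -/
lemma lo_comm (hk : ∀ x y, inner ℂ (k x) y = inner ℂ x (k y)) {X Y P P' : D → D} (hX : Adj X Y)
    (hP : Adj P P') (hb : ∀ u, ∃ C : ℝ, ∀ t, |t| ≤ 1 → ‖X (v t u)‖ ≤ C)
    (hc : ∀ t u, v t (X (v (-t) (P u))) = P (v t (X (v (-t) u)))) (u : D) :
    k (X (P u)) - X (k (P u)) = P (k (X u) - X (k u)) := by
  have hform : ∀ a b : D, inner ℂ (-(Complex.I • k a)) (X b) + inner ℂ a (X (-(Complex.I • k b))) =
      Complex.I * inner ℂ a (k (X b) - X (k b)) := by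
    intro a b
    have h1 : X (-(Complex.I • k b)) = -(Complex.I • X (k b)) := by
      rw [← neg_one_smul ℂ (Complex.I • k b), hX.smul, hX.smul, neg_one_smul]
    rw [h1, inner_neg_left, inner_smul_left, hk, inner_neg_right, inner_smul_right, inner_sub_right]
    simp only [Complex.conj_I]
    ring
  refine ext_inner_left ℂ fun w => ?_
  have d1 := lo_wder inn add der hX (hb (P u)) w
  have d2 := lo_wder inn add der hX (hb u) (P' w)
  have e : (fun t : ℝ => inner ℂ w (v t (X (v (-t) (P u))))) =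
      fun t : ℝ => inner ℂ (P' w) (v t (X (v (-t) u))) := by
    funext t
    rw [hc, hP.symm w]
  rw [e] at d1
  have h := d1.unique d2
  rw [hform, hform] at h
  have h2 := mul_left_cancel₀ Complex.I_ne_zero h
  rw [h2, hP.symm w]

end

/-! ## geometry -/

lemma lo_null_smul {c : V} {r : ℝ} (hr : 0 < r) (hc : IsNull c) : IsNull (r • c) :=
  ⟨by rw [md_smul, md_smul_l, hc.1]; simp, mul_pos hr hc.2⟩

lemma lo_wdg_r {a c y : V} {r : ℝ} (hr : 0 < r) : Wdg a (r • c) y = Wdg a c y := by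
  ext z
  simp only [Wdg, Set.mem_setOf_eq, md_smul_l]
  refine and_congr_right fun _ => ?_
  exact mul_pos_iff_of_pos_left hr

lemma lo_wdg_l {a c y : V} {r : ℝ} (hr : 0 < r) : Wdg (r • c) a y = Wdg c a y := by
  ext z
  simp only [Wdg, Set.mem_setOf_eq, md_smul_l]
  refine and_congr_left fun _ => ?_
  constructor
  · intro h
    by_contra hn
    exact absurd h (not_lt.2 (mul_nonneg hr.le (not_lt.1 hn)))
  · intro h
    exact mul_neg_of_pos_of_neg hr h

lemma lo_zero_reg {a b : V} : Rg a b 0 = Wdg a b 0 := by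
  ext z
  simp [Rg, Wdg]

/-- reversed Cauchy-Schwarz inequality -/
lemma lo_le {a b : V} (ha : IsNull a) (hb : IsNull b) (hab : GF.mdot a b = 1) (z : V) :
    GF.mdot z z ≤ 2 * (GF.mdot a z * GF.mdot b z) := by
  set w : V := z - GF.mdot b z • a - GF.mdot a z • b with hw
  have hba : GF.mdot b a = 1 := by rw [md_comm]; exact hab
  have h1 : GF.mdot a w = 0 := by
    rw [hw, md_sub, md_sub, md_smul, md_smul, ha.1, hab]
    ring
  have h2 := orth_nonpos ha h1
  have h3 : GF.mdot w w = GF.mdot z z - 2 * (GF.mdot a z * GF.mdot b z) := by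
    have hza : GF.mdot z a = GF.mdot a z := md_comm _ _
    have hzb : GF.mdot z b = GF.mdot b z := md_comm _ _
    rw [hw]
    simp only [md_sub, md_sub_l, md_smul, md_smul_l, ha.1, hb.1, hab, hba, hza, hzb]
    ring
  linarith

lemma lo_reg {a b : V} (ha : IsNull a) (hb : IsNull b) (hab : GF.mdot a b = 1) {c : ℝ}
    (hc : 0 ≤ c) : Rg a b c ⊆ Wdg a b 0 := by
  intro z hz
  obtain ⟨h1, h2, h3⟩ := hz
  have h4 := lo_le ha hb hab z
  simp only [Wdg, Set.mem_setOf_eq, sub_zero]
  refine ⟨h1, ?_⟩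
  have h5 : 0 < GF.mdot b z * (1 + 2 * c * GF.mdot a z) := by nlinarith
  exact (pos_iff_pos_of_mul_pos h5).2 h2

lemma lo_cont (a : V) : Continuous fun z : V => GF.mdot a z := by
  unfold GF.mdot
  fun_prop

lemma lo_cont2 : Continuous fun z : V => GF.mdot z z := by
  unfold GF.mdot
  fun_prop

/-- a function with compact support in the wedge is supported in one of the regions -/
lemma lo_cpt {a b : V} {f : Fn} (hf : In (Wdg a b 0) f) : ∃ c : ℝ, 0 < c ∧ In (Rg a b c) f := by
  obtain ⟨h1, h2, h3⟩ := hf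
  have hK : IsCompact (tsupport f) := h2
  rcases (tsupport f).eq_empty_or_nonempty with he | hne
  · exact ⟨1, one_pos, h1, h2, by rw [he]; exact Set.empty_subset _⟩
  obtain ⟨z1, hz1, hm1⟩ := hK.exists_isMinOn hne (lo_cont a).continuousOn
  obtain ⟨z2, hz2, hm2⟩ := hK.exists_isMinOn hne (lo_cont b).continuousOn
  obtain ⟨z3, hz3, hm3⟩ := hK.exists_isMinOn hne lo_cont2.continuousOn
  have w2 := h3 hz2
  simp only [Wdg, Set.mem_setOf_eq, sub_zero] at w2
  set M : ℝ := |GF.mdot a z1| + 1 with hM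
  set N : ℝ := |GF.mdot z3 z3| + 1 with hN
  have hMp : 0 < M := by positivity
  have hNp : 0 < N := by positivity
  set e : ℝ := GF.mdot b z2 with he
  have hep : 0 < e := w2.2
  refine ⟨min (1 / (4 * M)) (e / (2 * N)), by positivity, h1, h2, fun z hz => ?_⟩
  set c : ℝ := min (1 / (4 * M)) (e / (2 * N)) with hc
  have hcp : 0 < c := by positivity
  have wz := h3 hz
  simp only [Wdg, Set.mem_setOf_eq, sub_zero] at wz
  have k1 : -M ≤ GF.mdot a z := by
    have := hm1 hz
    simp only [Set.mem_setOf_eq] at this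
    have h4 := neg_abs_le (GF.mdot a z1)
    linarith
  have k2 : e ≤ GF.mdot b z := hm2 hz
  have k3 : -N ≤ GF.mdot z z := by
    have := hm3 hz
    simp only [Set.mem_setOf_eq] at this
    have h4 := neg_abs_le (GF.mdot z3 z3)
    linarith
  have c1 : c * M ≤ 1 / 4 := by
    have h5 : c ≤ 1 / (4 * M) := min_le_left _ _
    calc c * M ≤ 1 / (4 * M) * M := by gcongr
      _ = 1 / 4 := by field_simp
  have c2 : c * N ≤ e / 2 := by
    have h5 : c ≤ e / (2 * N) := min_le_right _ _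
    calc c * N ≤ e / (2 * N) * N := by gcongr
      _ = e / 2 := by field_simp
  refine ⟨wz.1, ?_, ?_⟩
  · nlinarith
  · nlinarith

/-! ## locality -/

section

variable {Q : GF.Theory D} {A : (V → V) → D → D} {alg : Set V → Set (D → D)}
  {v : V → V → ℝ → ℝ → D → D} {j k : V → V → ℝ → D → D} {G : V → D → D}

lemma lo_in {a b : V} (ha : IsNull a) (hb : IsNull b) (hab : GF.mdot a b = 1) {c : ℝ}
    (hc : 0 ≤ c) {f : Fn} (hf : In (Rg a b c) f) : In (Wdg a b 0) f :=
  ⟨hf.1, hf.2.1, hf.2.2.trans (lo_reg ha hb hab hc)⟩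

/-- the modular Hamiltonian of a region in a wedge, and the fields in the region and in the
opposite wedge -/
lemma lo_k (h : MNet Q A alg v j k) {a b : V} (ha : IsNull a) (hb : IsNull b)
    (hab : GF.mdot a b = 1) {c : ℝ} (hc : 0 ≤ c) {φ B : GF.Fld D} (hφ : Q.fld φ) (hB : Q.fld B)
    {f g : Fn} (hf : In (Rg a b c) f) (hg : In (Wdg b a 0) g) (u : D) :
    k a b c (φ f (B g u)) - φ f (k a b c (B g u)) = B g (k a b c (φ f u) - φ f (k a b c u)) := by
  have M := h.mod a b c ha hb hab hc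
  obtain ⟨φ', hφ', ha1⟩ := Q.adj φ hφ
  obtain ⟨B', hB', ha2⟩ := Q.adj B hB
  have hks : ∀ x y, inner ℂ (k a b c x) y = inner ℂ x (k a b c y) := by
    intro x y
    have d1 := (M.der x).inner ℂ (M.der y)
    have e : (fun t : ℝ => inner ℂ (v a b c t x) (v a b c t y)) = fun _ => inner ℂ x y := by
      funext t
      exact M.inn t x y
    rw [e] at d1
    have h0 := d1.unique (hasDerivAt_const _ _)
    rw [lo_zero M.inn M.add, lo_zero M.inn M.add, inner_smul_right, inner_smul_left,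
      Complex.conj_I] at h0
    have h1 : Complex.I * (inner ℂ x (k a b c y) - inner ℂ (k a b c x) y) = 0 := by
      rw [← h0]
      ring
    rcases mul_eq_zero.1 h1 with h2 | h2
    · exact absurd h2 Complex.I_ne_zero
    · exact (sub_eq_zero.1 h2).symm
  have hX : Adj (φ f) (φ' (bar f)) := fun x y => ha1 f x y hf.1
  have hP : Adj (B g) (B' (bar g)) := fun x y => ha2 g x y hg.1
  refine lo_comm M.inn M.add M.der hks hX hP
    (fun u => h.bdf a b c φ f u ha hb hab hc hφ hf) (fun t u => ?_) u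
  have m1 := M.inv t _ (h.fld _ φ f hφ hf)
  have m2 : (fun x => v a b c t (φ f (v a b c (-t) x))) ∈ alg (Wdg a b 0) :=
    h.mono _ _ (lo_reg ha hb hab hc) m1
  exact h.loc a b ha hb hab _ m2 _ (h.fld _ B g hB hg) u

/-- the null generators, normalized null vectors, `y = 0` -/
lemma lo_right (h : MNet Q A alg v j k)
    (hG : ∀ a b c x, IsNull a → IsNull b → GF.mdot a b = 1 → 0 < c →
      k a b c x = k a b 0 x + ((2 * Real.pi * c : ℝ) : ℂ) • G a x)
    {a b : V} (ha : IsNull a) (hb : IsNull b) (hab : GF.mdot a b = 1) {φ B : GF.Fld D}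
    (hφ : Q.fld φ) (hB : Q.fld B) {f g : Fn} (hf : In (Wdg a b 0) f) (hg : In (Wdg b a 0) g)
    (u : D) : G a (φ f (B g u)) - φ f (G a (B g u)) = B g (G a (φ f u) - φ f (G a u)) := by
  obtain ⟨c, hc, hfc⟩ := lo_cpt hf
  have hf0 : In (Rg a b 0) f := by rw [lo_zero_reg]; exact hf
  have k1 := lo_k h ha hb hab hc.le hφ hB hfc hg u
  have k0 := lo_k h ha hb hab le_rfl hφ hB hf0 hg u
  obtain ⟨φ', hφ', ha1⟩ := Q.adj φ hφ
  obtain ⟨B', hB', ha2⟩ := Q.adj B hB
  have hX : Adj (φ f) (φ' (bar f)) := fun x y => ha1 f x y hf.1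
  have hP : Adj (B g) (B' (bar g)) := fun x y => ha2 g x y hg.1
  have hc2 : ((2 * Real.pi * c : ℝ) : ℂ) ≠ 0 := by
    rw [Complex.ofReal_ne_zero]
    positivity
  simp only [hG a b c _ ha hb hab hc, hX.add, hX.smul] at k1
  have e : ((2 * Real.pi * c : ℝ) : ℂ) • (G a (φ f (B g u)) - φ f (G a (B g u))) =
      ((2 * Real.pi * c : ℝ) : ℂ) • B g (G a (φ f u) - φ f (G a u)) := by
    have s1 : ∀ (x y x' y' : D) (r : ℂ), x + r • y - (x' + r • y') = (x - x') + r • (y - y') := by
      intro x y x' y' r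
      rw [smul_sub]
      abel
    rw [s1, s1, k0, hP.add, hP.smul, add_left_cancel_iff] at k1
    exact k1
  exact smul_right_injective _ hc2 e

/-- both orientations -/
lemma lo_both (h : MNet Q A alg v j k)
    (hG : ∀ a b c x, IsNull a → IsNull b → GF.mdot a b = 1 → 0 < c →
      k a b c x = k a b 0 x + ((2 * Real.pi * c : ℝ) : ℂ) • G a x)
    {a b : V} (ha : IsNull a) (hb : IsNull b) (hab : GF.mdot a b = 1) {φ B : GF.Fld D}
    (hφ : Q.fld φ) (hB : Q.fld B) {f g : Fn}
    (hs : (In (Wdg a b 0) f ∧ In (Wdg b a 0) g) ∨ (In (Wdg b a 0) f ∧ In (Wdg a b 0) g))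
    (u : D) : G a (φ f (B g u)) - φ f (G a (B g u)) = B g (G a (φ f u) - φ f (G a u)) := by
  rcases hs with ⟨hf, hg⟩ | ⟨hf, hg⟩
  · exact lo_right h hG ha hb hab hφ hB hf hg u
  · have k1 := lo_right h hG ha hb hab hB hφ hg hf u
    have hc : ∀ x, B g (φ f x) = φ f (B g x) := fun x =>
      h.loc a b ha hb hab _ (h.fld _ B g hB hg) _ (h.fld _ φ f hφ hf) x
    obtain ⟨φ', hφ', ha1⟩ := Q.adj φ hφ
    obtain ⟨B', hB', ha2⟩ := Q.adj B hB
    have hX : Adj (φ f) (φ' (bar f)) := fun x y => ha1 f x y hf.1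
    have hP : Adj (B g) (B' (bar g)) := fun x y => ha2 g x y hg.1
    have p1 : ∀ x y, φ f (x - y) = φ f x - φ f y := fun x y => by
      rw [sub_eq_add_neg, ← neg_one_smul ℂ y, hX.add, hX.smul, neg_one_smul, ← sub_eq_add_neg]
    have p2 : ∀ x y, B g (x - y) = B g x - B g y := fun x y => by
      rw [sub_eq_add_neg, ← neg_one_smul ℂ y, hP.add, hP.smul, neg_one_smul, ← sub_eq_add_neg]
    rw [p1, hc, ← hc (G a u)] at k1
    rw [p2]
    have k2 := sub_eq_zero.2 k1
    rw [← sub_eq_zero, ← k2]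
    abel

/-- **[LO]** The commutators of the null generators with a field on which the similitudes act
locally are local with respect to null hyperplanes. -/
theorem locG (h : MNet Q A alg v j k) (hk : NF.KS Q A G)
    (hG : ∀ a b c x, IsNull a → IsNull b → GF.mdot a b = 1 → 0 < c →
      k a b c x = k a b 0 x + ((2 * Real.pi * c : ℝ) : ℂ) • G a x)
    {φ : GF.Fld D} (hφ : Q.fld φ) (hL : LocA Q A φ) : NG.LocG Q G φ := by
  intro B a c y f g u hB ha hc hac hy hs
  -- normalization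
  set r : ℝ := (GF.mdot a c)⁻¹ with hr
  have hr0 : 0 < r := inv_pos.2 hac
  set b : V := r • c with hb'
  have hb : IsNull b := lo_null_smul hr0 hc
  have hab : GF.mdot a b = 1 := by
    rw [hb', md_smul, hr]
    exact inv_mul_cancel₀ hac.ne'
  have hW1 : Wdg a b y = Wdg a c y := lo_wdg_r hr0
  have hW2 : Wdg b a y = Wdg c a y := lo_wdg_l hr0
  rw [← hW1, ← hW2] at hs
  have hf : GF.IsTest f := by rcases hs with hs | hs; exacts [hs.1.1, hs.1.1]
  have hfc : HasCompactSupport f := by rcases hs with hs | hs; exacts [hs.1.2.1, hs.1.2.1]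
  have hg : GF.IsTest g := by rcases hs with hs | hs; exacts [hs.2.1, hs.2.1]
  -- translation
  obtain ⟨w, rfl⟩ : ∃ w, u = Q.U 1 GF.one y w := ⟨Q.U 1 GF.one (-y) u, (H834.nl_UU y u).symm⟩
  set f1 : Fn := fun z => f (sim 1 GF.one y z) with hf1
  set g1 : Fn := fun z => g (sim 1 GF.one y z) with hg1
  have hs1 : (In (Wdg a b 0) f1 ∧ In (Wdg b a 0) g1) ∨ (In (Wdg b a 0) f1 ∧ In (Wdg a b 0) g1) := by
    have e : ∀ {a b z : V}, z + y ∈ Wdg a b y → z ∈ Wdg a b 0 := fun {a b z} hz => by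
      have := ND.wdg_tr hz
      rwa [sub_self] at this
    rcases hs with ⟨h1, h2⟩ | ⟨h1, h2⟩
    · exact Or.inl ⟨ND.in_tr y h1 fun z => e, ND.in_tr y h2 fun z => e⟩
    · exact Or.inr ⟨ND.in_tr y h1 fun z => e, ND.in_tr y h2 fun z => e⟩
  have hf1t : GF.IsTest f1 := by rcases hs1 with hs | hs; exacts [hs.1.1, hs.1.1]
  have hf1c : HasCompactSupport f1 := by rcases hs1 with hs | hs; exacts [hs.1.2.1, hs.1.2.1]
  have hg1t : GF.IsTest g1 := by rcases hs1 with hs | hs; exacts [hs.2.1, hs.2.1]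
  have hg1c : HasCompactSupport g1 := by rcases hs1 with hs | hs; exacts [hs.2.2.1, hs.2.2.1]
  have hsep : ∀ x ∈ tsupport f1, ∀ z ∈ tsupport g1, GF.mdot (x - z) (x - z) < 0 := by
    intro x hx z hz
    rcases hs1 with ⟨h1, h2⟩ | ⟨h1, h2⟩
    · exact wdg_opp ha hb (h1.2.2 hx) (h2.2.2 hz)
    · exact wdg_opp hb ha (h1.2.2 hx) (h2.2.2 hz)
  obtain ⟨φ', hφ', ha1⟩ := Q.adj φ hφ
  obtain ⟨B', hB', ha2⟩ := Q.adj B hB
  have hX : Adj (φ f1) (φ' (bar f1)) := fun x y => ha1 f1 x y hf1t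
  have hP : Adj (B g1) (B' (bar g1)) := fun x y => ha2 g1 x y hg1t
  have eφ : ∀ w : D, φ f (Q.U 1 GF.one y w) = Q.U 1 GF.one y (φ f1 w) :=
    fun w => Q.transl φ y f w hφ hf
  have eB : ∀ w : D, B g (Q.U 1 GF.one y w) = Q.U 1 GF.one y (B g1 w) :=
    fun w => Q.transl B y g w hB hg
  have hay : GF.mdot a (-y) = 0 := by
    rw [← neg_one_smul ℝ y, md_smul, hy, mul_zero]
  have eG : ∀ w : D, G a (Q.U 1 GF.one y w) =
      Q.U 1 GF.one y (G a w + A (XX a (-y)) w) := by
    intro w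
    have k1 := hk.tra a (-y) w ha hay
    rw [neg_neg] at k1
    rw [← k1, H834.nl_UU]
  have hU : ∀ u w : D, Q.U 1 GF.one y (u - w) = Q.U 1 GF.one y u - Q.U 1 GF.one y w :=
    fun u w => H834.nl_sub y u w
  have kG := lo_both h hG ha hb hab hφ hB hs1 w
  have hsim := XX_sim a (-y)
  have kA : A (XX a (-y)) (φ f1 (B g1 w)) - φ f1 (A (XX a (-y)) (B g1 w)) =
      B g1 (A (XX a (-y)) (φ f1 w) - φ f1 (A (XX a (-y)) w)) :=
    hL _ _ f1 (tsupport g1) _ _ w hsim hf1t hf1c hsep
      (Al.fld B B' g1 _ _ hB hB' ha2 ⟨hg1t, hg1c, subset_rfl⟩ Al.one)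
  simp only [eB, eφ, eG, ← hU]
  congr 1
  have s1 : ∀ (x y x' y' : D), x + y - (x' + y') = (x - x') + (y - y') := by
    intro x y x' y'
    abel
  rw [hX.add, hX.add, s1, s1, hP.add, kG, kA]

theorem locG_T (h : MNet Q A alg v j k) (hk : NF.KS Q A G)
    (hG : ∀ a b c x, IsNull a → IsNull b → GF.mdot a b = 1 → 0 < c →
      k a b c x = k a b 0 x + ((2 * Real.pi * c : ℝ) : ℂ) • G a x)
    {T : Ix → Ix → GF.Fld D} (hT : Q.IsStress T) (m n : Ix) : NG.LocG Q G (T m n) :=
  locG h hk hG (Q.bose_fld _ (hT.bose m n)) (NF.locA_T hT h.toRep m n)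

theorem locG_J (h : MNet Q A alg v j k) (hk : NF.KS Q A G)
    (hG : ∀ a b c x, IsNull a → IsNull b → GF.mdot a b = 1 → 0 < c →
      k a b c x = k a b 0 x + ((2 * Real.pi * c : ℝ) : ℂ) • G a x)
    {T : Ix → Ix → GF.Fld D} {J : Ix → GF.Fld D} (hJ : IsVirial Q T J) (m : Ix) :
    NG.LocG Q G (J m) :=
  locG h hk hG (Q.bose_fld _ (hJ.bose m)) (NF.locA_J hJ h.toRep m)

/-- **the last link**: null generators from `KS` and linearity in `c` -/
theorem nullGen_of {T : Ix → Ix → GF.Fld D} {J : Ix → GF.Fld D} (hT : Q.IsStress T)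
    (hJ : IsVirial Q T J) (h : MNet Q A alg v j k) (hk : NF.KS Q A G)
    (hG : ∀ a b c x, IsNull a → IsNull b → GF.mdot a b = 1 → 0 < c →
      k a b c x = k a b 0 x + ((2 * Real.pi * c : ℝ) : ℂ) • G a x) : NG.NullGen Q T J A G where
  toKS := hk
  locT m n := locG_T h hk hG hT m n
  locJ m := locG_J h hk hG hJ m

end

end Vale.Agent.P352.HM

end
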