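import Vale.Agent.P352.HM.Lit

/-!
P352 HM, block P (helper218): the function of a half-sided modular inclusion is a trigonometric
polynomial.
-/

noncomputable section

open MeasureTheory Filter Topology

namespace Vale.Agent.P352.HM

namespace HP

variable {D : Type*} [NormedAddCommGroup D] [InnerProductSpace ℂ D]

/-- one-parameter groups of isometries, with generator `i k` -/
structure Gp (v : ℝ → D → D) (k : D → D) : Prop where
  inn : ∀ t x y, inner ℂ (v t x) (v t y) = inner ℂ x y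
  add : ∀ s t x, v (s + t) x = v s (v t x)
  der : ∀ x, HasDerivAt (fun t : ℝ => v t x) (Complex.I • k x) 0

theorem gp_of {Q : GF.Theory D} {N : Set (D → D)} {v : ℝ → D → D} {j k : D → D}
    (h : Modl Q N v j k) : Gp v k := ⟨h.inn, h.add, h.der⟩

namespace Gp

variable {v : ℝ → D → D} {k : D → D}

theorem norm (h : Gp v k) (t : ℝ) (x : D) : ‖v t x‖ = ‖x‖ := by
  rw [@norm_eq_sqrt_re_inner ℂ, @norm_eq_sqrt_re_inner ℂ, h.inn]

theorem norm_sub (h : Gp v k) (t : ℝ) (x y : D) : ‖v t x - v t y‖ = ‖x - y‖ := by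
  have h1 : ‖v t x - v t y‖ ^ 2 = ‖x - y‖ ^ 2 := by
    rw [@norm_sub_sq ℂ, @norm_sub_sq ℂ, h.norm, h.norm, h.inn]
  exact (pow_left_inj₀ (norm_nonneg _) (norm_nonneg _) two_ne_zero).mp h1

theorem zero (h : Gp v k) (x : D) : v 0 x = x := by
  have h1 : v 0 (v 0 x) = v 0 x := by rw [← h.add, add_zero]
  have h2 := h.norm_sub 0 (v 0 x) x
  rw [h1, sub_self, norm_zero] at h2
  exact (sub_eq_zero.mp (norm_eq_zero.mp h2.symm))

theorem hasDeriv (h : Gp v k) (x : D) (t : ℝ) :
    HasDerivAt (fun t : ℝ => v t x) (Complex.I • k (v t x)) t := by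
  have h1 : HasDerivAt (fun s : ℝ => v s (v t x)) (Complex.I • k (v t x)) (t - t) := by
    rw [sub_self]; exact h.der (v t x)
  have h2 := h1.comp_sub_const t t
  refine h2.congr_of_eventuallyEq (Eventually.of_forall fun s => ?_)
  change v s x = v (s - t) (v t x)
  rw [← h.add, sub_add_cancel]

theorem cont (h : Gp v k) (x : D) : Continuous fun t : ℝ => v t x :=
  continuous_iff_continuousAt.mpr fun t => (h.hasDeriv x t).continuousAt

theorem cont' (h : Gp v k) (t : ℝ) : Continuous (v t) := by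
  have : Isometry (v t) := Isometry.of_dist_eq fun x y => by
    rw [dist_eq_norm, dist_eq_norm, h.norm_sub]
  exact this.continuous

theorem norm_k (h : Gp v k) (t : ℝ) (x : D) : ‖k (v t x)‖ = ‖k x‖ := by
  have h1 := (hasDerivAt_iff_tendsto_slope.mp (h.der (v t x))).norm
  have h2 := (hasDerivAt_iff_tendsto_slope.mp (h.der x)).norm
  have h3 : (fun s : ℝ => ‖slope (fun t : ℝ => v t x) 0 s‖) =
      fun s : ℝ => ‖slope (fun s : ℝ => v s (v t x)) 0 s‖ := by
    funext s
    rw [slope_def_module, slope_def_module, norm_smul, norm_smul]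
    congr 1
    rw [h.zero, h.zero, ← h.add, add_comm s t, h.add, h.norm_sub]
  have h2' : Tendsto (fun s : ℝ => ‖slope (fun s : ℝ => v s (v t x)) 0 s‖) (𝓝[≠] 0)
      (𝓝 ‖Complex.I • k x‖) := by
    rw [← h3]; exact h2
  have h4 := tendsto_nhds_unique h1 h2'
  rwa [norm_smul, norm_smul, Complex.norm_I, one_mul, one_mul] at h4

theorem sub_le (h : Gp v k) (s : ℝ) (x : D) : ‖v s x - x‖ ≤ ‖k x‖ * |s| := by
  have h1 := Convex.norm_image_sub_le_of_norm_hasDerivWithin_le (f := fun t : ℝ => v t x)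
    (f' := fun t => Complex.I • k (v t x)) (C := ‖k x‖) (s := Set.univ) (x := (0 : ℝ)) (y := s)
    (fun t _ => (h.hasDeriv x t).hasDerivWithinAt)
    (fun t _ => by rw [norm_smul, Complex.norm_I, one_mul, h.norm_k]) convex_univ
    (Set.mem_univ _) (Set.mem_univ _)
  rwa [h.zero, sub_zero, Real.norm_eq_abs] at h1

theorem symm (h : Gp v k) (x y : D) : inner ℂ (k x) y = inner ℂ x (k y) := by
  have h1 := (h.der x).inner ℂ (h.der y)
  have h2 : (fun t : ℝ => inner ℂ (v t x) (v t y)) = fun _ => inner ℂ x y := by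
    funext t; exact h.inn t x y
  rw [h2] at h1
  have h3 := h1.unique (hasDerivAt_const (0 : ℝ) (inner ℂ x y))
  rw [h.zero, h.zero, inner_smul_left, inner_smul_right, Complex.conj_I] at h3
  have h4 : Complex.I * (inner ℂ x (k y) - inner ℂ (k x) y) = 0 := by linear_combination h3
  rcases mul_eq_zero.mp h4 with h5 | h5
  · exact absurd h5 Complex.I_ne_zero
  · exact (sub_eq_zero.mp h5).symm

theorem adj (h : Gp v k) (t : ℝ) (x y : D) : inner ℂ (v (-t) x) y = inner ℂ x (v t y) := by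
  rw [← h.inn t (v (-t) x) y, ← h.add, add_neg_cancel, h.zero]

theorem add_neg (h : Gp v k) (t : ℝ) (x : D) : v t (v (-t) x) = x := by
  rw [← h.add, add_neg_cancel, h.zero]

theorem neg_add (h : Gp v k) (t : ℝ) (x : D) : v (-t) (v t x) = x := by
  rw [← h.add, neg_add_cancel, h.zero]

/-- the difference quotient -/
theorem quot (h : Gp v k) (w : ℝ) (y : D) :
    Tendsto (fun s : ℝ => ((s⁻¹ : ℝ) : ℂ) • (y - v (w * s) y)) (𝓝[>] 0)
      (𝓝 (-((w : ℂ) * Complex.I) • k y)) := by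
  have h1 : HasDerivAt (fun s : ℝ => v (w * s) y) (w • (Complex.I • k y)) 0 := by
    have h2 : HasDerivAt (fun s : ℝ => w * s) w 0 := by
      simpa using (hasDerivAt_id (0 : ℝ)).const_mul w
    have h3 : HasDerivAt (fun t : ℝ => v t y) (Complex.I • k y) (w * 0) := by
      rw [mul_zero]; exact h.der y
    exact HasDerivAt.scomp (0 : ℝ) h3 h2
  have h4 := (hasDerivAt_iff_tendsto_slope.mp h1).neg
  have h5 : 𝓝[>] (0 : ℝ) ≤ 𝓝[≠] 0 := nhdsWithin_mono 0 fun s hs => ne_of_gt hs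
  have h6 := h4.mono_left h5
  have e1 : -(w • (Complex.I • k y)) = -((w : ℂ) * Complex.I) • k y := by
    rw [neg_smul, mul_smul, Complex.coe_smul]
  rw [e1] at h6
  refine h6.congr fun s => ?_
  rw [slope_def_module, mul_zero, h.zero, sub_zero, Complex.coe_smul, ← smul_neg, neg_sub]

end Gp

/-! ### integrals -/

theorem gg_swap (m : ℝ) (z : ℂ) (p : ℝ × ℝ) : gg m z p.swap = gg m z p := by
  unfold gg
  rw [Prod.fst_swap, Prod.snd_swap]
  ring

theorem dg_swap (m : ℝ) (k : ℝ × ℝ → ℂ) (z : ℂ) : dg m (fun p => k p.swap) z = dg m k z := by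
  unfold dg
  have h := integral_prod_swap (μ := (volume : Measure ℝ)) (ν := (volume : Measure ℝ))
    (fun p => gg m z p * k p)
  rw [← Measure.volume_eq_prod] at h
  rw [← h]
  refine integral_congr_ae (Eventually.of_forall fun p => ?_)
  change gg m z p * k p.swap = gg m z p.swap * k p.swap
  rw [gg_swap]

theorem dg_transl (m : ℝ) (k : ℝ × ℝ → ℂ) (hk : ∀ (c : ℝ) (p : ℝ × ℝ), k (p + (c, c)) = k p)
    (t : ℝ) : dg m k t = dg m k 0 := by
  unfold dg
  rw [← integral_add_right_eq_self (fun p => gg m 0 p * k p) ((t, t) : ℝ × ℝ)]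
  refine integral_congr_ae (Eventually.of_forall fun p => ?_)
  change gg m t p * k p = gg m 0 (p + (t, t)) * k (p + (t, t))
  rw [hk]
  congr 1
  unfold gg
  rw [Prod.fst_add, Prod.snd_add]
  push_cast
  rw [add_zero, add_zero]

/-- the identity theorem on the real line -/
theorem ent_eq {f g : ℂ → ℂ} (hf : Differentiable ℂ f) (hg : Differentiable ℂ g)
    (h : ∀ t : ℝ, f t = g t) (z : ℂ) : f z = g z := by
  have hf' : AnalyticOnNhd ℂ f Set.univ := hf.differentiableOn.analyticOnNhd isOpen_univ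
  have hg' : AnalyticOnNhd ℂ g Set.univ := hg.differentiableOn.analyticOnNhd isOpen_univ
  have hfr : ∃ᶠ z in 𝓝[≠] (0 : ℂ), f z = g z := by
    have h1 : Tendsto (fun n : ℕ => (((1 / ((n : ℝ) + 1) : ℝ)) : ℂ)) atTop (𝓝[≠] (0 : ℂ)) := by
      rw [tendsto_nhdsWithin_iff]
      refine ⟨?_, Eventually.of_forall fun n => ?_⟩
      · have h2 := (Complex.continuous_ofReal.tendsto 0).comp
          tendsto_one_div_add_atTop_nhds_zero_nat
        rwa [Complex.ofReal_zero] at h2
      · rw [Set.mem_compl_iff, Set.mem_singleton_iff, Complex.ofReal_eq_zero]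
        positivity
    exact h1.frequently (Frequently.of_forall fun n => h _)
  exact hf'.eqOn_of_preconnected_of_frequently_eq hg' isPreconnected_univ (Set.mem_univ 0) hfr
    (Set.mem_univ z)

/-! ### the data -/

/-- two groups of isometries and a growth condition -/
structure Dat (v u : ℝ → D → D) (k k' : D → D) : Prop where
  gv : Gp v k
  gu : Gp u k'
  grow : ∀ x, ∃ C r : ℝ, ∀ t, ‖k' (v t x)‖ ≤ C * Real.exp (r * |t|)

namespace Dat

variable {v u : ℝ → D → D} {k k' : D → D}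

theorem grow' (h : Dat v u k k') (x : D) :
    ∃ C r : ℝ, 0 ≤ C ∧ 0 ≤ r ∧ ∀ t, ‖k' (v t x)‖ ≤ C * Real.exp (r * |t|) := by
  obtain ⟨C, r, hC⟩ := h.grow x
  refine ⟨|C|, |r|, abs_nonneg _, abs_nonneg _, fun t => (hC t).trans ?_⟩
  refine mul_le_mul (le_abs_self C) ?_ (Real.exp_pos _).le (abs_nonneg _)
  exact Real.exp_le_exp.mpr (mul_le_mul_of_nonneg_right (le_abs_self r) (abs_nonneg _))

theorem grwP (h : Dat v u k k') (x : D) :
    ∃ r, 0 ≤ r ∧ Grw (fun p : ℝ × ℝ => inner ℂ (v p.1 x) (k' (v p.2 x))) r := by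
  obtain ⟨C, r, hC, hr, hb⟩ := h.grow' x
  refine ⟨r, hr, ?_, ‖x‖ * C, fun p => ?_⟩
  · rw [continuous_iff_continuousAt]
    intro p0
    have e : (fun p : ℝ × ℝ => inner ℂ (v p.1 x) (k' (v p.2 x))) = fun p : ℝ × ℝ =>
        inner ℂ (v p.1 x - v p0.1 x) (k' (v p.2 x)) + inner ℂ (k' (v p0.1 x)) (v p.2 x) := by
      funext p
      rw [inner_sub_left, h.gu.symm, sub_add_cancel]
    rw [e]
    have hc1 : Continuous fun p : ℝ × ℝ => v p.1 x := (h.gv.cont x).comp continuous_fst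
    have hc2 : Continuous fun p : ℝ × ℝ => v p.2 x := (h.gv.cont x).comp continuous_snd
    refine ContinuousAt.add ?_ (continuous_const.inner hc2).continuousAt
    rw [ContinuousAt, sub_self, inner_zero_left]
    have hb1 : Continuous fun p : ℝ × ℝ => ‖v p.1 x - v p0.1 x‖ * (C * Real.exp (r * |p.2|)) :=
      (hc1.sub continuous_const).norm.mul (continuous_const.mul (Real.continuous_exp.comp
        (continuous_const.mul (continuous_abs.comp continuous_snd))))
    have hb2 := hb1.tendsto p0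
    rw [sub_self, norm_zero, zero_mul] at hb2
    refine squeeze_zero_norm (fun p => ?_) hb2
    exact (norm_inner_le_norm _ _).trans (mul_le_mul_of_nonneg_left (hb p.2) (norm_nonneg _))
  · refine (norm_inner_le_norm _ _).trans ?_
    rw [h.gv.norm, mul_assoc]
    refine mul_le_mul_of_nonneg_left ((hb p.2).trans ?_) (norm_nonneg _)
    refine mul_le_mul_of_nonneg_left (Real.exp_le_exp.mpr ?_) hC
    nlinarith [mul_nonneg hr (abs_nonneg p.1)]

theorem grwE (h : Dat v u k k') (x : D) (s : ℝ) :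
    Grw (fun p : ℝ × ℝ => inner ℂ (v p.1 x) (u s (v p.2 x))) 0 := by
  have hc1 : Continuous fun p : ℝ × ℝ => v p.1 x := (h.gv.cont x).comp continuous_fst
  have hc2 : Continuous fun p : ℝ × ℝ => v p.2 x := (h.gv.cont x).comp continuous_snd
  refine ⟨hc1.inner ((h.gu.cont' s).comp hc2), ‖x‖ * ‖x‖, fun p => ?_⟩
  rw [zero_mul, Real.exp_zero, mul_one]
  refine (norm_inner_le_norm _ _).trans ?_
  rw [h.gv.norm, h.gu.norm, h.gv.norm]

theorem grw0 (h : Dat v u k k') (x : D) :
    Grw (fun p : ℝ × ℝ => inner ℂ (v p.1 x) (v p.2 x)) 0 := by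
  have h1 := h.grwE x 0
  simpa only [h.gu.zero] using h1

/-- differentiation under the integral -/
theorem lim (hA1 : A1Stmt) (h : Dat v u k k') {m : ℝ} (hm : 0 < m) (x : D) (w : ℝ) (z : ℂ) :
    Tendsto (fun s : ℝ => ((s⁻¹ : ℝ) : ℂ) * (dg m (fun p => inner ℂ (v p.1 x) (v p.2 x)) z -
        dg m (fun p => inner ℂ (v p.1 x) (u (w * s) (v p.2 x))) z)) (𝓝[>] 0)
      (𝓝 (-((w : ℂ) * Complex.I) * dg m (fun p => inner ℂ (v p.1 x) (k' (v p.2 x))) z)) := by
  obtain ⟨C, r, hC, hr, hb⟩ := h.grow' x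
  have e1 : ∀ s : ℝ, ((s⁻¹ : ℝ) : ℂ) * (dg m (fun p => inner ℂ (v p.1 x) (v p.2 x)) z -
      dg m (fun p => inner ℂ (v p.1 x) (u (w * s) (v p.2 x))) z) =
      ∫ p : ℝ × ℝ, gg m z p *
        inner ℂ (v p.1 x) (((s⁻¹ : ℝ) : ℂ) • (v p.2 x - u (w * s) (v p.2 x))) := by
    intro s
    unfold dg
    rw [← integral_sub ((hA1 m _ 0 hm (h.grw0 x)).1 z) ((hA1 m _ 0 hm (h.grwE x (w * s))).1 z),
      ← integral_const_mul]
    refine integral_congr_ae (Eventually.of_forall fun p => ?_)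
    simp only [inner_smul_right, inner_sub_right]
    ring
  have e2 : -((w : ℂ) * Complex.I) * dg m (fun p => inner ℂ (v p.1 x) (k' (v p.2 x))) z =
      ∫ p : ℝ × ℝ, gg m z p * inner ℂ (v p.1 x) (-((w : ℂ) * Complex.I) • k' (v p.2 x)) := by
    unfold dg
    rw [← integral_const_mul]
    refine integral_congr_ae (Eventually.of_forall fun p => ?_)
    simp only [inner_smul_right]
    ring
  simp only [e1]
  rw [e2]
  have hgrw : Grw (fun p : ℝ × ℝ => ((‖x‖ * |w| * C * Real.exp (r * (|p.1| + |p.2|)) : ℝ) : ℂ))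
      r := by
    refine ⟨by fun_prop, ‖x‖ * |w| * C, fun p => ?_⟩
    rw [Complex.norm_real, Real.norm_of_nonneg (by positivity)]
  have hint := ((hA1 m _ r hm hgrw).1 z).norm
  refine tendsto_integral_filter_of_dominated_convergence _ ?_ ?_ hint ?_
  · filter_upwards with s
    have hc1 : Continuous fun p : ℝ × ℝ => v p.1 x := (h.gv.cont x).comp continuous_fst
    have hc2 : Continuous fun p : ℝ × ℝ => v p.2 x := (h.gv.cont x).comp continuous_snd
    have hc3 : Continuous fun p : ℝ × ℝ => gg m z p := by unfold gg; fun_prop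
    have hc4 : Continuous fun p : ℝ × ℝ => u (w * s) (v p.2 x) := (h.gu.cont' _).comp hc2
    exact (hc3.mul (hc1.inner ((hc2.sub hc4).const_smul _))).aestronglyMeasurable
  · filter_upwards [self_mem_nhdsWithin] with s hs
    refine Eventually.of_forall fun p => ?_
    have hs' : 0 < s := hs
    rw [norm_mul, norm_mul]
    refine mul_le_mul_of_nonneg_left ?_ (norm_nonneg _)
    rw [Complex.norm_real, Real.norm_of_nonneg (by positivity :
      0 ≤ ‖x‖ * |w| * C * Real.exp (r * (|p.1| + |p.2|)))]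
    refine (norm_inner_le_norm _ _).trans ?_
    rw [h.gv.norm, norm_smul, Complex.norm_real, Real.norm_of_nonneg (inv_nonneg.mpr hs'.le)]
    have h1 : ‖v p.2 x - u (w * s) (v p.2 x)‖ ≤ ‖k' (v p.2 x)‖ * (|w| * s) := by
      have := h.gu.sub_le (w * s) (v p.2 x)
      rwa [abs_mul, abs_of_pos hs', norm_sub_rev] at this
    have h2 : s⁻¹ * ‖v p.2 x - u (w * s) (v p.2 x)‖ ≤ |w| * ‖k' (v p.2 x)‖ := by
      calc _ ≤ s⁻¹ * (‖k' (v p.2 x)‖ * (|w| * s)) :=
            mul_le_mul_of_nonneg_left h1 (inv_nonneg.mpr hs'.le)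
        _ = |w| * ‖k' (v p.2 x)‖ := by field_simp
    have h3 : ‖k' (v p.2 x)‖ ≤ C * Real.exp (r * (|p.1| + |p.2|)) := by
      refine (hb p.2).trans (mul_le_mul_of_nonneg_left (Real.exp_le_exp.mpr ?_) hC)
      nlinarith [mul_nonneg hr (abs_nonneg p.1)]
    calc ‖x‖ * (s⁻¹ * ‖v p.2 x - u (w * s) (v p.2 x)‖)
        ≤ ‖x‖ * (|w| * (C * Real.exp (r * (|p.1| + |p.2|)))) :=
          mul_le_mul_of_nonneg_left (h2.trans (mul_le_mul_of_nonneg_left h3 (abs_nonneg _)))
            (norm_nonneg _)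
      _ = _ := by ring
  · refine Eventually.of_forall fun p => ?_
    exact (tendsto_const_nhds.inner (h.gu.quot w (v p.2 x))).const_mul _

theorem D0_const (hA1 : A1Stmt) (h : Dat v u k k') {m : ℝ} (hm : 0 < m) (x : D) (z : ℂ) :
    dg m (fun p => inner ℂ (v p.1 x) (v p.2 x)) z =
      dg m (fun p => inner ℂ (v p.1 x) (v p.2 x)) 0 := by
  refine ent_eq (hA1 m _ 0 hm (h.grw0 x)).2 (differentiable_const _) (fun t => ?_) z
  refine dg_transl m _ (fun c p => ?_) t
  rw [Prod.fst_add, Prod.snd_add, add_comm p.1, add_comm p.2, h.gv.add, h.gv.add, h.gv.inn]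

theorem im_P (h : Dat v u k k') (m : ℝ) (x : D) (t : ℝ) :
    (dg m (fun p => inner ℂ (v p.1 x) (k' (v p.2 x))) t).im = 0 := by
  rw [← Complex.conj_eq_iff_im]
  conv_rhs => rw [← dg_swap]
  unfold dg
  rw [← integral_conj]
  refine integral_congr_ae (Eventually.of_forall fun p => ?_)
  change (starRingEnd ℂ) (gg m t p * inner ℂ (v p.1 x) (k' (v p.2 x))) =
    gg m t p * inner ℂ (v p.swap.1 x) (k' (v p.swap.2 x))
  rw [map_mul, inner_conj_symm, h.gu.symm, Prod.fst_swap, Prod.snd_swap]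
  congr 1
  unfold gg
  simp only [map_mul, ← Complex.exp_conj, map_neg, map_pow, map_add, Complex.conj_ofReal]

end Dat

/-- block P -/
theorem pblock (hA1 : A1Stmt) (hA2 : A2Stmt) (hA5 : A5Stmt D) (hPE : PEStmt) (hE : EStmt D) :
    PStmt D := by
  intro Q N M v u j j' k k' H m hm x
  have hd : Dat v u k k' := ⟨gp_of H.small, gp_of H.big, H.grow⟩
  -- the smoothed norm
  have hnm : ∀ x : D, 0 ≤ nm m v x ∧
      ∀ z : ℂ, dg m (fun p => inner ℂ (v p.1 x) (v p.2 x)) z = (nm m v x : ℂ) := by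
    intro x
    have h1 := hA5 (fun t => v t x) (fun t => v t x) m 0 hm (hd.gv.cont x) (hd.gv.cont x)
      ⟨‖x‖, fun τ => (hd.gv.norm τ x).le⟩ ⟨‖x‖, fun τ => (hd.gv.norm τ x).le⟩
    rw [Complex.ofReal_zero] at h1
    refine ⟨h1.1, fun z => ?_⟩
    rw [hd.D0_const hA1 hm x z]
    apply Complex.ext
    · rw [Complex.ofReal_re]; rfl
    · rw [Complex.ofReal_im]; exact h1.2.1
  -- the identity and the bound of block E
  have hEs : ∀ s : ℝ, 0 ≤ s → ∀ x : D,
      (∀ t : ℝ, dg m (fun p => inner ℂ (v p.1 x) (u (-s) (v p.2 x))) ((t : ℂ) - Complex.I / 2) =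
        dg m (fun p => inner ℂ (v p.1 (j x)) (u s (v p.2 (j x)))) t) ∧
      ∀ z : ℂ, -(1 / 2) ≤ z.im → z.im ≤ 0 →
        ‖dg m (fun p => inner ℂ (v p.1 x) (u (-s) (v p.2 x))) z‖ ≤ nm m v x := by
    intro s hs x
    obtain ⟨h1, h2⟩ := hE Q N N v v j j k k (u (-s)) (u s) m hm H.small H.small
      (fun x y => hd.gu.adj s x y) (fun x => hd.gu.neg_add s x) (fun x => hd.gu.add_neg s x)
      (H.big.vac (-s)) (fun X hX => H.half s hs X hX)
    refine ⟨fun t => ?_, fun z hz hz' => ?_⟩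
    · rw [h1 x x t, ← dg_swap]
      congr 1
      funext p
      rw [hd.gu.adj, Prod.fst_swap, Prod.snd_swap, H.small.jv, H.small.jv]
    · have h3 := h2 x x z hz hz'
      rw [← pow_two] at h3
      exact (pow_le_pow_iff_left₀ (norm_nonneg _) (hnm x).1 two_ne_zero).mp h3
  have hD : ∀ x : D, ∃ r, 0 ≤ r ∧ Grw (fun p : ℝ × ℝ => inner ℂ (v p.1 x) (k' (v p.2 x))) r :=
    hd.grwP
  have hent : ∀ x : D, Differentiable ℂ (dg m fun p => inner ℂ (v p.1 x) (k' (v p.2 x))) := by
    intro x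
    obtain ⟨r, hr, hg⟩ := hD x
    exact (hA1 m _ r hm hg).2
  -- the sign
  have hsign : ∀ (x : D) (z : ℂ), -(1 / 2) ≤ z.im → z.im ≤ 0 →
      (dg m (fun p => inner ℂ (v p.1 x) (k' (v p.2 x))) z).im ≤ 0 := by
    intro x z hz hz'
    have h1 := (Complex.continuous_re.tendsto _).comp (hd.lim hA1 hm x (-1) z)
    have h2 : ∀ᶠ s in 𝓝[>] (0 : ℝ), 0 ≤ (Complex.re ∘ fun s : ℝ => ((s⁻¹ : ℝ) : ℂ) *
        (dg m (fun p => inner ℂ (v p.1 x) (v p.2 x)) z -
          dg m (fun p => inner ℂ (v p.1 x) (u (-1 * s) (v p.2 x))) z)) s := by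
      filter_upwards [self_mem_nhdsWithin] with s hs
      have hs' : 0 < s := hs
      rw [Function.comp_apply, Complex.re_ofReal_mul, (hnm x).2 z, Complex.sub_re,
        Complex.ofReal_re, neg_one_mul]
      refine mul_nonneg (inv_nonneg.mpr hs'.le) (sub_nonneg.mpr ?_)
      exact (Complex.re_le_norm _).trans ((hEs s hs'.le x).2 z hz hz')
    have h3 := ge_of_tendsto h1 h2
    have h4 : (-(((-1 : ℝ) : ℂ) * Complex.I) *
        dg m (fun p => inner ℂ (v p.1 x) (k' (v p.2 x))) z).re =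
        -(dg m (fun p => inner ℂ (v p.1 x) (k' (v p.2 x))) z).im := by
      simp
    rw [h4] at h3
    linarith
  -- the reflection
  have hrefl : ∀ (x : D) (t : ℝ),
      dg m (fun p => inner ℂ (v p.1 x) (k' (v p.2 x))) ((t : ℂ) - Complex.I / 2) =
        -dg m (fun p => inner ℂ (v p.1 (j x)) (k' (v p.2 (j x)))) t := by
    intro x t
    have h1 := hd.lim hA1 hm x (-1) ((t : ℂ) - Complex.I / 2)
    have h2 := hd.lim hA1 hm (j x) 1 t
    have h0 : dg m (fun p => inner ℂ (v p.1 x) (v p.2 x)) ((t : ℂ) - Complex.I / 2) =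
        dg m (fun p => inner ℂ (v p.1 (j x)) (v p.2 (j x))) t := by
      have := (hEs 0 le_rfl x).1 t
      simpa only [neg_zero, hd.gu.zero] using this
    have h3 : (fun s : ℝ => ((s⁻¹ : ℝ) : ℂ) *
        (dg m (fun p => inner ℂ (v p.1 x) (v p.2 x)) ((t : ℂ) - Complex.I / 2) -
          dg m (fun p => inner ℂ (v p.1 x) (u (-1 * s) (v p.2 x))) ((t : ℂ) - Complex.I / 2)))
        =ᶠ[𝓝[>] (0 : ℝ)] fun s : ℝ => ((s⁻¹ : ℝ) : ℂ) *
        (dg m (fun p => inner ℂ (v p.1 (j x)) (v p.2 (j x))) t -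
          dg m (fun p => inner ℂ (v p.1 (j x)) (u (1 * s) (v p.2 (j x)))) t) := by
      filter_upwards [self_mem_nhdsWithin] with s hs
      have hs' : 0 < s := hs
      rw [h0, neg_one_mul, one_mul, (hEs s hs'.le x).1 t]
    have h4 := tendsto_nhds_unique (h1.congr' h3) h2
    have h5 : Complex.I * (dg m (fun p => inner ℂ (v p.1 x) (k' (v p.2 x)))
        ((t : ℂ) - Complex.I / 2) +
        dg m (fun p => inner ℂ (v p.1 (j x)) (k' (v p.2 (j x)))) t) = 0 := by
      push_cast at h4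
      linear_combination h4
    rcases mul_eq_zero.mp h5 with h6 | h6
    · exact absurd h6 Complex.I_ne_zero
    · exact eq_neg_of_add_eq_zero_left h6
  have hrefl' : ∀ (x : D) (z : ℂ),
      dg m (fun p => inner ℂ (v p.1 x) (k' (v p.2 x))) (z - Complex.I / 2) =
        -dg m (fun p => inner ℂ (v p.1 (j x)) (k' (v p.2 (j x)))) z := by
    intro x z
    have h1 : Differentiable ℂ fun z : ℂ =>
        dg m (fun p => inner ℂ (v p.1 x) (k' (v p.2 x))) (z - Complex.I / 2) :=
      (hent x).comp (differentiable_id.sub_const _)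
    exact ent_eq h1 (hent (j x)).neg (fun t => hrefl x t) z
  have hper : ∀ z : ℂ, dg m (fun p => inner ℂ (v p.1 x) (k' (v p.2 x))) (z - Complex.I) =
      dg m (fun p => inner ℂ (v p.1 x) (k' (v p.2 x))) z := by
    intro z
    have e : z - Complex.I = (z - Complex.I / 2) - Complex.I / 2 := by ring
    rw [e, hrefl' x, hrefl' (j x), neg_neg, H.small.jj]
  obtain ⟨r, hr, hg⟩ := hD x
  obtain ⟨C, hC⟩ := hA2 m _ r hm hr hg
  obtain ⟨c0, c1, c2, h1, h2, h3⟩ := hPE _ C (2 * r) (hent x) hper hC (hd.im_P m x) (hsign x)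
  refine ⟨c0, c1, c2, h1, h2, fun t => ⟨?_, ?_⟩⟩
  · rw [h3]
    push_cast
    ring_nf
  · have h4 := hrefl x t
    rw [h3] at h4
    have e1 : Complex.exp (2 * Real.pi * ((t : ℂ) - Complex.I / 2)) =
        -Complex.exp (2 * Real.pi * t) := by
      have : (2 * Real.pi * ((t : ℂ) - Complex.I / 2) : ℂ) =
          2 * Real.pi * t - Real.pi * Complex.I := by ring
      rw [this, Complex.exp_sub, Complex.exp_pi_mul_I, div_neg, div_one]
    have e2 : Complex.exp (-(2 * Real.pi * ((t : ℂ) - Complex.I / 2))) =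
        -Complex.exp (-(2 * Real.pi * t)) := by
      have : (-(2 * Real.pi * ((t : ℂ) - Complex.I / 2)) : ℂ) =
          -(2 * Real.pi * t) + Real.pi * Complex.I := by ring
      rw [this, Complex.exp_add, Complex.exp_pi_mul_I, mul_neg_one]
    rw [e1, e2] at h4
    push_cast
    linear_combination h4

end HP

/-- block P -/
theorem pblock {D : Type*} [NormedAddCommGroup D] [InnerProductSpace ℂ D] (hE : EStmt D)
    (hA1 : A1Stmt) (hA2 : A2Stmt) (hA5 : A5Stmt D) (hPE : PEStmt) : PStmt D :=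
  HP.pblock hA1 hA2 hA5 hPE hE

end Vale.Agent.P352.HM

end
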