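import Vale.Agent.P352.HM.Lit
import Vale.Agent.P352.H205.Ent

/-!
# P352 HM, block PE
-/

open Complex Filter Topology Asymptotics
open scoped Real

namespace Vale.Agent.P352.HM

noncomputable section

/-- three real coefficients vanish if `a0 + a1 s + a2 / s = 0` for three values of `s` -/
theorem pe_lin {a0 a1 a2 : ℝ} (h1 : a0 + a1 + a2 = 0) (h2 : a0 + a1 * 2 + a2 * (1 / 2) = 0)
    (h3 : a0 + a1 * 3 + a2 * (1 / 3) = 0) : a0 = 0 ∧ a1 = 0 ∧ a2 = 0 := by
  refine ⟨by linarith, by linarith, by linarith⟩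

/-- block PE -/
theorem pe_core (f : ℂ → ℂ) (C r : ℝ) (hf : Differentiable ℂ f)
    (hper : ∀ z, f (z - I) = f z) (hb : ∀ z : ℂ, |z.im| ≤ 1 → ‖f z‖ ≤ C * Real.exp (r * |z.re|))
    (hre : ∀ t : ℝ, (f t).im = 0) (hIm : ∀ z : ℂ, -(1 / 2) ≤ z.im → z.im ≤ 0 → (f z).im ≤ 0) :
    ∃ c0 c1 c2 : ℝ, 0 ≤ c1 ∧ c2 ≤ 0 ∧ ∀ z : ℂ, f z = c0 + c1 * exp (2 * π * z) +
      c2 * exp (-(2 * π * z)) := by
  have hperZ : ∀ (n : ℕ) z, f (z - n * I) = f z := by
    intro n
    induction n with
    | zero => intro z; simp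
    | succ n ih =>
      intro z
      have : z - ((n + 1 : ℕ) : ℂ) * I = (z - n * I) - I := by push_cast; ring
      rw [this, hper, ih]
  have hperZ' : ∀ (n : ℤ) z, f (z - n * I) = f z := by
    intro n z
    rcases n with n | n
    · simpa using hperZ n z
    · have h := hperZ (n + 1) (z - (Int.negSucc n : ℤ) * I)
      rw [← h]
      congr 1
      push_cast [Int.negSucc_eq]
      ring
  have hb' : ∀ z : ℂ, ‖f z‖ ≤ C * Real.exp (r * |z.re|) := by
    intro z
    rw [← hperZ' ⌊z.im⌋ z]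
    have h := hb (z - (⌊z.im⌋ : ℤ) * I) (by
      have h1 : (z - (⌊z.im⌋ : ℤ) * I).im = Int.fract z.im := by
        have h3 : Int.fract z.im = z.im - (⌊z.im⌋ : ℤ) := rfl
        rw [h3, sub_im, mul_I_im, intCast_re]
      rw [h1, abs_of_nonneg (Int.fract_nonneg _)]
      exact (Int.fract_lt_one _).le)
    have h2 : (z - (⌊z.im⌋ : ℤ) * I).re = z.re := by simp
    rwa [h2] at h
  obtain ⟨d0, d1, d2, hd⟩ := H205.Ent.three_terms (fun z => f (-z))
    (hf.comp differentiable_neg)
    (fun z => by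
      have : -(z + I) = -z - I := by ring
      rw [this, hper]) C r
    (fun z => by simpa using hb' (-z))
    (fun z h0 h1 => hIm (-z) (by simp; linarith) (by simp; linarith))
  have hF : ∀ z, f z = d0 + d2 * exp (2 * π * z) + d1 * exp (-(2 * π * z)) := by
    intro z
    have := hd (-z)
    simp only [neg_neg, mul_neg] at this
    rw [this]; ring
  -- the values at real points, in terms of `s = exp (2 π t)`
  have hs : ∀ s : ℝ, 0 < s → d0.im + d2.im * s + d1.im * (1 / s) = 0 := by
    intro s hs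
    have h := hre (Real.log s / (2 * π))
    have e1 : exp (2 * π * ((Real.log s / (2 * π) : ℝ) : ℂ)) = (s : ℂ) := by
      have : (2 : ℂ) * π * ((Real.log s / (2 * π) : ℝ) : ℂ) = ((Real.log s : ℝ) : ℂ) := by
        push_cast
        have : (π : ℂ) ≠ 0 := ofReal_ne_zero.mpr Real.pi_ne_zero
        field_simp
      rw [this, ← ofReal_exp, Real.exp_log hs]
    have e2 : exp (-(2 * π * ((Real.log s / (2 * π) : ℝ) : ℂ))) = ((1 / s : ℝ) : ℂ) := by
      rw [exp_neg, e1]; push_cast; simp
    rw [hF, e1, e2] at h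
    simpa using h
  obtain ⟨i0, i2, i1⟩ := pe_lin (by simpa using hs 1 one_pos) (hs 2 two_pos)
    (hs 3 (by norm_num))
  have r0 : d0 = (d0.re : ℂ) := Complex.ext rfl (by simp [i0])
  have r1 : d1 = (d1.re : ℂ) := Complex.ext rfl (by simp [i1])
  have r2 : d2 = (d2.re : ℂ) := Complex.ext rfl (by simp [i2])
  -- the values on the line `im z = - 1 / 4`
  have hq : ∀ s : ℝ, 0 < s → d1.re ≤ d2.re * s := by
    intro s hs
    have him : ∀ x : ℝ, ((x : ℂ) - I / 4).im = -(1 / 4) := by
      intro x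
      rw [sub_im, ofReal_im]
      have : (I / 4).im = 1 / 4 := by
        rw [show (I / 4 : ℂ) = ((1 / 4 : ℝ) : ℂ) * I by push_cast; ring, im_ofReal_mul, I_im, mul_one]
      rw [this, zero_sub]
    have h := hIm ((Real.log s / (4 * π) : ℝ) - I / 4) (by rw [him]; norm_num)
      (by rw [him]; norm_num)
    set q : ℝ := Real.exp (Real.log s / 2) with hq
    have hq0 : 0 < q := Real.exp_pos _
    have hqs : q * q = s := by
      rw [hq, ← Real.exp_add, add_halves, Real.exp_log hs]
    have e1 : exp (2 * π * (((Real.log s / (4 * π) : ℝ) : ℂ) - I / 4)) = -(q : ℂ) * I := by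
      have h1 : (2 : ℂ) * π * (((Real.log s / (4 * π) : ℝ) : ℂ) - I / 4)
          = ((Real.log s / 2 : ℝ) : ℂ) + -(π / 2 * I) := by
        push_cast
        have : (π : ℂ) ≠ 0 := ofReal_ne_zero.mpr Real.pi_ne_zero
        field_simp
        ring
      rw [h1, exp_add, ← ofReal_exp, exp_neg, Complex.exp_pi_div_two_mul_I, inv_I]
      ring
    have e2 : exp (-(2 * π * (((Real.log s / (4 * π) : ℝ) : ℂ) - I / 4))) =
        ((1 / q : ℝ) : ℂ) * I := by
      rw [exp_neg, e1, mul_inv, inv_I]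
      push_cast
      field_simp
    rw [hF, e1, e2, r0, r1, r2] at h
    simp only [add_im, ofReal_im, zero_add, ← ofReal_neg, ← mul_assoc, ← ofReal_mul,
      im_ofReal_mul, I_im, mul_one] at h
    have h2 : d1.re * (1 / q) ≤ d2.re * q := by linarith
    have h3 := mul_le_mul_of_nonneg_right h2 hq0.le
    have h4 : d1.re * (1 / q) * q = d1.re := by field_simp
    rw [h4, mul_assoc, hqs] at h3
    exact h3
  refine ⟨d0.re, d2.re, d1.re, ?_, ?_, fun z => ?_⟩
  · by_contra hcon
    push Not at hcon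
    have hp : 0 < -d2.re := by linarith
    have h := hq ((|d1.re| + 1) / (-d2.re)) (by positivity)
    have hne : d2.re ≠ 0 := hcon.ne
    have h1 : d2.re * ((|d1.re| + 1) / (-d2.re)) = -(|d1.re| + 1) := by
      rw [div_neg, mul_neg, mul_div_cancel₀ _ hne]
    rw [h1] at h
    have := neg_abs_le d1.re
    linarith
  · by_contra hcon
    push Not at hcon
    have hp : 0 < 2 * (|d2.re| + 1) := by positivity
    have h := hq (d1.re / (2 * (|d2.re| + 1))) (by positivity)
    have h1 : d2.re * (d1.re / (2 * (|d2.re| + 1))) ≤ d1.re / 2 := by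
      rw [mul_div_assoc', div_le_div_iff₀ hp two_pos]
      have := le_abs_self d2.re
      nlinarith
    linarith
  · rw [← r0, ← r1, ← r2]; exact hF z

theorem pe : PEStmt := fun f C r hf hper hb hre hIm => pe_core f C r hf hper hb hre hIm

end

end Vale.Agent.P352.HM
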