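import Vale.Agent.P352.HM.Lit
import Vale.Agent.P352.H755.R7d

/-!
# P352 HM: uniqueness of the modular Hamiltonian, conjugation of modular objects
-/

set_option linter.all false

noncomputable section

open MeasureTheory Filter Topology

namespace Vale.Agent.P352.HM

open GF (Ix V Fn Fld Theory IsLor bas eta o sim)
open H246 H496 H755 H15

variable {D : Type*} [NormedAddCommGroup D] [InnerProductSpace ℂ D] {Q : Theory D}
  {N : Set (D → D)} {v u : ℝ → D → D} {j j' k k' : D → D}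

/-- maps which preserve inner products are isometric -/
lemma ub_nsub {f : D → D} (h : ∀ x y, inner ℂ (f x) (f y) = (inner ℂ x y : ℂ)) (x y : D) :
    ‖f x - f y‖ = ‖x - y‖ := by
  have e : (inner ℂ (f x - f y) (f x - f y) : ℂ) = inner ℂ (x - y) (x - y) := by
    simp only [inner_sub_left, inner_sub_right, h]
  rw [inner_self_eq_norm_sq_to_K, inner_self_eq_norm_sq_to_K] at e
  have e2 : ‖f x - f y‖ ^ 2 = ‖x - y‖ ^ 2 := by exact_mod_cast e
  exact (pow_left_inj₀ (norm_nonneg _) (norm_nonneg _) two_ne_zero).1 e2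

lemma ub_nrm {f : D → D} (h : ∀ x y, inner ℂ (f x) (f y) = (inner ℂ x y : ℂ)) (x : D) :
    ‖f x‖ = ‖x‖ := by
  have e := h x x
  rw [inner_self_eq_norm_sq_to_K, inner_self_eq_norm_sq_to_K] at e
  have e2 : ‖f x‖ ^ 2 = ‖x‖ ^ 2 := by exact_mod_cast e
  exact (pow_left_inj₀ (norm_nonneg _) (norm_nonneg _) two_ne_zero).1 e2

lemma ub_inj {f : D → D} (h : ∀ x y, inner ℂ (f x) (f y) = (inner ℂ x y : ℂ)) {x y : D}
    (e : f x = f y) : x = y := by
  have h1 := ub_nsub h x y
  rw [e, sub_self, norm_zero] at h1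
  exact sub_eq_zero.1 (norm_eq_zero.1 h1.symm)

lemma ub_ext {x y : D} (h : ∀ z, (inner ℂ x z : ℂ) = inner ℂ y z) : x = y := by
  have h1 : (inner ℂ (x - y) (x - y) : ℂ) = 0 := by rw [inner_sub_left, h, sub_self]
  exact sub_eq_zero.1 (inner_self_eq_zero.1 h1)

/-- surjective maps which preserve inner products are additive -/
lemma ub_add {f g : D → D} (h : ∀ x y, inner ℂ (f x) (f y) = (inner ℂ x y : ℂ))
    (hs : ∀ x, f (g x) = x) (x y : D) : f (x + y) = f x + f y := by
  refine ub_ext fun z => ?_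
  rw [← hs z, inner_add_left, h, h, h, inner_add_left]

lemma ub_smul {f g : D → D} (h : ∀ x y, inner ℂ (f x) (f y) = (inner ℂ x y : ℂ))
    (hs : ∀ x, f (g x) = x) (c : ℂ) (x : D) : f (c • x) = c • f x := by
  refine ub_ext fun z => ?_
  rw [← hs z, inner_smul_left, h, h, inner_smul_left]

/-- the modular unitary at zero -/
lemma ub_v0 (h : Modl Q N v j k) (x : D) : v 0 x = x := by
  have h1 := h.add 0 0 x
  rw [add_zero] at h1
  exact (ub_inj (h.inn 0) h1).symm

lemma ub_vv (h : Modl Q N v j k) (t : ℝ) (x : D) : v t (v (-t) x) = x := by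
  rw [← h.add, add_neg_cancel, ub_v0 h]

lemma ub_vv' (h : Modl Q N v j k) (t : ℝ) (x : D) : v (-t) (v t x) = x := by
  rw [← h.add, neg_add_cancel, ub_v0 h]

lemma ub_vadd (h : Modl Q N v j k) (t : ℝ) (x y : D) : v t (x + y) = v t x + v t y :=
  ub_add (h.inn t) (ub_vv h t) x y

lemma ub_vsmul (h : Modl Q N v j k) (t : ℝ) (c : ℂ) (x : D) : v t (c • x) = c • v t x :=
  ub_smul (h.inn t) (ub_vv h t) c x

lemma ub_I {x y : D} (h : Complex.I • x = Complex.I • y) : x = y :=
  smul_right_injective D Complex.I_ne_zero h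

lemma ub_kadd (h : Modl Q N v j k) (x y : D) : k (x + y) = k x + k y := by
  have h1 := h.der (x + y)
  have h2 := (h.der x).add (h.der y)
  have e : (fun t : ℝ => v t (x + y)) = (fun t : ℝ => v t x) + fun t : ℝ => v t y := by
    funext t; exact ub_vadd h t x y
  rw [e] at h1
  apply ub_I
  rw [smul_add]
  exact h1.unique h2

lemma ub_ksmul (h : Modl Q N v j k) (c : ℂ) (x : D) : k (c • x) = c • k x := by
  have h1 := h.der (c • x)
  have h2 := (h.der x).const_smul c
  have e : (fun t : ℝ => v t (c • x)) = c • fun t : ℝ => v t x := by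
    funext t; exact ub_vsmul h t c x
  rw [e] at h1
  apply ub_I
  rw [smul_comm]
  exact h1.unique h2

lemma ub_ksymm (h : Modl Q N v j k) (x y : D) : (inner ℂ (k x) y : ℂ) = inner ℂ x (k y) := by
  have h1 := (h.der x).inner ℂ (h.der y)
  have e : (fun t : ℝ => (inner ℂ (v t x) (v t y) : ℂ)) = fun _ => inner ℂ x y := by
    funext t; exact h.inn t x y
  rw [e] at h1
  have h2 := h1.unique (hasDerivAt_const (0 : ℝ) (inner ℂ x y : ℂ))
  rw [ub_v0 h, ub_v0 h, inner_smul_left, inner_smul_right, Complex.conj_I] at h2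
  have h3 : Complex.I * ((inner ℂ x (k y) : ℂ) - inner ℂ (k x) y) = 0 := by
    linear_combination h2
  have h4 := (mul_eq_zero.1 h3).resolve_left Complex.I_ne_zero
  exact (sub_eq_zero.1 h4).symm

lemma ub_kvac (h : Modl Q N v j k) : k Q.vac = 0 := by
  have h1 := h.der Q.vac
  have e : (fun t : ℝ => v t Q.vac) = fun _ => Q.vac := by funext t; exact h.vac t
  rw [e] at h1
  have h2 := h1.unique (hasDerivAt_const (0 : ℝ) Q.vac)
  exact (smul_eq_zero.1 h2).resolve_left Complex.I_ne_zero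

/-- the derivative of the modular group at time `t` -/
lemma ub_der (h : Modl Q N v j k) (t : ℝ) (x : D) :
    HasDerivAt (fun t : ℝ => v t x) (Complex.I • k (v t x)) t := by
  have h1 := h.der (v t x)
  have h2 : HasDerivAt (fun s : ℝ => v (s - t) (v t x)) (Complex.I • k (v t x)) t := by
    have h3 : HasDerivAt (fun s : ℝ => s - t) 1 t := (hasDerivAt_id t).sub_const t
    have h4 : HasDerivAt (fun t_1 : ℝ => v t_1 (v t x)) (Complex.I • k (v t x)) (t - t) := by
      rw [sub_self]; exact h1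
    have h5 := HasDerivAt.scomp (h := fun s : ℝ => s - t) t h4 h3
    rw [one_smul] at h5
    exact h5
  have e : (fun s : ℝ => v (s - t) (v t x)) = fun s : ℝ => v s x := by
    funext s; rw [← h.add, sub_add_cancel]
  rwa [e] at h2

/-- the modular Hamiltonian commutes with the modular group -/
lemma ub_vk (h : Modl Q N v j k) (t : ℝ) (x : D) : v t (k x) = k (v t x) := by
  have h1 := h.der x
  have hl : ∀ y z, v t (y - z) = v t y - v t z := by
    intro y z
    rw [sub_eq_add_neg, ub_vadd h, ← neg_one_smul ℂ z, ub_vsmul h, neg_one_smul,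
      ← sub_eq_add_neg]
  let vL : D →L[ℂ] D := LinearMap.mkContinuous
    { toFun := v t, map_add' := ub_vadd h t, map_smul' := ub_vsmul h t } 1
    (by intro y; simp [ub_nrm (h.inn t)])
  have h2 := ((vL.restrictScalars ℝ).hasFDerivAt (x := v 0 x)).comp_hasDerivAt 0 h1
  have h3 : HasDerivAt (fun s : ℝ => v s (v t x)) (vL (Complex.I • k x)) 0 := by
    have e : (fun s : ℝ => v s (v t x)) = (vL.restrictScalars ℝ) ∘ fun t => v t x := by
      funext s
      show v s (v t x) = v t (v s x)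
      rw [← h.add, ← h.add, add_comm]
    rw [e]
    exact h2
  have h4 := h3.unique (h.der (v t x))
  have h5 : vL (Complex.I • k x) = Complex.I • v t (k x) := ub_vsmul h t _ _
  rw [h5] at h4
  exact ub_I h4

/-- **Block U.** -/
theorem ublock (hI : IStmt D) : UStmt D := by
  intro Q N v u j j' k k' h1 h2 x
  let S : D →ₗ[ℂ] D :=
    { toFun := fun x => k x - k' x
      map_add' := fun x y => by rw [ub_kadd h1, ub_kadd h2]; abel
      map_smul' := fun c x => by
        rw [ub_ksmul h1, ub_ksmul h2, RingHom.id_apply, smul_sub] }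
  have hre : ∀ x, (inner ℂ x (k x) : ℂ).re = (inner ℂ x (k' x) : ℂ).re := fun x =>
    le_antisymm (hI Q N N u v j' j k' k h2 h1 subset_rfl x)
      (hI Q N N v u j j' k k' h1 h2 subset_rfl x)
  have him : ∀ (k : D → D), (∀ x y, (inner ℂ (k x) y : ℂ) = inner ℂ x (k y)) → ∀ x,
      (inner ℂ x (k x) : ℂ).im = 0 := by
    intro k hk x
    have e := hk x x
    rw [← inner_conj_symm] at e
    have e2 := congrArg Complex.im e
    rw [Complex.conj_im] at e2
    linarith
  have hS : ∀ x, (inner ℂ (S x) x : ℂ) = 0 := by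
    intro x
    have e : (inner ℂ x (k x) : ℂ) = inner ℂ x (k' x) := Complex.ext (hre x)
      ((him k (ub_ksymm h1) x).trans (him k' (ub_ksymm h2) x).symm)
    show (inner ℂ (k x - k' x) x : ℂ) = 0
    rw [inner_sub_left, ub_ksymm h1, ub_ksymm h2, e, sub_self]
  have h3 : S = 0 := (inner_map_self_eq_zero S).1 hS
  have h4 : S x = 0 := by rw [h3]; rfl
  exact sub_eq_zero.1 h4

/-- conjugation with a unitary operator `U`, `W = U⁻¹` -/
theorem Modl.conj_gen (h : Modl Q N v j k) {U W : D → D}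
    (hin : ∀ x y, (inner ℂ (U x) (U y) : ℂ) = inner ℂ x y) (hUW : ∀ x, U (W x) = x)
    (hv : U Q.vac = Q.vac) :
    Modl Q {Y | ∃ X ∈ N, ∀ x, Y (U x) = U (X x)} (fun t x => U (v t (W x)))
      (fun x => U (j (W x))) (fun x => U (k (W x))) := by
  have hWU : ∀ x, W (U x) = x := fun x => ub_inj hin (hUW (U x))
  have hWin : ∀ x y, (inner ℂ (W x) (W y) : ℂ) = inner ℂ x y := fun x y => by
    rw [← hin, hUW, hUW]
  have hUl : ∀ x y, (inner ℂ (U x) y : ℂ) = inner ℂ x (W y) := fun x y => by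
    rw [← hin x (W y), hUW]
  have hUr : ∀ x y, (inner ℂ x (U y) : ℂ) = inner ℂ (W x) y := fun x y => by
    rw [← hin (W x) y, hUW]
  have hWv : W Q.vac = Q.vac := by
    have := hWU Q.vac
    rwa [hv] at this
  let UL : D →L[ℂ] D := LinearMap.mkContinuous
    { toFun := U, map_add' := ub_add hin hUW, map_smul' := ub_smul hin hUW } 1
    (by intro y; simp [ub_nrm hin])
  have hUc : Continuous U := UL.continuous
  refine ⟨?_, ?_, ?_, ?_, ?_, ?_, ?_, ?_, ?_, ?_, ?_⟩
  · have h1 : Dense (U '' {x | ∃ X ∈ N, X Q.vac = x}) :=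
      (Function.Surjective.denseRange fun x => ⟨W x, hUW x⟩).dense_image hUc h.cyc
    refine h1.mono ?_
    rintro _ ⟨x, ⟨X, hX, rfl⟩, rfl⟩
    refine ⟨fun x => U (X (W x)), ⟨X, hX, fun x => by
      show U (X (W (U x))) = _
      rw [hWU]⟩, by
      show U (X (W Q.vac)) = _
      rw [hWv]⟩
  · rintro Y ⟨X, hX, hY⟩
    obtain ⟨X', hX', hXX⟩ := h.adj X hX
    refine ⟨fun x => U (X' (W x)), ⟨X', hX', fun x => by
      show U (X' (W (U x))) = _
      rw [hWU]⟩, fun x y => ?_⟩
    show (inner ℂ (Y x) y : ℂ) = inner ℂ x (U (X' (W y)))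
    rw [← hUW x, hY, hUl, hXX, hUr, hWU]
  · intro t x y
    rw [hin, h.inn, hWin]
  · intro s t x
    show U (v (s + t) (W x)) = U (v s (W (U (v t (W x)))))
    rw [hWU, h.add]
  · intro t
    show U (v t (W Q.vac)) = _
    rw [hWv, h.vac, hv]
  · rintro t Y ⟨X, hX, hY⟩
    refine ⟨fun x => v t (X (v (-t) x)), h.inv t X hX, fun x => ?_⟩
    show U (v t (W (Y (U (v (-t) (W (U x))))))) = _
    rw [hWU, hY, hWU]
  · intro x
    have h1 := ((UL.restrictScalars ℝ).hasFDerivAt (x := v 0 (W x))).comp_hasDerivAt 0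
      (h.der (W x))
    have h2 : (UL.restrictScalars ℝ) (Complex.I • k (W x)) = Complex.I • U (k (W x)) :=
      ub_smul hin hUW _ _
    rw [h2] at h1
    exact h1
  · intro x y
    rw [hin, h.jinn, hWin]
  · intro x
    show U (j (W (U (j (W x))))) = x
    rw [hWU, h.jj, hUW]
  · intro t x
    show U (j (W (U (v t (W x))))) = U (v t (W (U (j (W x)))))
    rw [hWU, hWU, h.jv]
  · rintro Y ⟨X, hX, hY⟩ Y' ⟨X', hX', hY'⟩ hYY y
    have hXX : ∀ x y, (inner ℂ (X x) y : ℂ) = inner ℂ x (X' y) := by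
      intro x y
      rw [← hin, ← hY, hYY, hY', hin]
    obtain ⟨F, hF, hb, hF2⟩ := h.kms X hX X' hX' hXX (W y)
    refine ⟨F, hF, hb, fun t => ?_⟩
    obtain ⟨e1, e2⟩ := hF2 t
    have f1 : Y Q.vac = U (X Q.vac) := by
      have := hY Q.vac
      rwa [hv] at this
    have f2 : Y' Q.vac = U (X' Q.vac) := by
      have := hY' Q.vac
      rwa [hv] at this
    constructor
    · show F t = inner ℂ y (U (v t (W (Y Q.vac))))
      rw [e1, f1, hWU, hUr]
    · show F (t - Complex.I / 2) = inner ℂ y (U (v t (W (U (j (W (Y' Q.vac)))))))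
      rw [e2, f2, hWU, hWU, hUr]

/-- conjugation with a unitary operator `V`, `W = V⁻¹`, in the form of block K -/
theorem Modl.conj (h : Modl Q N v j k) {V W : D → D}
    (hV : ∀ x y, inner ℂ (V x) y = (inner ℂ x (W y) : ℂ)) (hVW : ∀ x, V (W x) = x)
    (hWV : ∀ x, W (V x) = x) (hvac : V Q.vac = Q.vac) :
    Modl Q {Y | ∃ X ∈ N, ∀ x, Y x = V (X (W x))} (fun t x => V (v t (W x)))
      (fun x => V (j (W x))) (fun x => V (k (W x))) := by
  have h1 := h.conj_gen (U := V) (W := W) (fun x y => by rw [hV, hWV]) hVW hvac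
  have e : {Y : D → D | ∃ X ∈ N, ∀ x, Y x = V (X (W x))} =
      {Y | ∃ X ∈ N, ∀ x, Y (V x) = V (X x)} := by
    ext Y
    constructor
    · rintro ⟨X, hX, hY⟩
      exact ⟨X, hX, fun x => by rw [hY, hWV]⟩
    · rintro ⟨X, hX, hY⟩
      exact ⟨X, hX, fun x => by rw [← hY, hVW]⟩
  rw [e]
  exact h1

/-- the translation part of the inverse of a similitude -/
lemma ub_sim {s : ℝ} {L : Ix → V} (hs : 0 < s) (hL : IsLor L) (y x : V) :
    sim s L y (sim s⁻¹ (linv L) (-(sim s⁻¹ (linv L) 0 y)) x) = x := by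
  have e : ∀ (s : ℝ) (L : Ix → V) (y x : V), sim s L y x = y + s • sim 1 L 0 x := by
    intro s L y x
    funext n
    simp [sim]
  rw [e s L y, e s⁻¹ (linv L) _ x, e s⁻¹ (linv L) 0 y, zero_add]
  have h1 : -(s⁻¹ • sim 1 (linv L) 0 y) + s⁻¹ • sim 1 (linv L) 0 x =
      sim 1 (linv L) 0 (s⁻¹ • (x - y)) := by
    rw [simL_smul, simL_sub, smul_sub]; abel
  rw [h1, sim_linv hL, smul_smul, mul_inv_cancel₀ hs.ne', one_smul]
  abel

lemma ub_siml {s : ℝ} {L : Ix → V} (hs : 0 < s) (hL : IsLor L) (y x : V) :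
    sim s⁻¹ (linv L) (-(sim s⁻¹ (linv L) 0 y)) (sim s L y x) = x := by
  have hinj : ∀ p q : V, sim s L y p = sim s L y q → p = q := by
    intro p q hpq
    have e : ∀ (s : ℝ) (L : Ix → V) (y x : V), sim s L y x = y + s • sim 1 L 0 x := by
      intro s L y x
      funext n
      simp [sim]
    rw [e s L y p, e s L y q] at hpq
    have h1 := smul_right_injective V hs.ne' (add_left_cancel hpq)
    funext n
    have h3 := md_L hL n p
    have h2 : sim 1 L 0 p = sim 1 L 0 q := h1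
    rw [h2, md_L hL n q] at h3
    have h4 : eta n ≠ 0 := by unfold eta; split_ifs <;> norm_num
    exact (mul_left_cancel₀ h4 h3).symm
  exact hinj _ _ (ub_sim hs hL y (sim s L y x))

/-- the inverse of a similitude operator -/
lemma ub_Uinv {A : (V → V) → D → D} (R : Rep Q A) {s : ℝ} {L : Ix → V} (hs : 0 < s)
    (hL : IsLor L) (y : V) (x : D) :
    Q.U s L y (Q.U s⁻¹ (linv L) (-(sim s⁻¹ (linv L) 0 y)) x) = x := by
  rw [R.mul s L y s⁻¹ (linv L) _ x hs (inv_pos.2 hs) hL (isLor_linv hL), linv_id hL,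
    mul_inv_cancel₀ hs.ne']
  have e : sim s L y (-(sim s⁻¹ (linv L) 0 y)) = 0 := by
    have h1 := ub_sim hs hL y 0
    have h2 : sim s⁻¹ (linv L) (-(sim s⁻¹ (linv L) 0 y)) 0 = -(sim s⁻¹ (linv L) 0 y) := by
      funext n; simp [sim]
    rwa [h2] at h1
  rw [e]
  exact Uone x

/-- conjugation with a similitude -/
theorem Modl.conj_sim {A : (V → V) → D → D} (h : Modl Q N v j k) (R : Rep Q A) {s : ℝ}
    {L : Ix → V} (hs : 0 < s) (hL : IsLor L) (y : V) :
    Modl Q {Y | ∃ X ∈ N, ∀ x, Y (Q.U s L y x) = Q.U s L y (X x)}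
      (fun t x => Q.U s L y (v t (Q.U s⁻¹ (linv L) (-(sim s⁻¹ (linv L) 0 y)) x)))
      (fun x => Q.U s L y (j (Q.U s⁻¹ (linv L) (-(sim s⁻¹ (linv L) 0 y)) x)))
      (fun x => Q.U s L y (k (Q.U s⁻¹ (linv L) (-(sim s⁻¹ (linv L) 0 y)) x))) :=
  h.conj_gen (fun x z => Q.U_inner s L y x z hs hL) (ub_Uinv R hs hL y) (Q.U_vac s L y hs hL)

section net

variable {A : (V → V) → D → D} {alg : Set V → Set (D → D)} {v : V → V → ℝ → ℝ → D → D}
  {j k : V → V → ℝ → D → D}

lemma ub_UinvL (R : Rep Q A) {s : ℝ} {L : Ix → V} (hs : 0 < s)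
    (hL : IsLor L) (y : V) (x : D) :
    Q.U s⁻¹ (linv L) (-(sim s⁻¹ (linv L) 0 y)) (Q.U s L y x) = x :=
  ub_inj (fun x z => Q.U_inner s L y x z hs hL) (ub_Uinv R hs hL y (Q.U s L y x))

/-- the conjugate of the algebra of a region is the algebra of the image of the region -/
theorem net_conj (h : MNet Q A alg v j k) {s : ℝ} {L : Ix → V} (hs : 0 < s) (hL : IsLor L)
    (y : V) (O : Set V) :
    {Y | ∃ X ∈ alg O, ∀ x, Y (Q.U s L y x) = Q.U s L y (X x)} = alg (sim s L y '' O) := by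
  ext Y
  constructor
  · rintro ⟨X, hX, hY⟩
    obtain ⟨Y', hY', e⟩ := h.cov s L y O X hX hs hL
    have : Y = Y' := by
      funext z
      rw [← ub_Uinv h.toRep hs hL y z, hY, e]
    rw [this]
    exact hY'
  · intro hY
    obtain ⟨X, hX, e⟩ := h.cov s⁻¹ (linv L) (-(sim s⁻¹ (linv L) 0 y)) (sim s L y '' O) Y hY
      (inv_pos.2 hs) (isLor_linv hL)
    have e2 : sim s⁻¹ (linv L) (-(sim s⁻¹ (linv L) 0 y)) '' (sim s L y '' O) = O := by
      rw [Set.image_image]
      simp only [ub_siml hs hL, Set.image_id']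
    rw [e2] at hX
    refine ⟨X, hX, fun x => ?_⟩
    have e3 := e (Q.U s L y x)
    rw [ub_UinvL h.toRep hs hL] at e3
    rw [e3, ub_Uinv h.toRep hs hL]

/-- covariance of the modular Hamiltonians -/
theorem net_kcov (hU : UStmt D) (h : MNet Q A alg v j k) {a b a' b' : V} {c c' : ℝ}
    (ha : IsNull a) (hb : IsNull b) (hab : GF.mdot a b = 1) (hc : 0 ≤ c)
    (ha' : IsNull a') (hb' : IsNull b') (hab' : GF.mdot a' b' = 1) (hc' : 0 ≤ c')
    {s : ℝ} {L : Ix → V} (hs : 0 < s) (hL : IsLor L) {y : V}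
    (hR : sim s L y '' Rg a b c = Rg a' b' c') (x : D) :
    Q.U s L y (k a b c x) = k a' b' c' (Q.U s L y x) := by
  have m1 := (h.mod a b c ha hb hab hc).conj_sim h.toRep hs hL y
  rw [net_conj h hs hL y, hR] at m1
  have m2 := h.mod a' b' c' ha' hb' hab' hc'
  have e := hU Q _ _ _ _ _ _ _ m1 m2 (Q.U s L y x)
  have e' : Q.U s L y (k a b c (Q.U s⁻¹ (linv L) (-(sim s⁻¹ (linv L) 0 y)) (Q.U s L y x))) =
      k a' b' c' (Q.U s L y x) := e
  rwa [ub_UinvL h.toRep hs hL] at e'

end net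

end Vale.Agent.P352.HM

end
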