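import Vale.Agent.P352.HM.A3
import Vale.Agent.P352.HM.A4
import Vale.Agent.P352.HM.A5
import Vale.Agent.P352.HM.A6
import Vale.Agent.P352.HM.Pe
import Vale.Agent.P352.HM.H23.A12
import Vale.Agent.P352.HM.E
import Vale.Agent.P352.HM.H228.I
import Vale.Agent.P352.HM.P
import Vale.Agent.P352.HM.C
import Vale.Agent.P352.HM.H118.L
import Vale.Agent.P352.HM.U
import Vale.Agent.P352.HM.K
import Vale.Agent.P352.HM.KS
import Vale.Agent.P352.HM.Lo
import Vale.Agent.P352.NG.Fin

/-!
# P352 HM: conformal invariance from modular theory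
-/

set_option linter.all false

noncomputable section

open MeasureTheory Filter Topology

namespace Vale.Agent.P352.HM

open GF (Ix V Fn Fld Theory IsLor bas eta o sim)
open H246 H496 H755 H15

/-! ### The blocks -/

section blocks

variable (D : Type*) [NormedAddCommGroup D] [InnerProductSpace ℂ D]

theorem eS : EStmt D := eblock H23.a1 H23.a2 a5 a6

theorem iS : IStmt D := H228.iblock (eS D) a4

theorem pS : PStmt D := pblock (eS D) H23.a1 H23.a2 a5 pe

theorem hS : HStmt D := hblock (pS D) (iS D) a3

theorem lS : LStmt D := H118.lblock (hS D)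

theorem uS : UStmt D := ublock (iS D)

theorem cS : CjStmt D := fun Q N v j k V W h hi => h.conj hi.adj hi.vw hi.wv hi.vac

end blocks

variable {D : Type*} [NormedAddCommGroup D] [InnerProductSpace ℂ D] {Q : Theory D}
  {T : Ix → Ix → Fld D} {J : Ix → Fld D}
  {A : (V → V) → D → D} {alg : Set V → Set (D → D)} {v : V → V → ℝ → ℝ → D → D}
  {j k : V → V → ℝ → D → D}

section

variable (h : MNet Q A alg v j k)
include h

/-- the null generators of the modular Hamiltonians -/
theorem ks_mnet : NF.KS Q A (Gm k) :=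
  ks_of (uS D) h (fun a b x ha hb hab => k_zero h ha hb hab x)
    fun a b c x ha hb hab hc => klin h ha hb hab (uS D) (cS D) (lS D) hc x

/-- **the modular Hamiltonians of the regions `Rg a b c`** -/
theorem k_eq {a b : V} {c : ℝ} (ha : IsNull a) (hb : IsNull b) (hab : GF.mdot a b = 1)
    (hc : 0 ≤ c) (x : D) : k a b c x = k a b 0 x + ((2 * Real.pi * c : ℝ) : ℂ) • Gm k a x :=
  klin_Gm (uS D) h (fun a b x ha hb hab => k_zero h ha hb hab x)
    (fun a b c x ha hb hab hc => klin h ha hb hab (uS D) (cS D) (lS D) hc x) ha hb hab hc x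

/-- the null generators are positive -/
theorem gm_nonneg {a : V} (ha : IsNull a) (x : D) : 0 ≤ (inner ℂ x (Gm k a x) : ℂ).re := by
  have hb := db_null ha
  have hab := db_dual ha
  have h1 := iS D Q _ _ _ _ _ _ _ _ (h.mod a (db a) 1 ha hb hab zero_le_one)
    (h.mod a (db a) 0 ha hb hab le_rfl) (h.mono _ _ (Rg_mono ha hb hab le_rfl zero_le_one)) x
  unfold Gm Gb
  rw [inner_smul_right, inner_sub_right, Complex.re_ofReal_mul, Complex.sub_re]
  have hpi : 0 < (2 * Real.pi)⁻¹ := by positivity
  exact mul_nonneg hpi.le (sub_nonneg.2 h1)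

/-- **the modular Hamiltonians define null generators** -/
theorem nullGen_mnet (hT : Q.IsStress T) (hJ : IsVirial Q T J) : NG.NullGen Q T J A (Gm k) :=
  nullGen_of hT hJ h (ks_mnet h) fun a b c x ha hb hab hc => k_eq h ha hb hab hc.le x

/-- **Conformal invariance from modular theory.** -/
theorem conf (hT : Q.IsStress T) (hJ : IsVirial Q T J) (hP : ND.PCh Q T A) : N86.ConfInv Q T :=
  NG.confL hT hJ (nullGen_mnet h hT hJ) hP

end

end Vale.Agent.P352.HM

end
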