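import Vale.Agent.P352.HM.Fin

/-!
# P352 HM: the modular Hamiltonians of the regions
-/

set_option linter.all false

noncomputable section

namespace Vale.Agent.P352.HM

open GF (Ix V Fn Fld Theory IsLor bas eta o sim)
open H246 H496 H755 H15

variable {D : Type*} [NormedAddCommGroup D] [InnerProductSpace ℂ D] {Q : Theory D}
  {A : (V → V) → D → D} {alg : Set V → Set (D → D)} {v : V → V → ℝ → ℝ → D → D}
  {j k : V → V → ℝ → D → D}

/-- **the modular Hamiltonians of the regions `Rg a b c`** -/
theorem mham (h : MNet Q A alg v j k) {a b : V} {c : ℝ} (ha : IsNull a) (hb : IsNull b)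
    (hab : GF.mdot a b = 1) (hc : 0 ≤ c) (x : D) :
    k a b c x = A (fun z => (2 * Real.pi) • (GF.mdot a z • b - GF.mdot b z • a)) x +
      ((2 * Real.pi * c : ℝ) : ℂ) • Gm k a x := by
  rw [k_eq h ha hb hab hc x, k_zero h ha hb hab x]

end Vale.Agent.P352.HM

end
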