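import Mathlib

/-! # A Herglotz type theorem for the strip `0 ≤ Im z ≤ 1/2`

A function that is continuous on the closed strip, analytic inside, real on both boundary lines
and has imaginary part `≤ 0` is `c0 + c1 e^{2πz} + c2 e^{-2πz}`. No growth condition. -/

open MeasureTheory Filter Topology Set Complex
open scoped Real ComplexConjugate

namespace Vale.Agent.P352.HM

/-- Uniqueness on the half period. -/
theorem half_uniq {h : ℝ → ℂ} (hc : Continuous h)
    (hz : ∀ n : ℤ, (∫ y in (0:ℝ)..(1/2), exp (-(2 * π * n * y * I)) * h y).re = 0) :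
    ∀ y ∈ Icc (0:ℝ) (1/2), h y = 0 := by
  classical
  set g : ℝ → ℂ := fun y => if 0 < y then h y else conj (h (-y)) with hg
  have hgm : Measurable g :=
    Measurable.ite measurableSet_Ioi hc.measurable
      (Complex.continuous_conj.comp (hc.comp continuous_neg)).measurable
  obtain ⟨C, hC⟩ : ∃ C : ℝ, ∀ y ∈ Icc (-(1/2) : ℝ) (1/2), ‖h y‖ ≤ C :=
    isCompact_Icc.exists_bound_of_continuousOn hc.continuousOn
  have hgb : ∀ y ∈ Icc (-(1/2) : ℝ) (1/2), ‖g y‖ ≤ C := by
    intro y hy
    simp only [hg]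
    split_ifs with h0
    · exact hC y hy
    · rw [RCLike.norm_conj]
      exact hC (-y) ⟨by linarith [hy.2], by linarith [hy.1]⟩
  have hL2 : MemLp g 2 (volume.restrict (Ioc (-(1/2) : ℝ) (1/2))) := by
    refine MemLp.of_bound hgm.aestronglyMeasurable C ?_
    filter_upwards [ae_restrict_mem measurableSet_Ioc] with y hy
    exact hgb y (Ioc_subset_Icc_self hy)
  have hab : (-(1/2) : ℝ) < 1/2 := by norm_num
  have hS := hasSum_sq_fourierCoeffOn hab hL2
  -- the pieces
  have hint : ∀ n : ℤ, ∫ y in (-(1/2) : ℝ)..(1/2), exp (-(2 * π * n * y * I)) * g y = 0 := by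
    intro n
    have hi : ∀ a b : ℝ, IntervalIntegrable (fun y : ℝ => exp (-(2 * π * n * y * I)) * h y)
        volume a b := fun a b => by
      apply Continuous.intervalIntegrable; fun_prop
    have hi' : ∀ a b : ℝ, IntervalIntegrable
        (fun y : ℝ => exp (-(2 * π * n * y * I)) * conj (h (-y))) volume a b := fun a b => by
      apply Continuous.intervalIntegrable
      have := Complex.continuous_conj.comp (hc.comp continuous_neg)
      exact Continuous.mul (by fun_prop) this
    have e1 : ∫ y in (-(1/2) : ℝ)..0, exp (-(2 * π * n * y * I)) * g y =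
        ∫ y in (-(1/2) : ℝ)..0, exp (-(2 * π * n * y * I)) * conj (h (-y)) := by
      apply intervalIntegral.integral_congr_ae
      filter_upwards with y hy
      rw [uIoc_of_le (by norm_num)] at hy
      simp only [hg, if_neg (not_lt.2 hy.2)]
    have e2 : ∫ y in (0 : ℝ)..(1/2), exp (-(2 * π * n * y * I)) * g y =
        ∫ y in (0 : ℝ)..(1/2), exp (-(2 * π * n * y * I)) * h y := by
      apply intervalIntegral.integral_congr_ae
      filter_upwards with y hy
      rw [uIoc_of_le (by norm_num)] at hy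
      simp only [hg, if_pos hy.1]
    have j1 : IntervalIntegrable (fun y : ℝ => exp (-(2 * π * n * y * I)) * g y) volume
        (-(1/2)) 0 := by
      refine (hi' (-(1/2)) 0).congr ?_
      rw [uIoc_of_le (by norm_num)]
      intro y hy
      simp only [hg, if_neg (not_lt.2 hy.2)]
    have j2 : IntervalIntegrable (fun y : ℝ => exp (-(2 * π * n * y * I)) * g y) volume
        0 (1/2) := by
      refine (hi 0 (1/2)).congr ?_
      rw [uIoc_of_le (by norm_num)]
      intro y hy
      simp only [hg, if_pos hy.1]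
    rw [← intervalIntegral.integral_add_adjacent_intervals j1 j2, e1, e2]
    have e3 : ∫ y in (-(1/2) : ℝ)..0, exp (-(2 * π * n * y * I)) * conj (h (-y)) =
        conj (∫ y in (0 : ℝ)..(1/2), exp (-(2 * π * n * y * I)) * h y) := by
      rw [intervalIntegral.integral_of_le (a := (0:ℝ)) (b := 1/2) (by norm_num), ← integral_conj,
        ← intervalIntegral.integral_of_le (a := (0:ℝ)) (b := 1/2) (by norm_num)]
      have := intervalIntegral.integral_comp_neg (a := -(1/2)) (b := 0)
        (fun y : ℝ => exp (2 * π * n * y * I) * conj (h y))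
      simp only [neg_zero, neg_neg] at this
      rw [show (∫ y in (0 : ℝ)..(1/2), (starRingEnd ℂ) (exp (-(2 * π * n * y * I)) * h y)) =
        ∫ y in (0 : ℝ)..(1/2), exp (2 * π * n * y * I) * conj (h y) from ?_, ← this]
      · apply intervalIntegral.integral_congr
        intro y _
        simp only
        congr 2
        push_cast
        ring
      · apply intervalIntegral.integral_congr
        intro y _
        simp only [map_mul]
        congr 1
        rw [← Complex.exp_conj]
        congr 1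
        simp only [map_neg, map_mul, Complex.conj_I, Complex.conj_ofReal, map_ofNat, map_intCast]
        ring
    rw [e3]
    rw [add_comm, Complex.add_conj, hz n]
    simp
  have hz0 : ∀ n : ℤ, fourierCoeffOn hab g n = 0 := by
    intro n
    rw [fourierCoeffOn_eq_integral]
    have : (∫ x in (-(1/2) : ℝ)..(1/2), fourier (-n) (x : AddCircle ((1/2 : ℝ) - -(1/2))) • g x) =
        ∫ y in (-(1/2) : ℝ)..(1/2), exp (-(2 * π * n * y * I)) * g y := by
      apply intervalIntegral.integral_congr
      intro y _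
      simp only [smul_eq_mul]
      congr 1
      rw [fourier_coe_apply]
      congr 1
      push_cast
      ring
    rw [this, hint n, smul_zero]
  simp only [hz0, norm_zero, ne_eq, OfNat.ofNat_ne_zero, not_false_eq_true, zero_pow] at hS
  have hI : ∫ x in (-(1/2) : ℝ)..(1/2), ‖g x‖ ^ 2 = 0 := by
    have h1 := hS.unique hasSum_zero
    have h2 : ((1/2 : ℝ) - -(1/2))⁻¹ = 1 := by norm_num
    rw [h2, one_smul] at h1
    exact h1
  have hgi : ∀ a b : ℝ, -(1/2) ≤ a → a ≤ b → b ≤ 1/2 →
      IntervalIntegrable (fun x => ‖g x‖ ^ 2) volume a b := by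
    intro a b h1 h2 h3
    rw [intervalIntegrable_iff_integrableOn_Ioc_of_le h2]
    have h5 : IntegrableOn (fun x => ‖g x‖ ^ 2) (Ioc (-(1/2) : ℝ) (1/2)) := by
      have := hL2.integrable_norm_pow (by norm_num)
      simpa only [ENNReal.toReal_ofNat, Real.rpow_ofNat, IntegrableOn] using this
    exact h5.mono_set (Ioc_subset_Ioc h1 h3)
  have hsplit := intervalIntegral.integral_add_adjacent_intervals
    (hgi (-(1/2)) 0 le_rfl (by norm_num) (by norm_num)) (hgi 0 (1/2) (by norm_num) (by norm_num) le_rfl)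
  have hn1 : 0 ≤ ∫ x in (-(1/2) : ℝ)..0, ‖g x‖ ^ 2 :=
    intervalIntegral.integral_nonneg (by norm_num) (fun _ _ => by positivity)
  have hn2 : ∫ x in (0 : ℝ)..(1/2), ‖g x‖ ^ 2 = ∫ x in (0 : ℝ)..(1/2), ‖h x‖ ^ 2 := by
    apply intervalIntegral.integral_congr_ae
    filter_upwards with y hy
    rw [uIoc_of_le (by norm_num)] at hy
    simp only [hg, if_pos hy.1]
  intro y hy
  by_contra hne
  have hlt := intervalIntegral.integral_lt_integral_of_continuousOn_of_le_of_exists_lt
    (f := fun _ => (0:ℝ)) (g := fun x => ‖h x‖ ^ 2) (a := 0) (b := 1/2) (by norm_num)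
    continuousOn_const (hc.norm.pow 2).continuousOn (fun _ _ => by positivity)
    ⟨y, hy, by positivity⟩
  simp only [intervalIntegral.integral_zero] at hlt
  linarith

/-- Cauchy's theorem for a rectangle of height `1/2`: the half period coefficients. -/
theorem coef_const {F : ℂ → ℂ} (hc : ContinuousOn F {z | 0 ≤ z.im ∧ z.im ≤ 1/2})
    (hd : DifferentiableOn ℂ F {z | 0 < z.im ∧ z.im < 1/2})
    (h0 : ∀ x : ℝ, (F x).im = 0) (h1 : ∀ x : ℝ, (F (x + I/2)).im = 0) (n : ℤ) (x : ℝ) :
    (∫ y in (0:ℝ)..(1/2), F (x + y * I) * exp (-(2 * π * n * (x + y * I)))).re =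
    (∫ y in (0:ℝ)..(1/2), F (y * I) * exp (-(2 * π * n * (y * I)))).re := by
  set f : ℂ → ℂ := fun z => F z * exp (-(2 * π * n * z)) with hf
  have hE : Differentiable ℂ (fun z : ℂ => exp (-(2 * π * n * z))) := by fun_prop
  have key := Complex.integral_boundary_rect_eq_zero_of_continuousOn_of_differentiableOn f
    (0 : ℂ) (x + I/2)
    (by
      refine ContinuousOn.mul (hc.mono ?_) hE.continuous.continuousOn
      intro z hz
      have := hz.2
      simp only [zero_im, add_im, ofReal_im, zero_add, mem_preimage] at this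
      have h2 : (I / 2).im = 1/2 := by simp
      rw [h2, uIcc_of_le (by norm_num)] at this
      exact this)
    (by
      refine DifferentiableOn.mul (hd.mono ?_) hE.differentiableOn
      intro z hz
      have := hz.2
      simp only [zero_im, add_im, ofReal_im, zero_add, mem_preimage] at this
      have h2 : (I / 2).im = 1/2 := by simp
      rw [h2, min_eq_left (by norm_num), max_eq_right (by norm_num)] at this
      exact this)
  have hre : (x + I/2 : ℂ).re = x := by simp
  have him : (x + I/2 : ℂ).im = 1/2 := by simp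
  rw [hre, him] at key
  simp only [zero_re, zero_im, ofReal_zero, zero_mul, add_zero, zero_add] at key
  have r0 : (∫ t in (0:ℝ)..x, f t) = ((∫ t in (0:ℝ)..x, (f t).re : ℝ) : ℂ) := by
    rw [← intervalIntegral.integral_ofReal]
    apply intervalIntegral.integral_congr
    intro t _
    simp only
    apply Complex.ext
    · simp
    · simp only [ofReal_im, hf]
      have : exp (-(2 * π * n * (t:ℂ))) = ((Real.exp (-(2 * π * n * t)) : ℝ) : ℂ) := by
        push_cast; rfl
      rw [this, Complex.im_mul_ofReal, h0 t, zero_mul]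
  have r1 : (∫ t in (0:ℝ)..x, f (t + ((1/2 : ℝ) : ℂ) * I)) =
      ((∫ t in (0:ℝ)..x, (f (t + ((1/2 : ℝ) : ℂ) * I)).re : ℝ) : ℂ) := by
    rw [← intervalIntegral.integral_ofReal]
    apply intervalIntegral.integral_congr
    intro t _
    simp only
    apply Complex.ext
    · simp
    · simp only [ofReal_im, hf]
      have e1 : (t : ℂ) + ((1/2 : ℝ) : ℂ) * I = t + I/2 := by push_cast; ring
      have e2 : exp (-(2 * π * n * ((t:ℂ) + I/2))) =
          (((-1)^n * Real.exp (-(2 * π * n * t)) : ℝ) : ℂ) := by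
        rw [show (-(2 * π * n * ((t:ℂ) + I/2))) = (-(2 * π * n * t)) + (-n : ℤ) * (π * I) by
          push_cast; ring, Complex.exp_add, Complex.exp_int_mul, Complex.exp_pi_mul_I]
        push_cast
        rw [zpow_neg, mul_comm]
        congr 1
        rcases Int.even_or_odd n with hn | hn
        · rw [hn.neg_one_zpow, inv_one]
        · rw [hn.neg_one_zpow, inv_neg, inv_one]
      rw [e1, e2, Complex.im_mul_ofReal, h1 t, zero_mul]
  rw [r0, r1] at key
  have k2 := congrArg Complex.im key
  simp only [smul_eq_mul, sub_im, add_im, ofReal_im, zero_im, mul_im, I_re, I_im, zero_mul,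
    one_mul, zero_add, sub_self] at k2
  linarith

theorem abs_sin_nat (n : ℕ) (t : ℝ) : |Real.sin (n * t)| ≤ n * |Real.sin t| := by
  induction n with
  | zero => simp
  | succ n ih =>
    have : Real.sin ((n + 1 : ℕ) * t) = Real.sin (n * t) * Real.cos t + Real.cos (n * t) * Real.sin t := by
      rw [← Real.sin_add]; congr 1; push_cast; ring
    rw [this]
    calc |Real.sin (n * t) * Real.cos t + Real.cos (n * t) * Real.sin t|
        ≤ |Real.sin (n * t) * Real.cos t| + |Real.cos (n * t) * Real.sin t| := abs_add_le _ _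
      _ ≤ |Real.sin (n * t)| * 1 + 1 * |Real.sin t| := by
          rw [abs_mul, abs_mul]
          gcongr
          · exact Real.abs_cos_le_one _
          · exact Real.abs_cos_le_one _
      _ ≤ n * |Real.sin t| * 1 + 1 * |Real.sin t| := by gcongr
      _ = ((n + 1 : ℕ) : ℝ) * |Real.sin t| := by push_cast; ring

theorem half_uniq' {h : ℝ → ℂ} (hc : ContinuousOn h (Icc (0:ℝ) (1/2)))
    (hz : ∀ n : ℤ, (∫ y in (0:ℝ)..(1/2), exp (-(2 * π * n * y * I)) * h y).re = 0) :
    ∀ y ∈ Icc (0:ℝ) (1/2), h y = 0 := by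
  have h01 : (0:ℝ) ≤ 1/2 := by norm_num
  have hc' : Continuous (IccExtend h01 ((Icc (0:ℝ) (1/2)).domRestrict h)) :=
    hc.domRestrict.Icc_extend'
  have hz' : ∀ n : ℤ, (∫ y in (0:ℝ)..(1/2), exp (-(2 * π * n * y * I)) *
      IccExtend h01 ((Icc (0:ℝ) (1/2)).domRestrict h) y).re = 0 := by
    intro n
    refine Eq.trans ?_ (hz n)
    congr 1
    apply intervalIntegral.integral_congr
    intro y hy
    rw [uIcc_of_le h01] at hy
    simp only
    rw [IccExtend_of_mem h01 _ hy]
    rfl
  intro y hy
  have := half_uniq hc' hz' y hy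
  rwa [IccExtend_of_mem h01 _ hy] at this

/-- `Re ∫_0^{1/2} e^{2πiky} dy = δ_{k0} / 2`. -/
theorem int_exp (k : ℤ) : (∫ y in (0:ℝ)..(1/2), exp (2 * π * k * y * I)).re =
    if k = 0 then 1/2 else 0 := by
  split_ifs with hk
  · subst hk; simp
  · have hk' : (2 * π * k * I : ℂ) ≠ 0 := by
      have : (π : ℂ) ≠ 0 := by exact_mod_cast Real.pi_ne_zero
      have h3 : (k : ℂ) ≠ 0 := by exact_mod_cast hk
      simp [this, h3]
    have := integral_exp_mul_complex (a := 0) (b := 1/2) hk'
    rw [show (fun y : ℝ => exp (2 * π * k * y * I)) = fun y : ℝ => exp (2 * π * k * I * y) by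
      funext y; congr 1; ring, this]
    rw [show (2 * π * k * I * ((1/2 : ℝ) : ℂ)) = (k : ℂ) * (π * I) by push_cast; ring,
      Complex.exp_int_mul, Complex.exp_pi_mul_I]
    simp only [ofReal_zero, mul_zero, Complex.exp_zero]
    rcases Int.even_or_odd k with hn | hn
    · rw [hn.neg_one_zpow]; simp
    · rw [hn.neg_one_zpow]
      have : ((-1 - 1 : ℂ) / (2 * π * k * I)) = ((1 / (π * k) : ℝ) : ℂ) * I := by
        have : (π : ℂ) ≠ 0 := by exact_mod_cast Real.pi_ne_zero
        have h3 : (k : ℂ) ≠ 0 := by exact_mod_cast hk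
        push_cast
        field_simp
        rw [I_sq]; ring
      rw [this]; simp

section

variable {F : ℂ → ℂ}

/-- The coefficients. -/
noncomputable def cf (F : ℂ → ℂ) (n : ℤ) : ℝ :=
  (∫ y in (0:ℝ)..(1/2), F (y * I) * exp (-(2 * π * n * (y * I)))).re

theorem cont_line (hc : ContinuousOn F {z | 0 ≤ z.im ∧ z.im ≤ 1/2}) (x : ℝ) :
    ContinuousOn (fun y : ℝ => F (x + y * I)) (Icc (0:ℝ) (1/2)) := by
  refine hc.comp (by fun_prop) ?_
  intro y hy
  simpa using hy

theorem coef_eq (hc : ContinuousOn F {z | 0 ≤ z.im ∧ z.im ≤ 1/2})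
    (hd : DifferentiableOn ℂ F {z | 0 < z.im ∧ z.im < 1/2})
    (h0 : ∀ x : ℝ, (F x).im = 0) (h1 : ∀ x : ℝ, (F (x + I/2)).im = 0) (n : ℤ) (x : ℝ) :
    (∫ y in (0:ℝ)..(1/2), exp (-(2 * π * n * y * I)) * F (x + y * I)).re =
      Real.exp (2 * π * n * x) * cf F n := by
  have h := coef_const hc hd h0 h1 n x
  rw [cf, ← h]
  have : (∫ y in (0:ℝ)..(1/2), F (x + y * I) * exp (-(2 * π * n * (x + y * I)))) =
      ((Real.exp (-(2 * π * n * x)) : ℝ) : ℂ) *
      ∫ y in (0:ℝ)..(1/2), exp (-(2 * π * n * y * I)) * F (x + y * I) := by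
    rw [← intervalIntegral.integral_const_mul]
    apply intervalIntegral.integral_congr
    intro y _
    simp only
    rw [show -(2 * π * n * (x + y * I) : ℂ) = ((-(2 * π * n * x) : ℝ) : ℂ) + (-(2 * π * n * y * I)) by
      push_cast; ring, Complex.exp_add, ← Complex.ofReal_exp]
    ring
  rw [this, Complex.re_ofReal_mul, ← mul_assoc, ← Real.exp_add]
  simp

theorem sin_eq (hc : ContinuousOn F {z | 0 ≤ z.im ∧ z.im ≤ 1/2})
    (hd : DifferentiableOn ℂ F {z | 0 < z.im ∧ z.im < 1/2})
    (h0 : ∀ x : ℝ, (F x).im = 0) (h1 : ∀ x : ℝ, (F (x + I/2)).im = 0) (n : ℕ) (x : ℝ) :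
    Real.exp (2 * π * n * x) * cf F n - Real.exp (-(2 * π * n * x)) * cf F (-n) =
      2 * ∫ y in (0:ℝ)..(1/2), (F (x + y * I)).im * Real.sin (n * (2 * π * y)) := by
  have a1 := coef_eq hc hd h0 h1 (n : ℤ) x
  have a2 := coef_eq hc hd h0 h1 (-(n : ℤ)) x
  have ci : ∀ m : ℤ, IntervalIntegrable
      (fun y : ℝ => exp (-(2 * π * m * y * I)) * F (x + y * I)) volume 0 (1/2) := by
    intro m
    apply ContinuousOn.intervalIntegrable
    rw [uIcc_of_le (by norm_num)]
    exact ContinuousOn.mul (Continuous.continuousOn (by fun_prop)) (cont_line hc x)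
  push_cast at a1 a2
  rw [show Real.exp (-(2 * π * n * x)) = Real.exp (2 * π * -n * x) by congr 1; ring]
  rw [← a1, ← a2, ← Complex.sub_re]
  have c1 := ci n
  have c2 := ci (-n)
  push_cast at c1 c2
  rw [← intervalIntegral.integral_sub c1 c2]
  rw [show (∫ y in (0:ℝ)..(1/2), (exp (-(2 * π * n * y * I)) * F (x + y * I) -
      exp (-(2 * π * -n * y * I)) * F (x + y * I))).re =
      ∫ y in (0:ℝ)..(1/2), (exp (-(2 * π * n * y * I)) * F (x + y * I) -
      exp (-(2 * π * -n * y * I)) * F (x + y * I)).re from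
      (Complex.reCLM.intervalIntegral_comp_comm (c1.sub c2)).symm]
  rw [← intervalIntegral.integral_const_mul]
  apply intervalIntegral.integral_congr
  intro y _
  simp only
  rw [← sub_mul]
  have e1 : exp (-(2 * π * n * y * I)) = ((Real.cos (n * (2 * π * y)) : ℝ) : ℂ) -
      ((Real.sin (n * (2 * π * y)) : ℝ) : ℂ) * I := by
    rw [show (-(2 * π * n * y * I) : ℂ) = ((-(n * (2 * π * y)) : ℝ) : ℂ) * I by push_cast; ring,
      Complex.exp_mul_I, ← Complex.ofReal_cos, ← Complex.ofReal_sin, Real.cos_neg, Real.sin_neg]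
    push_cast; ring
  have e2 : exp (-(2 * π * -n * y * I)) = ((Real.cos (n * (2 * π * y)) : ℝ) : ℂ) +
      ((Real.sin (n * (2 * π * y)) : ℝ) : ℂ) * I := by
    rw [show (-(2 * π * -n * y * I) : ℂ) = (((n * (2 * π * y)) : ℝ) : ℂ) * I by push_cast; ring,
      Complex.exp_mul_I, ← Complex.ofReal_cos, ← Complex.ofReal_sin]
  rw [e1, e2]
  simp only [sub_re, mul_re, ofReal_re, ofReal_im, I_re, I_im, add_re, sub_im, add_im, mul_im,
    mul_zero, mul_one, sub_self, zero_mul, add_zero, sub_zero, zero_sub, zero_add]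
  ring

theorem cf_zero (hc : ContinuousOn F {z | 0 ≤ z.im ∧ z.im ≤ 1/2})
    (hd : DifferentiableOn ℂ F {z | 0 < z.im ∧ z.im < 1/2})
    (h0 : ∀ x : ℝ, (F x).im = 0) (h1 : ∀ x : ℝ, (F (x + I/2)).im = 0)
    (hs : ∀ z : ℂ, 0 < z.im → z.im < 1/2 → (F z).im ≤ 0) (n : ℕ) (hn : 2 ≤ n) :
    cf F n = 0 ∧ cf F (-n) = 0 := by
  have hcl : ∀ x y : ℝ, 0 ≤ y → y ≤ 1/2 → (F (x + y * I)).im ≤ 0 := by
    intro x y hy1 hy2
    rcases eq_or_lt_of_le hy1 with h | h
    · rw [← h]; simpa using (h0 x).le
    rcases eq_or_lt_of_le hy2 with h' | h'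
    · have := (h1 x).le
      rw [h']; push_cast
      rwa [show (x : ℂ) + 1 / 2 * I = x + I / 2 by ring]
    · exact hs _ (by simpa using h) (by simpa using h')
  have hI : ∀ x : ℝ, ContinuousOn (fun y : ℝ => (F (x + y * I)).im) (Icc (0:ℝ) (1/2)) :=
    fun x => Complex.continuous_im.comp_continuousOn (cont_line hc x)
  have hbd : ∀ x : ℝ, |Real.exp (2 * π * n * x) * cf F n - Real.exp (-(2 * π * n * x)) * cf F (-n)| ≤
      n * (Real.exp (2 * π * x) * |cf F 1| + Real.exp (-(2 * π * x)) * |cf F (-1)|) := by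
    intro x
    have s1 := sin_eq hc hd h0 h1 1 x
    have s2 := sin_eq hc hd h0 h1 n x
    simp only [Nat.cast_one, mul_one, one_mul] at s1
    rw [s2, abs_mul, abs_two]
    have b1 : |∫ y in (0:ℝ)..(1/2), (F (x + y * I)).im * Real.sin (n * (2 * π * y))| ≤
        ∫ y in (0:ℝ)..(1/2), n * -((F (x + y * I)).im * Real.sin (2 * π * y)) := by
      refine (intervalIntegral.abs_integral_le_integral_abs (by norm_num)).trans ?_
      apply intervalIntegral.integral_mono_on (by norm_num)
      · apply ContinuousOn.intervalIntegrable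
        rw [uIcc_of_le (by norm_num)]
        exact ((hI x).mul (Continuous.continuousOn (by fun_prop))).abs
      · apply ContinuousOn.intervalIntegrable
        rw [uIcc_of_le (by norm_num)]
        exact (((hI x).mul (Continuous.continuousOn (by fun_prop))).neg).const_smul (n : ℝ)
      · intro y hy
        have hF := hcl x y hy.1 hy.2
        have hsn : 0 ≤ Real.sin (2 * π * y) := by
          apply Real.sin_nonneg_of_nonneg_of_le_pi
          · have := Real.pi_pos; have := hy.1; positivity
          · have := Real.pi_pos; nlinarith [hy.2]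
        rw [abs_mul, abs_of_nonpos hF]
        have h3 := abs_sin_nat n (2 * π * y)
        rw [abs_of_nonneg hsn] at h3
        nlinarith [mul_le_mul_of_nonneg_left h3 (neg_nonneg.2 hF)]
    have b2 : (∫ y in (0:ℝ)..(1/2), n * -((F (x + y * I)).im * Real.sin (2 * π * y))) =
        n * -(∫ y in (0:ℝ)..(1/2), (F (x + y * I)).im * Real.sin (2 * π * y)) := by
      rw [intervalIntegral.integral_const_mul, intervalIntegral.integral_neg]
    rw [b2] at b1
    have b3 : -(2 * ∫ y in (0:ℝ)..(1/2), (F (x + y * I)).im * Real.sin (2 * π * y)) ≤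
        Real.exp (2 * π * x) * |cf F 1| + Real.exp (-(2 * π * x)) * |cf F (-1)| := by
      rw [← s1]
      have t1 : -(Real.exp (2 * π * x) * cf F 1) ≤ Real.exp (2 * π * x) * |cf F 1| := by
        rw [← mul_neg]; gcongr; exact neg_le_abs _
      have t2 : Real.exp (-(2 * π * x)) * cf F (-1) ≤ Real.exp (-(2 * π * x)) * |cf F (-1)| := by
        gcongr; exact le_abs_self _
      linarith
    calc 2 * |∫ y in (0:ℝ)..(1/2), (F (x + y * I)).im * Real.sin (n * (2 * π * y))|
        ≤ 2 * (n * -(∫ y in (0:ℝ)..(1/2), (F (x + y * I)).im * Real.sin (2 * π * y))) := by gcongr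
      _ = n * -(2 * ∫ y in (0:ℝ)..(1/2), (F (x + y * I)).im * Real.sin (2 * π * y)) := by ring
      _ ≤ _ := by gcongr
  have hn1 : (1 : ℝ) ≤ (n : ℝ) - 1 := by
    have : (2 : ℝ) ≤ n := by exact_mod_cast hn
    linarith
  set K : ℝ := |cf F n| + |cf F (-n)| + n * (|cf F 1| + |cf F (-1)|) with hK
  have hK0 : 0 ≤ K := by positivity
  have gen : ∀ (u v : ℝ), (∀ x : ℝ, 0 ≤ x → |Real.exp (2 * π * n * x) * u - Real.exp (-(2 * π * n * x)) * v|
      ≤ n * (Real.exp (2 * π * x) * (|cf F 1| + |cf F (-1)|))) → u = 0 := by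
    intro u v huv
    by_contra hu
    have hu' : 0 < |u| := abs_pos.2 hu
    set L : ℝ := |v| + n * (|cf F 1| + |cf F (-1)|) with hL
    have hL0 : 0 ≤ L := by positivity
    have hb : ∀ x : ℝ, 0 ≤ x → |u| * Real.exp (2 * π * x) ≤ L := by
      intro x hx
      have h1 := huv x hx
      have h2 : |Real.exp (2 * π * n * x) * u| ≤
          |Real.exp (2 * π * n * x) * u - Real.exp (-(2 * π * n * x)) * v| +
            |Real.exp (-(2 * π * n * x)) * v| := by
        have := abs_add_le (Real.exp (2 * π * n * x) * u - Real.exp (-(2 * π * n * x)) * v)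
          (Real.exp (-(2 * π * n * x)) * v)
        simpa using this
      rw [abs_mul, abs_mul (Real.exp (-(2 * π * n * x))), abs_of_pos (Real.exp_pos _),
        abs_of_pos (Real.exp_pos _)] at h2
      have hpx : 0 ≤ 2 * π * x := by have := Real.pi_pos; positivity
      have h3 : Real.exp (-(2 * π * n * x)) ≤ Real.exp (2 * π * x) := by
        apply Real.exp_le_exp.2
        have : 0 ≤ 2 * π * n * x := by have := Real.pi_pos; positivity
        linarith
      have h4 : Real.exp (2 * π * n * x) ≥ Real.exp (2 * π * x) * Real.exp (2 * π * x) := by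
        rw [← Real.exp_add]
        apply Real.exp_le_exp.2
        have : 2 * π * n * x = n * (2 * π * x) := by ring
        rw [this]
        nlinarith
      have h5 : Real.exp (2 * π * x) * (|u| * Real.exp (2 * π * x)) ≤ Real.exp (2 * π * x) * L := by
        calc Real.exp (2 * π * x) * (|u| * Real.exp (2 * π * x))
            = (Real.exp (2 * π * x) * Real.exp (2 * π * x)) * |u| := by ring
          _ ≤ Real.exp (2 * π * n * x) * |u| := by gcongr
          _ ≤ n * (Real.exp (2 * π * x) * (|cf F 1| + |cf F (-1)|)) +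
              Real.exp (2 * π * x) * |v| := by
                refine h2.trans (add_le_add h1 ?_)
                gcongr
          _ = Real.exp (2 * π * x) * L := by rw [hL]; ring
      exact le_of_mul_le_mul_left h5 (Real.exp_pos _)
    obtain ⟨x, hx⟩ : ∃ x : ℝ, 0 ≤ x ∧ L < |u| * Real.exp (2 * π * x) := by
      refine ⟨L / |u|, by positivity, ?_⟩
      have h6 : L / |u| < Real.exp (2 * π * (L / |u|)) := by
        have h7 : 0 ≤ L / |u| := by positivity
        have h8 := Real.add_one_le_exp (2 * π * (L / |u|))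
        have h9 : L / |u| ≤ 2 * π * (L / |u|) := by
          have := Real.pi_gt_three
          nlinarith
        linarith
      calc L = |u| * (L / |u|) := by field_simp
        _ < _ := by gcongr
    exact absurd (hb x hx.1) (not_le.2 hx.2)
  refine ⟨gen (cf F n) (cf F (-n)) ?_, gen (cf F (-n)) (cf F n) ?_⟩
  · intro x hx
    refine (hbd x).trans ?_
    have : Real.exp (-(2 * π * x)) ≤ Real.exp (2 * π * x) := by
      apply Real.exp_le_exp.2
      have : 0 ≤ 2 * π * x := by have := Real.pi_pos; positivity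
      linarith
    rw [mul_add (Real.exp (2 * π * x))]
    gcongr
  · intro x hx
    have h2 := hbd (-x)
    have e1 : 2 * π * n * -x = -(2 * π * n * x) := by ring
    have e2 : 2 * π * -x = -(2 * π * x) := by ring
    rw [e1, e2, neg_neg, neg_neg, abs_sub_comm] at h2
    refine h2.trans ?_
    have : Real.exp (-(2 * π * x)) ≤ Real.exp (2 * π * x) := by
      apply Real.exp_le_exp.2
      have : 0 ≤ 2 * π * x := by have := Real.pi_pos; positivity
      linarith
    rw [mul_add (Real.exp (2 * π * x))]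
    gcongr

/-- **Herglotz theorem for the strip.** A function that is continuous on the closed strip
`0 ≤ Im z ≤ 1/2`, analytic inside, real on both boundary lines and has imaginary part `≤ 0` is
`c0 + c1 e^{2πz} + c2 e^{-2πz}` with `c1 ≤ 0 ≤ c2`. There is no growth condition. -/
theorem strip_herglotz (hc : ContinuousOn F {z | 0 ≤ z.im ∧ z.im ≤ 1/2})
    (hd : DifferentiableOn ℂ F {z | 0 < z.im ∧ z.im < 1/2})
    (h0 : ∀ x : ℝ, (F x).im = 0) (h1 : ∀ x : ℝ, (F (x + I/2)).im = 0)
    (hs : ∀ z : ℂ, 0 < z.im → z.im < 1/2 → (F z).im ≤ 0) :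
    ∃ c0 c1 c2 : ℝ, c1 ≤ 0 ∧ 0 ≤ c2 ∧ ∀ z : ℂ, 0 ≤ z.im → z.im ≤ 1/2 →
      F z = c0 + c1 * exp (2 * π * z) + c2 * exp (-(2 * π * z)) := by
  have hform : ∀ x y : ℝ, y ∈ Icc (0:ℝ) (1/2) → F (x + y * I) - (((2 * cf F 0 : ℝ) : ℂ) +
      ((2 * cf F 1 : ℝ) : ℂ) * exp (2 * π * (x + y * I)) +
      ((2 * cf F (-1) : ℝ) : ℂ) * exp (-(2 * π * (x + y * I)))) = 0 := by
    intro x
    have hcont : ContinuousOn (fun y : ℝ => (((2 * cf F 0 : ℝ) : ℂ) +
      ((2 * cf F 1 : ℝ) : ℂ) * exp (2 * π * (x + y * I)) +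
      ((2 * cf F (-1) : ℝ) : ℂ) * exp (-(2 * π * (x + y * I))))) (Icc (0:ℝ) (1/2)) :=
      Continuous.continuousOn (by fun_prop)
    refine half_uniq' ((cont_line hc x).sub hcont) ?_
    intro n
    have hE : ContinuousOn (fun y : ℝ => exp (-(2 * π * n * y * I))) (Icc (0:ℝ) (1/2)) :=
      Continuous.continuousOn (by fun_prop)
    have i1 : IntervalIntegrable (fun y : ℝ => exp (-(2 * π * n * y * I)) * F (x + y * I))
        volume 0 (1/2) := by
      apply ContinuousOn.intervalIntegrable
      rw [uIcc_of_le (by norm_num)]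
      exact hE.mul (cont_line hc x)
    have ie : ∀ (r : ℝ) (k : ℤ), IntervalIntegrable
        (fun y : ℝ => (r : ℂ) * exp (2 * π * k * y * I)) volume 0 (1/2) := by
      intro r k
      apply Continuous.intervalIntegrable
      fun_prop
    have e : ∀ y : ℝ, exp (-(2 * π * n * y * I)) * (F (x + y * I) - (((2 * cf F 0 : ℝ) : ℂ) +
        ((2 * cf F 1 : ℝ) : ℂ) * exp (2 * π * (x + y * I)) +
        ((2 * cf F (-1) : ℝ) : ℂ) * exp (-(2 * π * (x + y * I))))) =
        exp (-(2 * π * n * y * I)) * F (x + y * I) -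
        ((((2 * cf F 0 : ℝ) : ℂ) * exp (2 * π * (-n : ℤ) * y * I) +
        ((2 * cf F 1 * Real.exp (2 * π * x) : ℝ) : ℂ) * exp (2 * π * (1 - n : ℤ) * y * I)) +
        ((2 * cf F (-1) * Real.exp (-(2 * π * x)) : ℝ) : ℂ) *
          exp (2 * π * (-1 - n : ℤ) * y * I)) := by
      intro y
      rw [mul_sub, mul_add, mul_add]
      congr 1
      congr 1
      · congr 1
        · rw [mul_comm]; congr 2; push_cast; ring
        · rw [show (2 * π * (x + y * I) : ℂ) = ((2 * π * x : ℝ) : ℂ) + 2 * π * y * I by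
            push_cast; ring, Complex.exp_add, ← Complex.ofReal_exp,
            show (2 * π * ((1 - n : ℤ) : ℂ) * y * I : ℂ) = 2 * π * y * I + -(2 * π * n * y * I) by
              push_cast; ring, Complex.exp_add]
          push_cast; ring
      · rw [show (-(2 * π * (x + y * I)) : ℂ) = ((-(2 * π * x) : ℝ) : ℂ) + -(2 * π * y * I) by
            push_cast; ring, Complex.exp_add, ← Complex.ofReal_exp,
            show (2 * π * ((-1 - n : ℤ) : ℂ) * y * I : ℂ) = -(2 * π * y * I) + -(2 * π * n * y * I) by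
              push_cast; ring, Complex.exp_add]
        push_cast; ring
    simp only [e]
    rw [intervalIntegral.integral_sub i1 (((ie _ _).add (ie _ _)).add (ie _ _)),
      intervalIntegral.integral_add ((ie _ _).add (ie _ _)) (ie _ _),
      intervalIntegral.integral_add (ie _ _) (ie _ _)]
    simp only [intervalIntegral.integral_const_mul]
    rw [Complex.sub_re, Complex.add_re, Complex.add_re, Complex.re_ofReal_mul,
      Complex.re_ofReal_mul, Complex.re_ofReal_mul, int_exp, int_exp, int_exp,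
      coef_eq hc hd h0 h1 n x]
    rcases lt_trichotomy n 0 with hn | hn | hn
    · obtain ⟨k, rfl⟩ : ∃ k : ℕ, n = -(k : ℤ) := ⟨n.natAbs, by omega⟩
      rcases Nat.lt_or_ge k 2 with hk | hk
      · have : k = 1 := by omega
        subst this
        norm_num
        ring_nf
      · rw [(cf_zero hc hd h0 h1 hs k hk).2]
        rw [if_neg (by omega), if_neg (by omega), if_neg (by omega)]
        ring
    · subst hn
      norm_num
      ring
    · obtain ⟨k, rfl⟩ : ∃ k : ℕ, n = (k : ℤ) := ⟨n.natAbs, by omega⟩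
      rcases Nat.lt_or_ge k 2 with hk | hk
      · have : k = 1 := by omega
        subst this
        norm_num
        ring_nf
      · rw [(cf_zero hc hd h0 h1 hs k hk).1]
        rw [if_neg (by omega), if_neg (by omega), if_neg (by omega)]
        ring
  have hz : ∀ z : ℂ, 0 ≤ z.im → z.im ≤ 1/2 → F z = ((2 * cf F 0 : ℝ) : ℂ) +
      ((2 * cf F 1 : ℝ) : ℂ) * exp (2 * π * z) +
      ((2 * cf F (-1) : ℝ) : ℂ) * exp (-(2 * π * z)) := by
    intro z h1 h2
    have := hform z.re z.im ⟨h1, h2⟩
    rw [Complex.re_add_im] at this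
    exact sub_eq_zero.1 this
  have hq : ∀ x : ℝ, 2 * cf F 1 * Real.exp (2 * π * x) ≤ 2 * cf F (-1) * Real.exp (-(2 * π * x)) := by
    intro x
    have hh := hs (x + (1/4 : ℝ) * I) (by norm_num) (by norm_num)
    rw [hz _ (by norm_num) (by norm_num)] at hh
    have e1 : exp (2 * π * (x + (1/4 : ℝ) * I)) = ((Real.exp (2 * π * x) : ℝ) : ℂ) * I := by
      rw [show (2 * π * (x + (1/4 : ℝ) * I) : ℂ) = ((2 * π * x : ℝ) : ℂ) + π / 2 * I by
        push_cast; ring, Complex.exp_add, ← Complex.ofReal_exp, Complex.exp_pi_div_two_mul_I]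
    have e2 : exp (-(2 * π * (x + (1/4 : ℝ) * I))) = -((Real.exp (-(2 * π * x)) : ℝ) : ℂ) * I := by
      rw [show (-(2 * π * (x + (1/4 : ℝ) * I)) : ℂ) = ((-(2 * π * x) : ℝ) : ℂ) + -(π / 2 * I) by
        push_cast; ring, Complex.exp_add, ← Complex.ofReal_exp, Complex.exp_neg,
        Complex.exp_pi_div_two_mul_I, Complex.inv_I]
      ring
    rw [e1, e2] at hh
    simp only [add_im, ofReal_im, mul_im, ofReal_re, I_re, I_im, mul_zero, mul_one,
      add_zero, zero_add, neg_re, neg_im, neg_mul, mul_re, sub_zero, neg_zero] at hh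
    linarith
  refine ⟨2 * cf F 0, 2 * cf F 1, 2 * cf F (-1), ?_, ?_, hz⟩
  · by_contra hneg
    push Not at hneg
    set u := 2 * cf F 1
    set v := 2 * cf F (-1)
    have hb : ∀ x : ℝ, 0 ≤ x → u * Real.exp (2 * π * x) ≤ |v| := by
      intro x hx
      refine (hq x).trans ((mul_le_mul_of_nonneg_right (le_abs_self v) (Real.exp_pos _).le).trans ?_)
      have : Real.exp (-(2 * π * x)) ≤ 1 := by
        rw [Real.exp_le_one_iff]
        have : 0 ≤ 2 * π * x := by have := Real.pi_pos; positivity
        linarith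
      nlinarith [abs_nonneg v]
    have h6 : |v| / u < Real.exp (2 * π * (|v| / u)) := by
      have h7 : 0 ≤ |v| / u := by positivity
      have h8 := Real.add_one_le_exp (2 * π * (|v| / u))
      have h9 : |v| / u ≤ 2 * π * (|v| / u) := by
        have := Real.pi_gt_three
        nlinarith
      linarith
    have h10 := hb (|v| / u) (by positivity)
    have : |v| = u * (|v| / u) := by field_simp
    nlinarith
  · by_contra hneg
    push Not at hneg
    set u := 2 * cf F 1
    set v := 2 * cf F (-1)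
    have hv : 0 < -v := by linarith
    have hb : ∀ x : ℝ, 0 ≤ x → -v * Real.exp (2 * π * x) ≤ |u| := by
      intro x hx
      have h1 := hq (-x)
      rw [show 2 * π * -x = -(2 * π * x) by ring, neg_neg] at h1
      have : Real.exp (-(2 * π * x)) ≤ 1 := by
        rw [Real.exp_le_one_iff]
        have : 0 ≤ 2 * π * x := by have := Real.pi_pos; positivity
        linarith
      have h2 : -u * Real.exp (-(2 * π * x)) ≤ |u| := by
        refine (mul_le_mul_of_nonneg_right (neg_le_abs u) (Real.exp_pos _).le).trans ?_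
        nlinarith [abs_nonneg u]
      linarith
    have h6 : |u| / (-v) < Real.exp (2 * π * (|u| / (-v))) := by
      have h7 : 0 ≤ |u| / (-v) := by positivity
      have h8 := Real.add_one_le_exp (2 * π * (|u| / (-v)))
      have h9 : |u| / (-v) ≤ 2 * π * (|u| / (-v)) := by
        have := Real.pi_gt_three
        nlinarith
      linarith
    have h10 := hb (|u| / (-v)) (by positivity)
    have : |u| = -v * (|u| / (-v)) := by rw [mul_div_cancel₀]; exact hv.ne'
    nlinarith

end

end Vale.Agent.P352.HM
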