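import Vale.Agent.P352.HM.Defs

/-!
# P352 HM: literals of the blocks
-/

set_option linter.all false

noncomputable section

open MeasureTheory Filter Topology Asymptotics

namespace Vale.Agent.P352.HM

open GF (Ix V Fn Fld Theory IsLor bas eta o sim)
open H246 H496 H755 H15

/-- products of two Gaussian weights, with complex shift `z` -/
def gg (m : ℝ) (z : ℂ) (p : ℝ × ℝ) : ℂ :=
  ((m / Real.pi : ℝ) : ℂ) * Complex.exp (-(m : ℂ) * ((p.1 : ℂ) + z) ^ 2) *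
    Complex.exp (-(m : ℂ) * ((p.2 : ℂ) + z) ^ 2)

/-- smoothed functions of two real variables, on the diagonal -/
def dg (m : ℝ) (k : ℝ × ℝ → ℂ) (z : ℂ) : ℂ := ∫ p, gg m z p * k p

/-- continuous functions of exponential growth -/
def Grw (k : ℝ × ℝ → ℂ) (r : ℝ) : Prop :=
  Continuous k ∧ ∃ C, ∀ p : ℝ × ℝ, ‖k p‖ ≤ C * Real.exp (r * (|p.1| + |p.2|))

/-- the strip -/
def Stp : Set ℂ := {z | -(1 / 2) < z.im ∧ z.im < 0}

/-- block A1 -/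
def A1Stmt : Prop := ∀ (m : ℝ) (k : ℝ × ℝ → ℂ) (r : ℝ), 0 < m → Grw k r →
  (∀ z, Integrable fun p => gg m z p * k p) ∧ Differentiable ℂ (dg m k)

/-- block A2 -/
def A2Stmt : Prop := ∀ (m : ℝ) (k : ℝ × ℝ → ℂ) (r : ℝ), 0 < m → 0 ≤ r → Grw k r →
  ∃ C : ℝ, ∀ z : ℂ, |z.im| ≤ 1 → ‖dg m k z‖ ≤ C * Real.exp (2 * r * |z.re|)

/-- block A3 -/
def A3Stmt : Prop := ∀ (k : ℝ × ℝ → ℂ) (r t : ℝ), Grw k r →
  Tendsto (fun m : ℝ => dg m k (t : ℂ)) atTop (𝓝 (k (-t, -t)))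

/-- block A4 -/
def A4Stmt : Prop := ∀ (k : ℝ × ℝ → ℂ) (α β k0 : ℂ) (C l : ℝ), Continuous k →
  (∀ p : ℝ × ℝ, ‖k p - k0‖ ≤ C * (|p.1| + |p.2|)) →
  ((fun p : ℝ × ℝ => k p - k0 - α * (p.1 : ℂ) - β * (p.2 : ℂ)) =o[𝓝 0] fun p => p) →
  Tendsto (fun m : ℝ => ((Real.sqrt m : ℝ) : ℂ) *
    (dg m k (-(Complex.I * ((l / Real.sqrt m : ℝ) : ℂ))) - k0)) atTop
    (𝓝 (Complex.I * (l : ℂ) * (α + β)))

/-- block A6: contour shift -/
def A6Stmt : Prop := ∀ (F : ℂ → ℂ) (m : ℝ) (a : ℂ), 0 < m → DiffContOnCl ℂ F Stp →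
  (∃ C, ∀ z : ℂ, -(1 / 2) ≤ z.im → z.im ≤ 0 → ‖F z‖ ≤ C) →
  ∫ τ : ℝ, Complex.exp (-(m : ℂ) * ((τ : ℂ) + a) ^ 2) * F τ =
    ∫ τ : ℝ, Complex.exp (-(m : ℂ) * ((τ : ℂ) - Complex.I / 2 + a) ^ 2) * F (τ - Complex.I / 2)

/-- block PE: entire periodic functions of exponential growth with a sign in the strip -/
def PEStmt : Prop := ∀ (f : ℂ → ℂ) (C r : ℝ), Differentiable ℂ f →
  (∀ z, f (z - Complex.I) = f z) → (∀ z : ℂ, |z.im| ≤ 1 → ‖f z‖ ≤ C * Real.exp (r * |z.re|)) →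
  (∀ t : ℝ, (f t).im = 0) → (∀ z : ℂ, -(1 / 2) ≤ z.im → z.im ≤ 0 → (f z).im ≤ 0) →
  ∃ c0 c1 c2 : ℝ, 0 ≤ c1 ∧ c2 ≤ 0 ∧ ∀ z : ℂ, f z = c0 + c1 * Complex.exp (2 * Real.pi * z) +
    c2 * Complex.exp (-(2 * Real.pi * z))

variable {D : Type*} [NormedAddCommGroup D] [InnerProductSpace ℂ D]

/-- block A5: Cauchy-Schwarz inequality -/
def A5Stmt (D : Type*) [NormedAddCommGroup D] [InnerProductSpace ℂ D] : Prop :=
  ∀ (φ ψ : ℝ → D) (m t : ℝ), 0 < m → Continuous φ → Continuous ψ →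
  (∃ C, ∀ τ, ‖φ τ‖ ≤ C) → (∃ C, ∀ τ, ‖ψ τ‖ ≤ C) →
  0 ≤ (dg m (fun p => inner ℂ (φ p.1) (φ p.2)) (t : ℂ)).re ∧
  (dg m (fun p => inner ℂ (φ p.1) (φ p.2)) (t : ℂ)).im = 0 ∧
  ‖dg m (fun p => inner ℂ (φ p.1) (ψ p.2)) (t : ℂ)‖ ^ 2 ≤
    (dg m (fun p => inner ℂ (φ p.1) (φ p.2)) (t : ℂ)).re *
      (dg m (fun p => inner ℂ (ψ p.1) (ψ p.2)) (t : ℂ)).re

/-- the square of the norm of the smoothed vector -/
def nm (m : ℝ) (v : ℝ → D → D) (x : D) : ℝ := (dg m (fun p => inner ℂ (v p.1 x) (v p.2 x)) 0).re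

/-- block E, `W = V⁻¹`, `V N V⁻¹ ⊆ M` -/
def EStmt (D : Type*) [NormedAddCommGroup D] [InnerProductSpace ℂ D] : Prop :=
  ∀ (Q : Theory D) (N M : Set (D → D)) (v u : ℝ → D → D) (j j' k k' : D → D) (V W : D → D) (m : ℝ),
  0 < m → Modl Q N v j k → Modl Q M u j' k' →
  (∀ x y, inner ℂ (V x) y = inner ℂ x (W y)) → (∀ x, V (W x) = x) → (∀ x, W (V x) = x) →
  V Q.vac = Q.vac → (∀ X ∈ N, (fun x => V (X (W x))) ∈ M) →
  (∀ (x y : D) (t : ℝ),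
    dg m (fun p => inner ℂ (u p.1 x) (V (v p.2 y))) ((t : ℂ) - Complex.I / 2) =
      dg m (fun p => inner ℂ (V (j (v p.2 y))) (j' (u p.1 x))) (t : ℂ)) ∧
  (∀ (x y : D) (z : ℂ), -(1 / 2) ≤ z.im → z.im ≤ 0 →
    ‖dg m (fun p => inner ℂ (u p.1 x) (V (v p.2 y))) z‖ ^ 2 ≤ nm m u x * nm m v y)

/-- block I: monotonicity of the modular Hamiltonians -/
def IStmt (D : Type*) [NormedAddCommGroup D] [InnerProductSpace ℂ D] : Prop :=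
  ∀ (Q : Theory D) (N M : Set (D → D)) (v u : ℝ → D → D) (j j' k k' : D → D),
  Modl Q N v j k → Modl Q M u j' k' → N ⊆ M →
  ∀ x, (inner ℂ x (k' x) : ℂ).re ≤ (inner ℂ x (k x) : ℂ).re

/-- half-sided modular inclusion of `N` in `M` (with the growth condition) -/
structure Hsm (Q : Theory D) (N M : Set (D → D)) (v u : ℝ → D → D) (j j' k k' : D → D) :
    Prop where
  small : Modl Q N v j k
  big : Modl Q M u j' k'
  sub : N ⊆ M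
  half : ∀ s, 0 ≤ s → ∀ X ∈ N, (fun x => u (-s) (X (u s x))) ∈ N
  grow : ∀ x, ∃ C r : ℝ, ∀ t, ‖k' (v t x)‖ ≤ C * Real.exp (r * |t|)

/-- block P -/
def PStmt (D : Type*) [NormedAddCommGroup D] [InnerProductSpace ℂ D] : Prop :=
  ∀ (Q : Theory D) (N M : Set (D → D)) (v u : ℝ → D → D) (j j' k k' : D → D),
  Hsm Q N M v u j j' k k' → ∀ (m : ℝ), 0 < m → ∀ x : D, ∃ c0 c1 c2 : ℝ, 0 ≤ c1 ∧ c2 ≤ 0 ∧
    ∀ t : ℝ, dg m (fun p => inner ℂ (v p.1 x) (k' (v p.2 x))) t = c0 + c1 * Real.exp (2 * Real.pi * t) +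
      c2 * Real.exp (-(2 * Real.pi * t)) ∧
    dg m (fun p => inner ℂ (v p.1 (j x)) (k' (v p.2 (j x)))) t =
      -c0 + c1 * Real.exp (2 * Real.pi * t) + c2 * Real.exp (-(2 * Real.pi * t))

/-- block C: the theorem on half-sided modular inclusions -/
def HStmt (D : Type*) [NormedAddCommGroup D] [InnerProductSpace ℂ D] : Prop :=
  ∀ (Q : Theory D) (N M : Set (D → D)) (v u : ℝ → D → D) (j j' k k' : D → D),
  Hsm Q N M v u j j' k k' → ∀ (x y : D) (t : ℝ), inner ℂ (v (-t) y) (k' (v (-t) x)) =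
    inner ℂ y (k x + (Real.exp (-(2 * Real.pi * t)) : ℂ) • (k' x - k x))

/-- block L -/
def LStmt (D : Type*) [NormedAddCommGroup D] [InnerProductSpace ℂ D] : Prop :=
  ∀ (Q : Theory D) (N M : Set (D → D)) (v u : ℝ → D → D) (j j' k k' : D → D),
  Hsm Q N M v u j j' k k' → ∀ (x : D) (t : ℝ), u t (k (u (-t) x)) =
    k' x + (Real.exp (-(2 * Real.pi * t)) : ℂ) • (k x - k' x)

/-- uniqueness of the modular Hamiltonian -/
def UStmt (D : Type*) [NormedAddCommGroup D] [InnerProductSpace ℂ D] : Prop :=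
  ∀ (Q : Theory D) (N : Set (D → D)) (v u : ℝ → D → D) (j j' k k' : D → D),
  Modl Q N v j k → Modl Q N u j' k' → ∀ x, k x = k' x

end Vale.Agent.P352.HM

end
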